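import Crest.Agent.N206.TA.Defs

-- ▼ part N206/TA/Mean
section

/-!
# Row 206, Theorem A: means over finite types and random signs (helper22)
-/

set_option autoImplicit false

noncomputable section

open scoped Classical

namespace Crest.Agent.N206.TA

/-- the mean over a finite type -/
def mean {Ω : Type} [Fintype Ω] (F : Ω → ℝ) : ℝ := (∑ ω, F ω) / (Fintype.card Ω : ℝ)

/-- the sign of a bit -/
def sg (b : Bool) : ℝ := if b then 1 else -1

theorem abs_sg (b : Bool) : |sg b| = 1 := by cases b <;> simp [sg]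

theorem sg_mul_sg (b : Bool) : sg b * sg b = 1 := by cases b <;> simp [sg]

theorem sg_not (b : Bool) : sg (!b) = - sg b := by cases b <;> simp [sg]

section

variable {Ω : Type} [Fintype Ω]

theorem mean_mono {F G : Ω → ℝ} (h : ∀ ω, F ω ≤ G ω) : mean F ≤ mean G :=
  div_le_div_of_nonneg_right (Finset.sum_le_sum fun ω _ => h ω) (Nat.cast_nonneg _)

theorem mean_congr {F G : Ω → ℝ} (h : ∀ ω, F ω = G ω) : mean F = mean G := by
  rw [show F = G from funext h]

theorem mean_add (F G : Ω → ℝ) : mean (fun ω => F ω + G ω) = mean F + mean G := by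
  simp only [mean, Finset.sum_add_distrib, add_div]

theorem mean_sub (F G : Ω → ℝ) : mean (fun ω => F ω - G ω) = mean F - mean G := by
  simp only [mean, Finset.sum_sub_distrib, sub_div]

theorem mean_mul_left (c : ℝ) (F : Ω → ℝ) : mean (fun ω => c * F ω) = c * mean F := by
  simp only [mean, ← Finset.mul_sum, mul_div_assoc]

theorem mean_mul_right (c : ℝ) (F : Ω → ℝ) : mean (fun ω => F ω * c) = mean F * c := by
  simp only [mean, ← Finset.sum_mul]; ring

theorem mean_const [Nonempty Ω] (c : ℝ) : mean (fun _ : Ω => c) = c := by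
  have : (Fintype.card Ω : ℝ) ≠ 0 := by exact_mod_cast Fintype.card_ne_zero
  simp only [mean, Finset.sum_const, Finset.card_univ, nsmul_eq_mul]
  field_simp

theorem mean_zero : mean (fun _ : Ω => (0 : ℝ)) = 0 := by simp [mean]

theorem mean_sum {ι : Type} (s : Finset ι) (F : ι → Ω → ℝ) :
    mean (fun ω => ∑ i ∈ s, F i ω) = ∑ i ∈ s, mean (F i) := by
  simp only [mean]
  rw [Finset.sum_comm, Finset.sum_div]


theorem abs_mean_le (F : Ω → ℝ) : |mean F| ≤ mean (fun ω => |F ω|) := by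
  simp only [mean, abs_div, Nat.abs_cast]
  exact div_le_div_of_nonneg_right (Finset.abs_sum_le_sum_abs _ _) (Nat.cast_nonneg _)

end

variable {V : Type} [Fintype V]


theorem mean_succ {n : ℕ} (F : Om V (n + 1) → ℝ) :
    mean F = mean (fun e : V → Bool => mean (fun ω : Om V n => F (Fin.cons e ω))) := by
  have h1 : ∑ ω, F ω = ∑ e : V → Bool, ∑ ω : Om V n, F (Fin.cons e ω) := by
    rw [← Fintype.sum_prod_type' (f := fun (e : V → Bool) (ω : Om V n) => F (Fin.cons e ω))]
    exact (Fintype.sum_equiv (Fin.consEquiv fun _ => V → Bool) _ _ fun _ => rfl).symm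
  have h2 : (Fintype.card (Om V (n + 1)) : ℝ) =
      (Fintype.card (V → Bool) : ℝ) * (Fintype.card (Om V n) : ℝ) := by
    rw [← Nat.cast_mul, ← Fintype.card_prod]
    exact_mod_cast (Fintype.card_congr (Fin.consEquiv fun _ => V → Bool)).symm
  simp only [mean]
  rw [h1, h2, ← Finset.sum_div, div_div, mul_comm]

theorem mean_sg (l : V) : mean (fun e : V → Bool => sg (e l)) = 0 := by
  have hinv : Function.Involutive (fun e : V → Bool => fun v => !(e v)) := by
    intro e; funext v; simp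
  have h : ∑ e : V → Bool, sg (e l) = ∑ e : V → Bool, - sg (e l) := by
    rw [← Equiv.sum_comp hinv.toPerm]
    exact Finset.sum_congr rfl fun e _ => sg_not _
  rw [Finset.sum_neg_distrib] at h
  have h0 : ∑ e : V → Bool, sg (e l) = 0 := by linarith
  simp only [mean, h0, zero_div]

theorem mean_aff (a b : ℝ) (l : V) : mean (fun e : V → Bool => a + b * sg (e l)) = a := by
  rw [mean_add, mean_const, mean_mul_left, mean_sg]; ring

theorem mean_sg_sg (l l' : V) :
    mean (fun e : V → Bool => sg (e l) * sg (e l')) = if l = l' then 1 else 0 := by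
  split_ifs with h
  · subst h
    simp only [sg_mul_sg]; exact mean_const _
  · have hinv : Function.Involutive
        (fun e : V → Bool => Function.update e l (!(e l))) := by
      intro e; funext v
      by_cases hv : v = l
      · subst hv; simp
      · simp [Function.update_of_ne hv]
    have h1 : ∑ e : V → Bool, sg (e l) * sg (e l') = ∑ e : V → Bool, - (sg (e l) * sg (e l')) := by
      rw [← Equiv.sum_comp hinv.toPerm]
      refine Finset.sum_congr rfl fun e _ => ?_
      simp only [Function.Involutive.coe_toPerm, Function.update_self,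
        Function.update_of_ne (Ne.symm h), sg_not]
      ring
    rw [Finset.sum_neg_distrib] at h1
    have h0 : ∑ e : V → Bool, sg (e l) * sg (e l') = 0 := by linarith
    simp only [mean, h0, zero_div]

end Crest.Agent.N206.TA
end
end

-- ▼ part N206/TA/Alg1

/-!
# Row 206, Theorem A: gluing the results of the subdomains (helper22)
-/

set_option autoImplicit false

noncomputable section

open scoped Classical

namespace Crest.Agent.N206.TA

open Crest.GeometryTopology.GraphMetric Crest.Agent.N206.PL Crest.Agent.R206.Iface534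

variable {V : Type} [Fintype V]

/-- the functions produced for a domain -/
structure Res (E : Env V) (n : ℕ) (w : ℝ) (D : Dom V) where
  Xf : V → ℝ
  u : ℝ → ℝ → Om V n → V → ℝ
  αe : V → V → ℝ
  lip : E.LipOn 1 Set.univ Xf
  off : ∀ p, p ∉ D.Terr E w → Xf p = D.X p
  near : ∀ p, |Xf p - D.X p| ≤ 2 * (130 * cc * w)
  uoff : ∀ A ξ ω p, p ∉ D.Terr E w → u A ξ ω p = 0
  ubd : ∀ A ξ, 0 ≤ A → ∀ ω p, |u A ξ ω p| ≤ (A + |ξ|) * w
  umean : ∀ A ξ p, mean (fun ω => u A ξ ω p) = 0
  αbd : ∀ p q, |αe p q| ≤ 1 / 2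
  load : ∀ A ξ, 0 ≤ A → ∀ p q, E.G.Adj p q →
    mean (fun ω => |inc E A ξ Xf (u A ξ ω) p q|) ≤ 5 * (A + |ξ| / 2 + ξ * αe p q) * E.ℓ s(p, q)

/-- the pair is served -/
def Res.Good {E : Env V} {n : ℕ} {w : ℝ} {D : Dom V} (r : Res E n w D) (x y : V) : Prop :=
  c2 * E.d x y ≤ |r.Xf x - r.Xf y| ∨
    (∀ A ξ, 0 ≤ A → c2 * E.d x y * A ≤ mean (fun ω => |inc E A ξ r.Xf (r.u A ξ ω) x y|)) ∨
    ∃ α : ℝ, |α| ≤ 1 / 2 ∧ ∀ A ξ, 0 ≤ A → c2 * E.d x y * ((A + |ξ| / 2 + ξ * α) / 2) ≤
      mean (fun ω => |inc E A ξ r.Xf (r.u A ξ ω) x y|)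

omit [Fintype V] in
theorem pi_edge (E : Env V) {p q : V} (h : E.G.Adj p q) : |E.π p - E.π q| ≤ E.ℓ s(p, q) := by
  have h1 := wdist_triangle E.wg.conn E.wg.pos E.s p q
  have h2 := wdist_triangle E.wg.conn E.wg.pos E.s q p
  have h3 := wdist_edge_le E.wg.pos h
  have h4 := wdist_comm E.wg.conn E.wg.pos p q
  simp only [Env.π]
  rw [abs_le]; constructor <;> linarith

omit [Fintype V] in
theorem ell_pos (E : Env V) {p q : V} (h : E.G.Adj p q) : 0 < E.ℓ s(p, q) :=
  E.wg.pos _ (by simpa using h)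

omit [Fintype V] in
theorem d_nonneg (E : Env V) (p q : V) : 0 ≤ E.d p q := wdist_nonneg E.wg.conn E.wg.pos p q

theorem xi_al {ξ α : ℝ} (h : |α| ≤ 1 / 2) : 0 ≤ |ξ| / 2 + ξ * α ∧ ξ * α ≤ |ξ| / 2 := by
  have h1 : |ξ * α| ≤ |ξ| / 2 := by
    rw [abs_mul]; nlinarith [abs_nonneg ξ]
  rw [abs_le] at h1
  constructor <;> linarith [h1.1, h1.2]

/-- the trivial result -/
def Res.triv (E : Env V) (n : ℕ) {w : ℝ} {D : Dom V} (hw : 0 ≤ w) (hX : E.LipOn 1 Set.univ D.X) :
    Res E n w D where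
  Xf := D.X
  u := fun _ _ _ _ => 0
  αe := fun _ _ => 0
  lip := hX
  off := fun _ _ => rfl
  near := fun p => by simp only [sub_self, abs_zero, cc]; positivity
  uoff := fun _ _ _ _ _ => rfl
  ubd := fun A ξ hA _ _ => by simp only [abs_zero]; positivity
  umean := fun _ _ _ => mean_zero
  αbd := fun _ _ => by norm_num
  load := fun A ξ hA p q h => by
    rw [mean_const]
    have h1 := pi_edge E h
    have h2 := hX p trivial q trivial h
    have h3 := ell_pos E h
    simp only [inc, sub_self, add_zero, mul_zero]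
    have h4 : 0 ≤ A + |ξ| / 2 := by positivity
    calc |(A + |ξ| / 2) * (E.π p - E.π q) + ξ * (D.X p - D.X q)|
        ≤ (A + |ξ| / 2) * |E.π p - E.π q| + |ξ| * |D.X p - D.X q| := by
          refine (abs_add_le _ _).trans ?_
          rw [abs_mul, abs_mul, abs_of_nonneg h4]
      _ ≤ (A + |ξ| / 2) * E.ℓ s(p, q) + |ξ| * (1 * E.ℓ s(p, q)) := by gcongr
      _ ≤ _ := by nlinarith [abs_nonneg ξ]

namespace Stage

variable {E : Env V} {w : ℝ} {D : Dom V} (T : Stage E w D) {n : ℕ}

instance : Fintype T.ι := T.fin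

/-- the territory of a subdomain -/
def ter (i : T.ι) : Set V := (T.sub i).Terr E (w / K0)

/-- `p` is in or next to the territory of `i` -/
def Near (i : T.ι) (p : V) : Prop := ∃ q, q ∈ T.ter i ∧ (p = q ∨ E.G.Adj p q)

/-- the first parameter passed to a subdomain -/
def pA (i : T.ι) (A ξ : ℝ) (e : V → Bool) : ℝ :=
  match T.kind i with
  | Kind.plain => A
  | Kind.tent => A + A * T.a i * sg (e (T.cell i))
  | Kind.ramp => A / 2 + |ξ| / 2 + ξ * T.a i

/-- the second parameter passed to a subdomain -/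
def pξ (i : T.ι) (A ξ : ℝ) (e : V → Bool) : ℝ :=
  match T.kind i with
  | Kind.plain => ξ
  | Kind.tent => ξ
  | Kind.ramp => A * sg (e (T.cell i))

omit [Fintype V] in
theorem pA_nonneg (i : T.ι) {A : ℝ} (ξ : ℝ) (hA : 0 ≤ A) (e : V → Bool) : 0 ≤ T.pA i A ξ e := by
  have h := T.slope i
  unfold pA
  split
  · exact hA
  · have h1 : |T.a i * sg (e (T.cell i))| ≤ 1 / 2 := by rw [abs_mul, abs_sg, mul_one]; exact h
    rw [abs_le] at h1
    nlinarith [h1.1]
  · linarith [(xi_al (ξ := ξ) h).1]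

omit [Fintype V] in
theorem pA_le (i : T.ι) {A : ℝ} (ξ : ℝ) (hA : 0 ≤ A) (e : V → Bool) :
    T.pA i A ξ e + |T.pξ i A ξ e| ≤ 2 * (A + |ξ|) := by
  have h := T.slope i
  have h0 := abs_nonneg ξ
  unfold pA pξ
  split
  · linarith
  · have h1 : |T.a i * sg (e (T.cell i))| ≤ 1 / 2 := by rw [abs_mul, abs_sg, mul_one]; exact h
    rw [abs_le] at h1
    nlinarith [h1.2]
  · rw [abs_mul, abs_sg, abs_of_nonneg hA]
    linarith [(xi_al (ξ := ξ) h).2]

omit [Fintype V] in
theorem Near.not_mem {T : Stage E w D} {i j : T.ι} {p : V} (h : T.Near i p) (hj : j ≠ i) :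
    p ∉ T.ter j := by
  obtain ⟨q, hq, hpq⟩ := h
  exact fun hp => hj (T.apart j i p q hp hq hpq)

omit [Fintype V] in
theorem near_of_mem {i : T.ι} {p : V} (h : p ∈ T.ter i) : T.Near i p := ⟨p, h, Or.inl rfl⟩

omit [Fintype V] in
theorem Near.loc {T : Stage E w D} {i : T.ι} {p : V} (h : T.Near i p) :
    (∀ l, l ≠ T.cell i → T.g l p = 0) ∧ (T.kind i = Kind.plain → T.g (T.cell i) p = 0) ∧
      (T.kind i = Kind.tent → T.g (T.cell i) p = T.a i * E.π p + T.a0 i) ∧
      (T.kind i = Kind.ramp → T.X' p = T.a i * E.π p + T.a0 i) := by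
  obtain ⟨q, hq, hpq⟩ := h
  exact T.loc i p q hq hpq

variable (r : ∀ i, Res E n (w / K0) (T.sub i))

/-- the modification made in a subdomain -/
def dX (i : T.ι) (p : V) : ℝ := (r i).Xf p - (T.sub i).X p

/-- the new exceptional function -/
def gX (p : V) : ℝ := T.X' p + ∑ i, if T.kind i = Kind.ramp then 0 else T.dX r i p

/-- the final bumps -/
def gf (l p : V) : ℝ :=
  T.g l p + ∑ i, if T.kind i = Kind.ramp ∧ T.cell i = l then T.dX r i p else 0

/-- the noise of the subdomains -/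
def su (A ξ : ℝ) (e : V → Bool) (ω : Om V n) (p : V) : ℝ :=
  ∑ i, (r i).u (T.pA i A ξ e) (T.pξ i A ξ e) ω p

/-- the noise of the cells -/
def cu (e : V → Bool) (p : V) : ℝ := ∑ l, sg (e l) * T.gf r l p

/-- the new noise -/
def gu (A ξ : ℝ) (ω : Om V (n + 1)) (p : V) : ℝ :=
  A * T.cu r (ω 0) p + T.su r A ξ (ω 0) (Fin.tail ω) p

theorem gu_cons (A ξ : ℝ) (e : V → Bool) (ω : Om V n) (p : V) :
    T.gu r A ξ (Fin.cons e ω) p = A * T.cu r e p + T.su r A ξ e ω p := by
  simp only [gu, Fin.cons_zero, Fin.tail_cons]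

theorem dX_off {i : T.ι} {p : V} (h : p ∉ T.ter i) : T.dX r i p = 0 := by
  simp only [dX, (r i).off p h, sub_self]

theorem dX_bd (i : T.ι) (p : V) : |T.dX r i p| ≤ 2 * (130 * cc * (w / K0)) := (r i).near p

theorem gX_near {i : T.ι} {p : V} (h : T.Near i p) :
    T.gX r p = if T.kind i = Kind.ramp then T.X' p else (r i).Xf p := by
  unfold gX
  rw [Finset.sum_eq_single i (fun j _ hj => by rw [T.dX_off r (h.not_mem hj)]; simp) (by simp)]
  split_ifs with hk
  · simp
  · rw [dX, (T.subX i).2 hk]; ring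

theorem gX_far {p : V} (h : ∀ i, p ∉ T.ter i) : T.gX r p = T.X' p := by
  unfold gX
  rw [Finset.sum_eq_zero (fun j _ => by rw [T.dX_off r (h j)]; simp), add_zero]

theorem gf_near {i : T.ι} {p : V} (h : T.Near i p) (l : V) :
    T.gf r l p = T.g l p + if T.kind i = Kind.ramp ∧ T.cell i = l then T.dX r i p else 0 := by
  unfold gf
  rw [Finset.sum_eq_single i (fun j _ hj => by rw [T.dX_off r (h.not_mem hj)]; simp) (by simp)]

theorem gf_far {p : V} (h : ∀ i, p ∉ T.ter i) (l : V) : T.gf r l p = T.g l p := by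
  unfold gf
  rw [Finset.sum_eq_zero (fun j _ => by rw [T.dX_off r (h j)]; simp), add_zero]

theorem cu_near {i : T.ι} {p : V} (h : T.Near i p) (e : V → Bool) :
    T.cu r e p = sg (e (T.cell i)) *
      (if T.kind i = Kind.ramp then (r i).Xf p else T.g (T.cell i) p) := by
  unfold cu
  rw [Finset.sum_eq_single (T.cell i) (fun l _ hl => ?_) (by simp), T.gf_near r h]
  · split_ifs with h1 h2 h2
    · rw [dX, (T.subX i).1 h2]; ring
    · exact absurd h1.1 h2
    · exact absurd ⟨h2, rfl⟩ h1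
    · ring
  · rw [T.gf_near r h, h.loc.1 l hl, if_neg (fun h' => hl h'.2.symm)]; ring

theorem su_near {i : T.ι} {p : V} (h : T.Near i p) (A ξ : ℝ) (e : V → Bool) (ω : Om V n) :
    T.su r A ξ e ω p = (r i).u (T.pA i A ξ e) (T.pξ i A ξ e) ω p := by
  unfold su
  rw [Finset.sum_eq_single i (fun j _ hj => (r j).uoff _ _ _ _ (h.not_mem hj)) (by simp)]

theorem su_far {p : V} (h : ∀ i, p ∉ T.ter i) (A ξ : ℝ) (e : V → Bool) (ω : Om V n) :
    T.su r A ξ e ω p = 0 :=
  Finset.sum_eq_zero fun j _ => (r j).uoff _ _ _ _ (h j)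

theorem su_mean (A ξ : ℝ) (e : V → Bool) (p : V) : mean (fun ω => T.su r A ξ e ω p) = 0 := by
  unfold su
  rw [mean_sum]
  exact Finset.sum_eq_zero fun i _ => (r i).umean _ _ _

/-- near a territory the increment is the increment of the subdomain -/
theorem inc_near {i : T.ι} {p q : V} (hp : T.Near i p) (hq : T.Near i q) {A : ℝ} (hA : 0 ≤ A)
    (ξ : ℝ) (e : V → Bool) (ω : Om V n) :
    inc E A ξ (T.gX r) (T.gu r A ξ (Fin.cons e ω)) p q =
      inc E (T.pA i A ξ e) (T.pξ i A ξ e) (r i).Xf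
        ((r i).u (T.pA i A ξ e) (T.pξ i A ξ e) ω) p q := by
  simp only [inc, gu_cons, T.gX_near r hp, T.gX_near r hq, T.cu_near r hp, T.cu_near r hq,
    T.su_near r hp, T.su_near r hq]
  generalize (r i).u (T.pA i A ξ e) (T.pξ i A ξ e) ω p = up
  generalize (r i).u (T.pA i A ξ e) (T.pξ i A ξ e) ω q = uq
  have h1 := hp.loc
  have h2 := hq.loc
  unfold pA pξ
  cases hk : T.kind i with
  | plain =>
    simp only [reduceCtorEq, if_false, h1.2.1 hk, h2.2.1 hk]; ring
  | tent =>
    simp only [reduceCtorEq, if_false, h1.2.2.1 hk, h2.2.2.1 hk]; ring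
  | ramp =>
    simp only [if_true, h1.2.2.2 hk, h2.2.2.2 hk, abs_mul, abs_sg, abs_of_nonneg hA]; ring

theorem gf_sub_bd (hw : 0 ≤ w) (l p : V) :
    |T.gf r l p - T.g l p| ≤ 2 * (130 * cc * (w / K0)) := by
  have h0 : 0 ≤ 2 * (130 * cc * (w / K0)) := by simp only [cc, K0]; positivity
  by_cases h : ∃ i, p ∈ T.ter i
  · obtain ⟨i, hi⟩ := h
    rw [T.gf_near r (T.near_of_mem hi), add_sub_cancel_left]
    split_ifs
    · exact T.dX_bd r i p
    · simpa using h0
  · push Not at h
    rw [T.gf_far r h]; simpa using h0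

theorem gX_sub_bd (hw : 0 ≤ w) (p : V) :
    |T.gX r p - T.X' p| ≤ 2 * (130 * cc * (w / K0)) := by
  have h0 : 0 ≤ 2 * (130 * cc * (w / K0)) := by simp only [cc, K0]; positivity
  by_cases h : ∃ i, p ∈ T.ter i
  · obtain ⟨i, hi⟩ := h
    rw [T.gX_near r (T.near_of_mem hi)]
    split_ifs with hk
    · simpa using h0
    · rw [← (T.subX i).2 hk]; exact T.dX_bd r i p
  · push Not at h
    rw [T.gX_far r h]; simpa using h0

omit [Fintype V] in
/-- at most one bump is present on an edge -/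
theorem one_cell {p q : V} (h : p = q ∨ E.G.Adj p q) :
    ∃ l, ∀ l', l' ≠ l → T.g l' p = 0 ∧ T.g l' q = 0 := by
  by_cases h1 : ∃ l, T.g l p ≠ 0
  · obtain ⟨l, hl⟩ := h1
    refine ⟨l, fun l' hl' => ⟨?_, ?_⟩⟩
    · by_contra h2; exact hl' (T.oneg l' l p p (Or.inl rfl) h2 hl)
    · by_contra h2; exact hl' (T.oneg l l' p q h hl h2).symm
  · push Not at h1
    by_cases h2 : ∃ l, T.g l q ≠ 0
    · obtain ⟨l, hl⟩ := h2
      refine ⟨l, fun l' hl' => ⟨h1 _, ?_⟩⟩
      by_contra h2; exact hl' (T.oneg l' l q q (Or.inl rfl) h2 hl)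
    · push Not at h2
      exact ⟨p, fun l' _ => ⟨h1 _, h2 _⟩⟩

theorem cu_bd (hw : 0 ≤ w) (e : V → Bool) (p : V) :
    |T.cu r e p| ≤ cc * w + 2 * (130 * cc * (w / K0)) := by
  have h0 : 0 ≤ 2 * (130 * cc * (w / K0)) := by simp only [cc, K0]; positivity
  by_cases h : ∃ i, p ∈ T.ter i
  · obtain ⟨i, hi⟩ := h
    rw [T.cu_near r (T.near_of_mem hi), abs_mul, abs_sg, one_mul]
    have h1 := T.bdg (T.cell i) p
    split_ifs with hk
    · have h2 := T.dX_bd r i p
      rw [dX, (T.subX i).1 hk] at h2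
      have := abs_add_le (T.g (T.cell i) p) ((r i).Xf p - T.g (T.cell i) p)
      rw [add_sub_cancel] at this
      linarith
    · linarith
  · push Not at h
    obtain ⟨l, hl⟩ := T.one_cell (p := p) (q := p) (Or.inl rfl)
    unfold cu
    rw [Finset.sum_eq_single l (fun l' _ hl' => by rw [T.gf_far r h, (hl l' hl').1, mul_zero])
      (by simp), T.gf_far r h, abs_mul, abs_sg, one_mul]
    linarith [T.bdg l p]

theorem cu_mean (p : V) : mean (fun e => T.cu r e p) = 0 := by
  unfold cu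
  rw [mean_sum]
  refine Finset.sum_eq_zero fun l _ => ?_
  rw [mean_mul_right, mean_sg, zero_mul]

theorem cu_corr (l p : V) : mean (fun e => sg (e l) * T.cu r e p) = T.gf r l p := by
  unfold cu
  simp only [Finset.mul_sum, ← mul_assoc]
  rw [mean_sum]
  simp only [mean_mul_right, mean_sg_sg, ite_mul, one_mul, zero_mul]
  simp

end Stage

end Crest.Agent.N206.TA
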