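import Crest.Agent.N206.TA.Basic
import Crest.Agent.N206.PL.Basic2

-- ▼ part N206/TA/Gain1
section

/-!
# Row 206, S0317, Theorem A, leaf Gain, part 1: legs, lines, gates, three gates lemma (helper6)
-/

set_option autoImplicit false

noncomputable section

open scoped Classical

namespace Crest.Agent.N206.TA.Gn

open Crest.GeometryTopology.GraphMetric Crest.Agent.N206.PL

variable {V : Type}

/-- `b` is joined to `A` inside `A ∪ (B \ (A' ∪ A''))` -/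
def Leg (G : SimpleGraph V) (b : V) (B A A' A'' : Set V) : Prop :=
  ∃ a ∈ A, a ∈ cmp G {v | v ∈ A ∨ (v ∈ B ∧ v ∉ A' ∧ v ∉ A'')} b

theorem Leg.start {G : SimpleGraph V} {b : V} {B A A' A'' : Set V} (h : Leg G b B A A' A'') :
    b ∈ A ∨ (b ∈ B ∧ b ∉ A' ∧ b ∉ A'') :=
  let ⟨_, _, p, hp⟩ := h
  hp b p.start_mem_support

theorem Leg.tch {G : SimpleGraph V} {b : V} {B A A' A'' U : Set V} (h : Leg G b B A A' A'')
    (hb : b ∉ U) (hA : A ⊆ U) (hU : ∀ v ∈ U, v ∈ A ∨ v ∈ A' ∨ v ∈ A'') :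
    Tch G A (cmp G (B \ U) b) := by
  obtain ⟨a, ha, p, hp⟩ := h
  obtain ⟨c, a', hca, p₁, p₂, rfl, ha', h1⟩ :=
    first_exit p A (fun h => hb (hA h)) ⟨a, p.end_mem_support, ha⟩
  refine ⟨a', ha', c, ⟨p₁, fun v hv => ?_⟩, hca.symm⟩
  rcases hp v (SimpleGraph.Walk.support_subset_support_append_left _ _ hv) with h2 | h2
  · exact absurd h2 (h1 v hv)
  · exact ⟨h2.1, fun h3 => by
      rcases hU v h3 with h4 | h4 | h4
      exacts [h1 v hv h4, h2.2.1 h4, h2.2.2 h4]⟩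

/-- `K₃₃` with three branch sets given by hubs and legs -/
theorem k33w {G : SimpleGraph V} (h : MF G) (A₁ A₂ A₃ B₁ B₂ B₃ : Set V) (b₁ b₂ b₃ : V)
    (a₁ : Cn G A₁) (a₂ : Cn G A₂) (a₃ : Cn G A₃) (a12 : Disjoint A₁ A₂) (a13 : Disjoint A₁ A₃)
    (a23 : Disjoint A₂ A₃) (b12 : Disjoint B₁ B₂) (b13 : Disjoint B₁ B₃) (b23 : Disjoint B₂ B₃)
    (l11 : Leg G b₁ B₁ A₁ A₂ A₃) (l12 : Leg G b₁ B₁ A₂ A₁ A₃) (l13 : Leg G b₁ B₁ A₃ A₁ A₂)
    (l21 : Leg G b₂ B₂ A₁ A₂ A₃) (l22 : Leg G b₂ B₂ A₂ A₁ A₃) (l23 : Leg G b₂ B₂ A₃ A₁ A₂)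
    (l31 : Leg G b₃ B₃ A₁ A₂ A₃) (l32 : Leg G b₃ B₃ A₂ A₁ A₃) (l33 : Leg G b₃ B₃ A₃ A₁ A₂) :
    False := by
  set U := A₁ ∪ A₂ ∪ A₃ with hU
  have key : ∀ {b B}, Leg G b B A₁ A₂ A₃ → Leg G b B A₂ A₁ A₃ → Leg G b B A₃ A₁ A₂ →
      Cn G (cmp G (B \ U) b) ∧ Tch G A₁ (cmp G (B \ U) b) ∧ Tch G A₂ (cmp G (B \ U) b) ∧
      Tch G A₃ (cmp G (B \ U) b) := by
    intro b B l1 l2 l3
    have e12 : b ∈ A₁ → b ∉ A₂ := fun h => Set.disjoint_left.1 a12 h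
    have e13 : b ∈ A₁ → b ∉ A₃ := fun h => Set.disjoint_left.1 a13 h
    have s1 := l1.start
    have s2 := l2.start
    have hb : b ∈ B ∧ b ∉ U := by simp only [hU, Set.mem_union]; tauto
    exact ⟨cn_cmp hb, l1.tch hb.2 (fun v h => by simp [hU, h]) fun v => by simp [hU]; tauto,
      l2.tch hb.2 (fun v h => by simp [hU, h]) fun v => by simp [hU]; tauto,
      l3.tch hb.2 (fun v h => by simp [hU, h]) fun v => by simp [hU]; tauto⟩
  obtain ⟨c1, t11, t21, t31⟩ := key l11 l12 l13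
  obtain ⟨c2, t12, t22, t32⟩ := key l21 l22 l23
  obtain ⟨c3, t13, t23, t33⟩ := key l31 l32 l33
  have dB : ∀ {B B' : Set V} {b b'}, Disjoint B B' →
      Disjoint (cmp G (B \ U) b) (cmp G (B' \ U) b') := fun h =>
    h.mono (fun _ hv => (cmp_sub _ _ hv).1) fun _ hv => (cmp_sub _ _ hv).1
  have dA : ∀ {A B : Set V} {b}, A ⊆ U → Disjoint A (cmp G (B \ U) b) := fun h =>
    Set.disjoint_left.2 fun _ hv hv' => (cmp_sub _ _ hv').2 (h hv)
  have u1 : A₁ ⊆ U := fun v h => by simp [hU, h]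
  have u2 : A₂ ⊆ U := fun v h => by simp [hU, h]
  have u3 : A₃ ⊆ U := fun v h => by simp [hU, h]
  exact h.k33' _ _ _ _ _ _ a₁ a₂ a₃ c1 c2 c3 a12 a13 a23 (dB b12) (dB b13) (dB b23) (dA u1) (dA u1)
    (dA u1) (dA u2) (dA u2) (dA u2) (dA u3) (dA u3) (dA u3) t11 t12 t13 t21 t22 t23 t31 t32 t33

/-- a geodesic from `s` to `T` through `z` -/
structure Line (E : Env V) (z : V) where
  L : Set V
  τ : V
  τT : τ ∈ E.T
  ms : E.s ∈ L
  mz : z ∈ L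
  mτ : τ ∈ L
  seg : ∀ u ∈ L, ∀ v ∈ L, E.π u ≤ E.π v → ∃ p : E.G.Walk u v, wl E.ℓ p = E.π v - E.π u ∧
    ∀ a ∈ p.support, a ∈ L ∧ E.π u ≤ E.π a ∧ E.π a ≤ E.π v

theorem exists_line [Fintype V] (E : Env V) {z : V} (hz : z ∈ E.Sg) : Nonempty (Line E z) := by
  obtain ⟨τ, hτ, h⟩ := E.st.tight z hz
  obtain ⟨p, hp⟩ := E.d_geo E.s z
  obtain ⟨q, hq⟩ := E.d_geo z τ
  obtain ⟨Q, hn, hv, h0, -⟩ := E.wg.geo_of_walk (p.append q) (le_antisymm (by
    rw [TA.wl_append, hp, hq]; exact h.trans (E.st.high τ hτ)) (E.wg.le_wl _))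
  have hπ : ∀ i ≤ Q.n, E.π (Q.v i) = Q.pos i := fun i hi => by
    have := Q.dist 0 i (Nat.zero_le _) hi
    rwa [h0, sub_zero, hv 0, SimpleGraph.Walk.getVert_zero] at this
  have hm : ∀ v ∈ (p.append q).support, ∃ i ≤ Q.n, Q.v i = v := fun v h => by
    obtain ⟨i, h1, h2⟩ := SimpleGraph.Walk.mem_support_iff_exists_getVert.1 h
    exact ⟨i, hn ▸ h2, (hv i).trans h1⟩
  refine ⟨⟨{v | ∃ i ≤ Q.n, Q.v i = v}, τ, hτ, hm _ (SimpleGraph.Walk.start_mem_support _),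
    hm _ (SimpleGraph.Walk.support_subset_support_append_left _ _ p.end_mem_support),
    hm _ (SimpleGraph.Walk.end_mem_support _), ?_⟩⟩
  rintro _ ⟨i, hi, rfl⟩ _ ⟨j, hj, rfl⟩ hij
  rw [hπ i hi, hπ j hj] at hij ⊢
  have : i ≤ j := not_lt.1 fun h => absurd (Q.pos_lt E.wg h hi) (not_lt.2 hij)
  obtain ⟨r, h1, h2⟩ := Q.walk this hj
  refine ⟨r, h1, fun a ha => ?_⟩
  obtain ⟨k, k1, k2, rfl⟩ := (h2 a).1 ha
  rw [hπ k (k2.trans hj)]
  exact ⟨⟨k, k2.trans hj, rfl⟩, Q.pos_mono E.wg k1 (k2.trans hj), Q.pos_mono E.wg k2 hj⟩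

namespace Line

variable {E : Env V} {z : V} (P : Line E z)

theorem d_le {u v : V} (hu : u ∈ P.L) (hv : v ∈ P.L) (h : E.π u ≤ E.π v) :
    E.d u v ≤ E.π v - E.π u := by
  obtain ⟨p, hp, -⟩ := P.seg u hu v hv h
  exact hp ▸ E.d_le_wl p

theorem cmp_seg {u v : V} (hu : u ∈ P.L) (hv : v ∈ P.L) (h : E.π u ≤ E.π v) {W : Set V}
    (hW : ∀ a ∈ P.L, E.π u ≤ E.π a → E.π a ≤ E.π v → a ∈ W) : v ∈ cmp E.G W u := by
  obtain ⟨p, -, hp⟩ := P.seg u hu v hv h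
  exact ⟨p, fun a ha => hW a (hp a ha).1 (hp a ha).2.1 (hp a ha).2.2⟩

theorem cmp_down {v : V} (hv : v ∈ P.L) {W : Set V} (hW : ∀ a ∈ P.L, E.π a ≤ E.π v → a ∈ W) :
    v ∈ cmp E.G W E.s :=
  P.cmp_seg P.ms hv (by rw [E.π_eq, E.d_self]; exact E.d_nonneg _ _) fun a ha _ => hW a ha

end Line

/-- a band of height `w` -/
structure Band (E : Env V) where
  w : ℝ
  β : ℝ
  ok : Sym2 V → Prop
  hw : 0 < w
  hΛ : 1000 * w ≤ E.Λ
  hβ : 0 < β
  hlam : β + w ≤ E.lam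
  hok : ∀ u ∈ E.slab β (β + w), ∀ v, E.G.Adj u v → (ok s(u, v) ↔ v ∈ E.slab β (β + w))

namespace Band

variable {E : Env V} (B : Band E)

/-- the slab -/
def K : Set V := E.slab B.β (B.β + B.w)

/-- the distance in the slab -/
def dK (u v : V) : ℝ := E.dR B.ok u v

theorem tri (x y z : V) : B.dK x z ≤ B.dK x y + B.dK y z := E.dR_tri _ _ _ _
theorem comm (x y : V) : B.dK x y = B.dK y x := E.dR_comm _ _ _
theorem nonneg (x y : V) : 0 ≤ B.dK x y := E.dR_nonneg _ _ _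
theorem self (x : V) : B.dK x x = 0 := E.dR_self _ _
theorem d_le (x y : V) : E.d x y ≤ B.dK x y := E.d_le_dR _ _ _

theorem dK_le_wl {u v : V} (p : E.G.Walk u v) (h : ∀ a ∈ p.support, a ∈ B.K) :
    B.dK u v ≤ wl E.ℓ p := by
  refine E.dR_le_wl _ p fun e he => ?_
  induction e using Sym2.ind with
  | h a b =>
    exact (B.hok a (h a (p.fst_mem_support_of_mem_edges he)) b (p.adj_of_mem_edges he)).2
      (h b (p.snd_mem_support_of_mem_edges he))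

theorem kwalk [Fintype V] {u v : V} (hu : u ∈ B.K) (h : B.dK u v ≤ 900 * B.w) :
    ∃ p : E.G.Walk u v, wl E.ℓ p = B.dK u v ∧
      ∀ a ∈ p.support, a ∈ B.K ∧ B.dK u a + B.dK a v ≤ B.dK u v := by
  obtain ⟨p, hp, ho⟩ := E.dR_walk B.ok (x := u) (y := v)
    (by linarith [B.hΛ, B.hw, show B.dK u v = E.dR B.ok u v from rfl])
  have hK : ∀ a ∈ p.support, a ∈ B.K := by
    clear hp h
    induction p with
    | nil => simpa using hu
    | cons ha p ih =>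
      have := ih ((B.hok _ hu _ ha).1 (ho _ (by simp))) fun e he => ho e (by simp [he])
      simpa using ⟨hu, this⟩
  refine ⟨p, hp, fun a ha => ⟨hK a ha, ?_⟩⟩
  have h1 := B.dK_le_wl (p.takeUntil a ha) fun b hb =>
    hK b (p.support_takeUntil_subset_support ha hb)
  have h2 := B.dK_le_wl (p.dropUntil a ha) fun b hb =>
    hK b (p.support_dropUntil_subset_support ha hb)
  have h3 := wl_take_drop (ℓ := E.ℓ) p ha
  rw [hp] at h3
  exact (add_le_add h1 h2).trans h3.le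

theorem mem_K [Fintype V] {u v : V} (hu : u ∈ B.K) (h : B.dK u v ≤ 900 * B.w) : v ∈ B.K :=
  let ⟨p, _, hp⟩ := B.kwalk hu h
  (hp v p.end_mem_support).1

theorem cmp_K [Fintype V] {u v : V} (hu : u ∈ B.K) (h : B.dK u v ≤ 900 * B.w) {W : Set V}
    (hW : ∀ a ∈ B.K, B.dK u a + B.dK a v ≤ B.dK u v → a ∈ W) : v ∈ cmp E.G W u :=
  let ⟨p, _, hp⟩ := B.kwalk hu h
  ⟨p, fun a ha => hW a (hp a ha).1 (hp a ha).2⟩

/-- the gate of a line -/
def gate {z : V} (P : Line E z) : Set V := P.L ∩ B.K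

variable {z : V} (P : Line E z)

theorem gate_walk {u v : V} (hu : u ∈ B.gate P) (hv : v ∈ B.gate P) (h : E.π u ≤ E.π v) :
    v ∈ cmp E.G (B.gate P) u ∧ B.dK u v ≤ B.w := by
  obtain ⟨p, h1, h2⟩ := P.seg u hu.1 v hv.1 h
  have h3 : ∀ a ∈ p.support, a ∈ B.K := fun a ha =>
    ⟨hu.2.1.trans (h2 a ha).2.1, (h2 a ha).2.2.trans_lt hv.2.2⟩
  exact ⟨⟨p, fun a ha => ⟨(h2 a ha).1, h3 a ha⟩⟩,
    (B.dK_le_wl p h3).trans (by linarith [hu.2.1, hv.2.2])⟩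

theorem cn_gate (hz : z ∈ B.K) : Cn E.G (B.gate P) :=
  ⟨⟨z, P.mz, hz⟩, fun u hu v hv => (le_total (E.π u) (E.π v)).elim
    (fun h => (B.gate_walk P hu hv h).1) fun h => cmp_symm (B.gate_walk P hv hu h).1⟩

theorem gate_dK (hz : z ∈ B.K) {v : V} (hv : v ∈ B.gate P) : B.dK z v ≤ B.w :=
  (le_total (E.π z) (E.π v)).elim (fun h => (B.gate_walk P ⟨P.mz, hz⟩ hv h).2)
    fun h => B.comm v z ▸ (B.gate_walk P hv ⟨P.mz, hz⟩ h).2

theorem high_T {v : V} (hv : v ∈ E.T) : B.β + B.w ≤ E.π v := B.hlam.trans (E.st.high v hv)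

/-- from the top down to the gate -/
theorem cmp_top (hz : z ∈ B.K) {τ : V} (hτ : τ ∈ E.T) {W : Set V} (h1 : E.T ⊆ W)
    (h2 : B.gate P ⊆ W) (h3 : ∀ a ∈ P.L, B.β + B.w ≤ E.π a → a ∈ W) : z ∈ cmp E.G W τ := by
  refine cmp_trans (cmp_mono h1 _ (E.st.conn.2 τ hτ P.τ P.τT)) (cmp_symm
    (P.cmp_seg P.mz P.mτ (hz.2.le.trans (B.high_T P.τT)) fun a ha h _ => ?_))
  rcases lt_or_ge (E.π a) (B.β + B.w) with h' | h'
  exacts [h2 ⟨ha, hz.1.trans h, h'⟩, h3 a ha h']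

/-- from the bottom up to the gate -/
theorem cmp_bot (hz : z ∈ B.K) {W : Set V} (h2 : B.gate P ⊆ W)
    (h3 : ∀ a ∈ P.L, E.π a < B.β → a ∈ W) : z ∈ cmp E.G W E.s := by
  refine P.cmp_down P.mz fun a ha h => ?_
  rcases lt_or_ge (E.π a) B.β with h' | h'
  exacts [h3 a ha h', h2 ⟨ha, h', h.trans_lt hz.2⟩]

/-- (TL) three gates are not joined to a common point of the band -/
theorem tl {z₁ z₂ z₃ m : V} (P₁ : Line E z₁) (P₂ : Line E z₂) (P₃ : Line E z₃) (h₁ : z₁ ∈ B.K)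
    (h₂ : z₂ ∈ B.K) (h₃ : z₃ ∈ B.K) (d12 : 2 * B.w < B.dK z₁ z₂) (d13 : 2 * B.w < B.dK z₁ z₃)
    (d23 : 2 * B.w < B.dK z₂ z₃)
    (l1 : z₁ ∈ cmp E.G {v | v ∈ B.K ∧ v ∉ B.gate P₂ ∧ v ∉ B.gate P₃} m)
    (l2 : z₂ ∈ cmp E.G {v | v ∈ B.K ∧ v ∉ B.gate P₁ ∧ v ∉ B.gate P₃} m)
    (l3 : z₃ ∈ cmp E.G {v | v ∈ B.K ∧ v ∉ B.gate P₁ ∧ v ∉ B.gate P₂} m) : False := by
  have dj : ∀ {a b} (P : Line E a) (Q : Line E b), a ∈ B.K → b ∈ B.K → 2 * B.w < B.dK a b →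
      Disjoint (B.gate P) (B.gate Q) := fun {a b} P Q ha hb h =>
    Set.disjoint_left.2 fun v h1 h2 => by
      linarith [B.gate_dK P ha h1, B.gate_dK Q hb h2, B.tri a v b, B.comm b v]
  have lo : ∀ {a b c} (P : Line E a) (Q : Line E b) (R : Line E c), a ∈ B.K →
      Leg E.G E.s {v | E.π v < B.β} (B.gate P) (B.gate Q) (B.gate R) := fun P Q R ha =>
    ⟨_, ⟨P.mz, ha⟩, B.cmp_bot P ha (fun _ h => .inl h) fun a _ h =>
      .inr ⟨h, fun h' => absurd h'.2.1 (not_le.2 h), fun h' => absurd h'.2.1 (not_le.2 h)⟩⟩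
  have hi : ∀ {a b c} (P : Line E a) (Q : Line E b) (R : Line E c), a ∈ B.K →
      Leg E.G P₁.τ {v | B.β + B.w ≤ E.π v} (B.gate P) (B.gate Q) (B.gate R) := fun P Q R ha => by
    have : ∀ v, B.β + B.w ≤ E.π v → v ∈ B.gate P ∨ (v ∈ {v | B.β + B.w ≤ E.π v} ∧
        v ∉ B.gate Q ∧ v ∉ B.gate R) := fun v h =>
      .inr ⟨h, fun h' => absurd h'.2.2 (not_lt.2 h), fun h' => absurd h'.2.2 (not_lt.2 h)⟩
    exact ⟨_, ⟨P.mz, ha⟩, B.cmp_top P ha P₁.τT (fun v h => this v (B.high_T h)) (fun _ h => .inl h)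
      fun a _ h => this a h⟩
  have hw := B.hw
  exact k33w E.mf _ _ _ {v | E.π v < B.β} {v | B.β + B.w ≤ E.π v} B.K _ _ m (B.cn_gate P₁ h₁)
    (B.cn_gate P₂ h₂) (B.cn_gate P₃ h₃) (dj P₁ P₂ h₁ h₂ d12) (dj P₁ P₃ h₁ h₃ d13)
    (dj P₂ P₃ h₂ h₃ d23)
    (Set.disjoint_left.2 fun v (a : E.π v < B.β) (b : B.β + B.w ≤ E.π v) => by linarith)
    (Set.disjoint_left.2 fun v (a : E.π v < B.β) b => by linarith [b.1])
    (Set.disjoint_left.2 fun v (a : B.β + B.w ≤ E.π v) b => by linarith [b.2])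
    (lo _ _ _ h₁) (lo _ _ _ h₂) (lo _ _ _ h₃) (hi _ _ _ h₁) (hi _ _ _ h₂) (hi _ _ _ h₃)
    ⟨_, ⟨P₁.mz, h₁⟩, cmp_mono (fun _ h => .inr h) _ l1⟩
    ⟨_, ⟨P₂.mz, h₂⟩, cmp_mono (fun _ h => .inr h) _ l2⟩
    ⟨_, ⟨P₃.mz, h₃⟩, cmp_mono (fun _ h => .inr h) _ l3⟩

end Band

end Crest.Agent.N206.TA.Gn
end
end

-- ▼ part N206/TA/Gain2
section

/-!
# Row 206, S0317, Theorem A, leaf Gain, part 2: shortest chains, (RL) and (S) (helper6)
-/

set_option autoImplicit false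

noncomputable section

open scoped Classical

namespace Crest.Agent.N206.TA.Gn

open Crest.GeometryTopology.GraphMetric Crest.Agent.N206.PL

variable {V : Type}

theorem exists_chain {α : Type} {r : α → α → Prop} {x y : α} {Q : Set α} (hx : x ∈ Q)
    (h : Relation.ReflTransGen (fun a b => a ∈ Q ∧ b ∈ Q ∧ r a b) x y) :
    ∃ (n : ℕ) (z : ℕ → α), z 0 = x ∧ z n = y ∧ (∀ k ≤ n, z k ∈ Q) ∧ (∀ k < n, r (z k) (z (k + 1))) ∧
      ∀ i j, i + 2 ≤ j → j ≤ n → ¬ r (z i) (z j) := by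
  have hex : ∃ n, ∃ z : ℕ → α, z 0 = x ∧ z n = y ∧ (∀ k ≤ n, z k ∈ Q) ∧
      ∀ k < n, r (z k) (z (k + 1)) := by
    induction h with
    | refl => exact ⟨0, fun _ => x, rfl, rfl, fun _ _ => hx, fun _ h => absurd h (Nat.not_lt_zero _)⟩
    | @tail b c _ h ih =>
      obtain ⟨n, z, h0, h1, h2, h3⟩ := ih
      refine ⟨n + 1, fun k => if k ≤ n then z k else c, by simpa using h0, by simp, fun k _ => ?_,
        fun k hk => ?_⟩
      · dsimp only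
        split_ifs with h4
        exacts [h2 k h4, h.2.1]
      · dsimp only
        rw [if_pos (by omega)]
        split_ifs with h4
        · exact h3 k (by omega)
        · rw [show k = n by omega, h1]; exact h.2.2
  obtain ⟨z, h0, h1, h2, h3⟩ := Nat.find_spec hex
  refine ⟨_, z, h0, h1, h2, h3, fun i j hij hj hr => ?_⟩
  refine Nat.find_min hex (m := Nat.find hex - (j - i - 1)) (by omega)
    ⟨fun k => if k ≤ i then z k else z (k + (j - i - 1)), by simpa using h0, ?_, fun k hk => ?_,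
      fun k hk => ?_⟩
  · dsimp only
    rw [if_neg (by omega), show Nat.find hex - (j - i - 1) + (j - i - 1) = Nat.find hex by omega]
    exact h1
  · dsimp only
    split_ifs <;> exact h2 _ (by omega)
  · dsimp only
    by_cases h4 : k + 1 ≤ i
    · rw [if_pos h4, if_pos (by omega)]; exact h3 k (by omega)
    · rw [if_neg h4]
      by_cases h5 : k ≤ i
      · rw [if_pos h5, show k = i by omega, show i + 1 + (j - i - 1) = j by omega]; exact hr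
      · rw [if_neg h5, show k + 1 + (j - i - 1) = k + (j - i - 1) + 1 by omega]
        exact h3 _ (by omega)

theorem exists_excursion {f : ℕ → ℝ} {t : ℝ} {i n : ℕ} (h0 : f 0 ≤ t) (hn : f n ≤ t) (hi : t < f i)
    (hin : i ≤ n) : ∃ a b, a < i ∧ i ≤ b ∧ b < n ∧ f a ≤ t ∧ f (b + 1) ≤ t ∧
      ∀ k, a < k → k ≤ b → t < f k := by
  have hi0 : i ≠ 0 := by rintro rfl; linarith
  have hin' : i ≠ n := by rintro rfl; linarith
  have h1 : ∃ b, i ≤ b ∧ f (b + 1) ≤ t := ⟨n - 1, by omega, by rwa [show n - 1 + 1 = n by omega]⟩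
  have h2 := Nat.findGreatest_spec (P := fun a => f a ≤ t) (Nat.zero_le i) h0
  have h3 := Nat.findGreatest_le (P := fun a => f a ≤ t) i
  have h4 : Nat.find h1 ≤ n - 1 :=
    Nat.find_min' h1 ⟨by omega, by rwa [show n - 1 + 1 = n by omega]⟩
  refine ⟨_, _, lt_of_le_of_ne h3 fun e => ?_, (Nat.find_spec h1).1, by omega, h2,
    (Nat.find_spec h1).2, fun k k1 k2 => ?_⟩
  · rw [e] at h2; linarith
  · rcases le_or_gt k i with h | h
    · exact not_le.1 (Nat.findGreatest_is_greatest k1 h)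
    · have := Nat.find_min h1 (m := k - 1) (by omega)
      rw [show k - 1 + 1 = k by omega] at this
      exact not_le.1 fun h' => this ⟨by omega, h'⟩

/-- a shortest chain of points of `Sg` in the band -/
structure Chain {E : Env V} (B : Band E) where
  n : ℕ
  z : ℕ → V
  sg : ∀ k ≤ n, z k ∈ E.Sg
  mK : ∀ k ≤ n, z k ∈ B.K
  step : ∀ k < n, B.dK (z k) (z (k + 1)) ≤ 4 * B.w
  far : ∀ i j, i + 2 ≤ j → j ≤ n → 4 * B.w < B.dK (z i) (z j)

namespace Chain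

variable {E : Env V} {B : Band E} (C : Chain B)

theorem dz {i j : ℕ} (hij : i ≤ j) (hj : j ≤ C.n) :
    B.dK (C.z i) (C.z j) ≤ 4 * B.w * ((j : ℝ) - i) := by
  induction j, hij using Nat.le_induction with
  | base => simp [B.self]
  | succ j hij ih =>
    push_cast
    linarith [ih (by omega), C.step j (by omega), B.tri (C.z i) (C.z j) (C.z (j + 1))]

theorem gap {i j m : ℕ} (hij : i ≤ j) (hj : j ≤ C.n)
    (h : 4 * B.w * m < B.dK (C.z i) (C.z j)) : i + m < j := by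
  have := (mul_lt_mul_iff_right₀ (by linarith [B.hw])).1 (h.trans_le (C.dz hij hj))
  exact_mod_cast (show (i : ℝ) + m < j by linarith)

theorem near {i j : ℕ} (hi : i ≤ C.n) (hj : j ≤ C.n) (h : B.dK (C.z i) (C.z j) ≤ 4 * B.w) :
    i ≤ j + 1 ∧ j ≤ i + 1 :=
  ⟨not_lt.1 fun h' => absurd (C.far j i h' hi) (not_lt.2 (B.comm _ _ ▸ h)),
    not_lt.1 fun h' => absurd (C.far i j h' hj) (not_lt.2 h)⟩

/-- the links -/
def Lk (k : ℕ) : Set V := {v | v ∈ B.K ∧ B.dK (C.z k) v + B.dK v (C.z (k + 1)) ≤ 4 * B.w}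

/-- unions of links -/
def U (a b : ℕ) : Set V := {v | ∃ k, a ≤ k ∧ k < b ∧ v ∈ C.Lk k}

theorem lk_dK {k : ℕ} {v : V} (h : v ∈ C.Lk k) : B.dK (C.z k) v ≤ 4 * B.w := by
  linarith [h.2, B.nonneg v (C.z (k + 1))]

theorem left_mem {k : ℕ} (hk : k < C.n) : C.z k ∈ C.Lk k :=
  ⟨C.mK k hk.le, by linarith [C.step k hk, B.self (C.z k)]⟩

theorem right_mem {k : ℕ} (hk : k < C.n) : C.z (k + 1) ∈ C.Lk k :=
  ⟨C.mK _ hk, by linarith [C.step k hk, B.self (C.z (k + 1))]⟩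

theorem lk_lk {k k' : ℕ} (hk : k' < C.n) {v : V} (h : v ∈ C.Lk k) (h' : v ∈ C.Lk k') :
    k' ≤ k + 1 := by
  by_contra hc
  linarith [C.far k k' (by omega) hk.le, C.far (k + 1) (k' + 1) (by omega) hk, h.2, h'.2,
    B.tri (C.z k) v (C.z k'), B.tri (C.z (k + 1)) v (C.z (k' + 1)), B.comm (C.z k') v,
    B.comm (C.z (k + 1)) v]

theorem lk_close {k : ℕ} {v : V} (h : v ∈ C.Lk k) {y : V} (h' : B.dK y v ≤ B.w) :
    B.dK (C.z k) y ≤ 3 * B.w ∨ B.dK (C.z (k + 1)) y ≤ 3 * B.w := by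
  by_contra hc
  push Not at hc
  linarith [hc.1, hc.2, h.2, B.tri (C.z k) v y, B.tri (C.z (k + 1)) v y, B.comm y v,
    B.comm (C.z (k + 1)) v]

theorem lk_gate {k j : ℕ} (hk : k < C.n) (hj : j ≤ C.n) (P : Line E (C.z j)) {v : V}
    (h : v ∈ C.Lk k) (h' : v ∈ B.gate P) : k ≤ j + 1 ∧ j ≤ k + 2 := by
  have hw := B.hw
  rcases C.lk_close h (B.gate_dK P (C.mK j hj) h') with h1 | h1
  · have := C.near hk.le hj (by linarith); omega
  · have := C.near hk hj (by linarith); omega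

variable [Fintype V]

theorem cmp_lk {k : ℕ} (hk : k < C.n) {v : V} (h : v ∈ C.Lk k) : v ∈ cmp E.G (C.Lk k) (C.z k) :=
  B.cmp_K (C.mK k hk.le) (by linarith [C.lk_dK h, B.hw]) fun a ha h' =>
    ⟨ha, by linarith [h.2, B.tri a v (C.z (k + 1))]⟩

theorem cmp_U {i j : ℕ} (hij : i < j) (hj : j ≤ C.n) {W : Set V}
    (hW : ∀ k, i ≤ k → k < j → C.Lk k ⊆ W) : C.z j ∈ cmp E.G W (C.z i) := by
  induction j, hij using Nat.le_induction with
  | base => exact cmp_mono (hW i le_rfl (by omega)) _ (C.cmp_lk hj (C.right_mem hj))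
  | succ j hij ih =>
    exact cmp_trans (ih (by omega) fun k h1 h2 => hW k h1 (by omega))
      (cmp_mono (hW j (by omega) (by omega)) _ (C.cmp_lk hj (C.right_mem hj)))

theorem cn_U {a b : ℕ} (hab : a < b) (hb : b ≤ C.n) : Cn E.G (C.U a b) := by
  refine Cn.of_root (r := C.z a) ⟨a, le_rfl, hab, C.left_mem (by omega)⟩ ?_
  rintro v ⟨k, h1, h2, hv⟩
  have h3 : v ∈ cmp E.G (C.U a b) (C.z k) :=
    cmp_mono (show C.Lk k ⊆ C.U a b from fun _ h => ⟨k, h1, h2, h⟩) _ (C.cmp_lk (by omega) hv)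
  rcases h1.eq_or_lt with rfl | h1
  · exact h3
  · exact cmp_trans (C.cmp_U h1 (by omega) fun k' _ _ _ h => ⟨k', by omega, by omega, h⟩) h3

/-- (S) points of `Sg` near a middle point of the chain are close to the chain -/
theorem close {i : ℕ} (hi : i ≤ C.n) (h0 : 597 * B.w < B.dK (C.z i) (C.z 0))
    (hn : 597 * B.w < B.dK (C.z i) (C.z C.n)) (h0n : 2 * B.w < B.dK (C.z 0) (C.z C.n)) {y : V}
    (hy : y ∈ E.Sg) (h : B.dK (C.z i) y ≤ 503 * B.w) : ∃ k ≤ C.n, B.dK (C.z k) y ≤ 3 * B.w := by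
  by_contra hc
  push Not at hc
  have hw := B.hw
  obtain ⟨P₀⟩ := exists_line E (C.sg 0 (Nat.zero_le _))
  obtain ⟨P₁⟩ := exists_line E (C.sg _ le_rfl)
  obtain ⟨P⟩ := exists_line E hy
  have hyK : y ∈ B.K := B.mem_K (C.mK i hi) (by linarith)
  have g1 := C.gap (m := 2) (Nat.zero_le i) hi (by push_cast; linarith [B.comm (C.z i) (C.z 0)])
  have g2 := C.gap (m := 2) hi le_rfl (by push_cast; linarith)
  have miss : ∀ k < C.n, ∀ v ∈ C.Lk k, v ∉ B.gate P := fun k hk v hv hv' => by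
    rcases C.lk_close hv (B.gate_dK P hyK hv') with h1 | h1
    exacts [absurd h1 (not_le.2 (hc k hk.le)), absurd h1 (not_le.2 (hc _ hk))]
  refine B.tl (m := C.z i) P₀ P₁ P (C.mK 0 (Nat.zero_le _)) (C.mK _ le_rfl) hyK h0n
    (by linarith [hc 0 (Nat.zero_le _)]) (by linarith [hc _ le_rfl])
    (cmp_symm (C.cmp_U (by omega) hi fun k _ hk v hv => ⟨hv.1, fun h' => ?_, miss k (by omega) v hv⟩))
    (C.cmp_U (by omega) le_rfl fun k hk hk' v hv => ⟨hv.1, fun h' => ?_, miss k hk' v hv⟩)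
    (B.cmp_K (C.mK i hi) (by linarith) fun a ha h' => ⟨ha, fun h1 => ?_, fun h1 => ?_⟩)
  · have := C.lk_gate (by omega) le_rfl P₁ hv h'; omega
  · have := C.lk_gate hk' (Nat.zero_le _) P₀ hv h'; omega
  · linarith [B.gate_dK P₀ (C.mK 0 (Nat.zero_le _)) h1, B.nonneg a y, B.tri (C.z i) a (C.z 0),
      B.comm a (C.z 0)]
  · linarith [B.gate_dK P₁ (C.mK _ le_rfl) h1, B.nonneg a y, B.tri (C.z i) a (C.z C.n),
      B.comm a (C.z C.n)]

/-- a gate with four links -/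
def Gt (a : ℕ) (P : Line E (C.z (a + 2))) : Set V := B.gate P ∪ C.U a (a + 4)

theorem cn_Gt {a : ℕ} (ha : a + 4 ≤ C.n) (P : Line E (C.z (a + 2))) : Cn E.G (C.Gt a P) :=
  (B.cn_gate P (C.mK _ (by omega))).union (C.cn_U (by omega) ha) ⟨P.mz, C.mK _ (by omega)⟩
    ⟨a + 2, by omega, by omega, C.left_mem (by omega)⟩

omit [Fintype V] in
theorem Gt_K {a : ℕ} {P : Line E (C.z (a + 2))} {v : V} (h : v ∈ C.Gt a P) : v ∈ B.K := by
  rcases h with h | ⟨k, -, -, h⟩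
  exacts [h.2, h.1]

omit [Fintype V] in
theorem Gt_d {a : ℕ} (ha : a + 4 ≤ C.n) {P : Line E (C.z (a + 2))} {v : V} (h : v ∈ C.Gt a P) :
    E.d (C.z (a + 2)) v ≤ 12 * B.w := by
  have hw := B.hw
  refine (B.d_le _ _).trans ?_
  rcases h with h | ⟨k, h1, h2, h⟩
  · linarith [B.gate_dK P (C.mK _ (by omega)) h]
  · have h3 : B.dK (C.z (a + 2)) (C.z k) ≤ 8 * B.w := by
      have h1' : (a : ℝ) ≤ k := by exact_mod_cast h1
      have h2' : (k : ℝ) ≤ a + 4 := by exact_mod_cast h2.le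
      rcases le_total k (a + 2) with h4 | h4
      · have := C.dz h4 (by omega)
        push_cast at this
        nlinarith [B.comm (C.z (a + 2)) (C.z k)]
      · have := C.dz h4 (by omega)
        push_cast at this
        nlinarith
    linarith [C.lk_dK h, B.tri (C.z (a + 2)) (C.z k) v]

omit [Fintype V] in
theorem Gt_lk {a k : ℕ} (ha : a + 4 ≤ C.n) (hk : k < C.n) {P : Line E (C.z (a + 2))} {v : V}
    (h : v ∈ C.Gt a P) (h' : v ∈ C.Lk k) : a ≤ k + 1 ∧ k ≤ a + 4 := by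
  rcases h with h | ⟨k', h1, h2, h⟩
  · have := C.lk_gate hk (by omega) P h' h; omega
  · have := C.lk_lk hk h h'
    have := C.lk_lk (by omega) h' h
    omega

omit [Fintype V] in
theorem Gt_gate {a j : ℕ} (ha : a + 4 ≤ C.n) (hj : j ≤ C.n) {P : Line E (C.z (a + 2))}
    (Q : Line E (C.z j)) {v : V} (h : v ∈ C.Gt a P) (h' : v ∈ B.gate Q) :
    a ≤ j + 1 ∧ j ≤ a + 5 := by
  rcases h with h | ⟨k', h1, h2, h⟩
  · have := C.near (i := a + 2) (by omega) hj (by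
      linarith [B.gate_dK P (C.mK _ (by omega)) h, B.gate_dK Q (C.mK _ hj) h', B.hw,
        B.tri (C.z (a + 2)) v (C.z j), B.comm v (C.z j)])
    omega
  · have := C.lk_gate (by omega) hj Q h h'; omega

end Chain

end Crest.Agent.N206.TA.Gn
end
end

-- ▼ part N206/TA/Gain3

/-!
# Row 206, S0317, Theorem A, leaf Gain, part 3: (RL) shortest chains stay local (helper6)
-/

set_option autoImplicit false

noncomputable section

open scoped Classical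

namespace Crest.Agent.N206.TA.Gn.Chain

open Crest.GeometryTopology.GraphMetric Crest.Agent.N206.PL

variable {V : Type} [Fintype V] {E : Env V} {B : Band E} (C : Chain B)

/-- (RL) -/
theorem rl {D : ℝ} (hD : E.d (C.z 0) (C.z C.n) = D) (h1 : 10 ^ 4 * B.w ≤ D) (h2 : 10 * D ≤ E.R)
    (h3 : E.π (C.z 0) + 70 * D ≤ E.lam) {i : ℕ} (hi : i ≤ C.n) : E.d (C.z 0) (C.z i) ≤ 10 * D := by
  by_contra hc
  push Not at hc
  have hw := B.hw
  obtain ⟨a, b, ai, ib, bn, fa, fb, fk⟩ := exists_excursion (f := fun k => E.d (C.z 0) (C.z k))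
    (t := 6 * D) (i := i) (n := C.n) (by simp only [E.d_self]; linarith) (by linarith)
    (by linarith) hi
  have dd : ∀ j k, E.d (C.z 0) (C.z j) ≤ E.d (C.z 0) (C.z k) + B.dK (C.z j) (C.z k) ∧
      E.d (C.z 0) (C.z k) ≤ E.d (C.z 0) (C.z j) + B.dK (C.z j) (C.z k) := fun j k =>
    ⟨by linarith [E.d_tri (C.z 0) (C.z k) (C.z j), B.d_le (C.z k) (C.z j), B.comm (C.z k) (C.z j)],
      by linarith [E.d_tri (C.z 0) (C.z j) (C.z k), B.d_le (C.z j) (C.z k)]⟩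
  have g1 := C.gap (m := 6) ai.le hi (by push_cast; linarith [(dd a i).2])
  have g2 := C.gap (i := i) (j := b + 1) (m := 6) (by omega) bn
    (by push_cast; linarith [(dd i (b + 1)).1])
  have g3 := C.gap (m := 6) bn.le le_rfl
    (by push_cast; linarith [(dd b C.n).1, fk b (by omega) le_rfl])
  have g0 := C.gap (i := 0) (j := a + 1) (m := 6) (by omega) (by omega)
    (by push_cast; linarith [fk (a + 1) (by omega) (by omega), B.d_le (C.z 0) (C.z (a + 1))])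
  have fa2 : 6 * D < E.d (C.z 0) (C.z (a + 2)) := fk _ (by omega) (by omega)
  have fb2 : 6 * D - 8 * B.w < E.d (C.z 0) (C.z (b + 2)) := by
    have := C.dz (i := b) (j := b + 2) (by omega) (by omega)
    push_cast at this
    linarith [(dd b (b + 2)).1, fk b (by omega) le_rfl]
  obtain ⟨P₁⟩ := exists_line E (C.sg (a + 2) (by omega))
  obtain ⟨P₂⟩ := exists_line E (C.sg (b + 2) (by omega))
  obtain ⟨Pz⟩ := exists_line E (C.sg i hi)
  obtain ⟨Px⟩ := exists_line E (C.sg 0 (by omega))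
  obtain ⟨τ, hτ, p, hp⟩ := E.st.away
  replace hp : ∀ v ∈ p.support, ∀ k ≤ C.n, 10 * D ≤ E.d (C.z k) v := fun v hv k hk =>
    h2.trans (hp v hv _ (C.sg k hk))
  have xK := C.mK 0 (by omega)
  have x1 : B.β ≤ E.π (C.z 0) := xK.1
  have x2 : E.π (C.z 0) < B.β + B.w := xK.2
  set A₃ : Set V := {v | (v ∈ Pz.L ∧ E.π v < B.β) ∨ (v ∈ Px.L ∧ E.π v < E.π (C.z 0) - 2 * D)}
    with hA₃
  have K3 : ∀ v, B.β ≤ E.π v → v ∉ A₃ := by rintro v h (h' | h') <;> linarith [h'.2]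
  have s3 : E.s ∈ A₃ := .inl ⟨Pz.ms, by rw [E.π_eq, E.d_self]; exact B.hβ⟩
  have b1 : ∀ v, E.d (C.z 0) v ≤ 2 * D → v ∉ C.Gt a P₁ := fun v h h' => by
    linarith [C.Gt_d (by omega) h', E.d_tri (C.z 0) v (C.z (a + 2)), E.d_comm v (C.z (a + 2))]
  have b2 : ∀ v, E.d (C.z 0) v ≤ 2 * D → v ∉ C.Gt b P₂ := fun v h h' => by
    linarith [C.Gt_d (by omega) h', E.d_tri (C.z 0) v (C.z (b + 2)), E.d_comm v (C.z (b + 2))]
  have b3 : ∀ v, E.d (C.z 0) v ≤ 2 * D → v ∉ A₃ := by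
    rintro v h (h' | h')
    · have := C.mK i hi
      linarith [Pz.d_le h'.1 Pz.mz (h'.2.le.trans this.1), this.2, E.d_tri (C.z 0) v (C.z i),
        (abs_le.1 (E.π_lip (C.z 0) v)).2]
    · linarith [h'.2, (abs_le.1 (E.π_lip (C.z 0) v)).2]
  have up : ∀ {j} (P : Line E (C.z j)), j ≤ C.n → 5 * D < E.d (C.z 0) (C.z j) → ∀ v ∈ P.L,
      B.β + B.w ≤ E.π v → ¬ E.d (C.z 0) v ≤ 2 * D := fun {j} P hj h v hv h' h'' => by
    have := C.mK j hj
    linarith [P.d_le P.mz hv (this.2.le.trans h'), this.1, E.d_tri (C.z 0) v (C.z j),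
      E.d_comm v (C.z j), (abs_le.1 (E.π_lip (C.z 0) v)).1]
  have nK : ∀ {v}, B.β + B.w ≤ E.π v → v ∉ B.K := fun h h' => absurd h'.2 (not_lt.2 h)
  set B₁ : Set V := {v | (B.β + B.w ≤ E.π v ∧ (v ∈ P₁.L ∨ v ∈ P₂.L ∨ v ∈ E.T)) ∨ v ∈ p.support}
    with hB₁
  have nB : ∀ v ∈ B.K, ∀ k ≤ C.n, B.dK (C.z k) v ≤ 4 * B.w → v ∉ B₁ := by
    rintro v hv k hk h (h' | h')
    · exact nK h'.1 hv
    · linarith [hp v h' k hk, B.d_le (C.z k) v]
  have nU : ∀ {c d v}, d ≤ C.n → v ∈ C.U c d → v ∉ B₁ := by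
    rintro c d v hd ⟨k, -, hk, h⟩
    exact nB v h.1 k (by omega) (C.lk_dK h)
  have top : ∀ {c c'} (P : Line E (C.z (c + 2))) (P' : Line E (C.z (c' + 2))), c + 2 ≤ C.n →
      (∀ v ∈ P.L, v ∈ P₁.L ∨ v ∈ P₂.L) → Leg E.G τ B₁ (C.Gt c P) (C.Gt c' P') A₃ :=
    fun {c c'} P P' hc h => by
      have : ∀ v, B.β + B.w ≤ E.π v → (v ∈ P₁.L ∨ v ∈ P₂.L ∨ v ∈ E.T) →
          v ∈ C.Gt c P ∨ (v ∈ B₁ ∧ v ∉ C.Gt c' P' ∧ v ∉ A₃) := fun v h h' =>
        .inr ⟨.inl ⟨h, h'⟩, fun h'' => nK h (C.Gt_K h''), K3 v (by linarith)⟩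
      exact ⟨_, .inl ⟨P.mz, C.mK _ hc⟩, B.cmp_top P (C.mK _ hc) hτ
        (fun v h => this v (B.high_T h) (.inr (.inr h))) (fun _ h => .inl (.inl h))
        fun v hv h' => this v h' (by have := h v hv; tauto)⟩
  refine k33w E.mf (C.Gt a P₁) (C.Gt b P₂) A₃ B₁ (B.gate Pz ∪ C.U (a + 4) b)
    (E.B (C.z 0) (2 * D) ∪ (C.U 0 a ∪ C.U (b + 4) C.n)) τ (C.z i) (C.z 0) (C.cn_Gt (by omega) _)
    (C.cn_Gt (by omega) _) (Cn.of_root s3 ?_) (Set.disjoint_left.2 ?_)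
    (Set.disjoint_left.2 fun v h => K3 v (C.Gt_K h).1)
    (Set.disjoint_left.2 fun v h => K3 v (C.Gt_K h).1) (Set.disjoint_right.2 ?_)
    (Set.disjoint_right.2 ?_) (Set.disjoint_left.2 ?_) (top _ _ (by omega) fun _ => .inl)
    (top _ _ (by omega) fun _ => .inr) ⟨_, s3, cmp_symm ⟨p, fun v hv => .inr ⟨.inr hv, ?_, ?_⟩⟩⟩
    ⟨C.z (a + 4), .inr ⟨a + 3, by omega, by omega, C.right_mem (by omega)⟩, cmp_symm
      (C.cmp_U (by omega) hi fun k k1 k2 v hv => .inr ⟨.inr ⟨k, k1, by omega, hv⟩, fun h => ?_,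
        K3 v hv.1.1⟩)⟩
    ⟨C.z b, .inr ⟨b, by omega, by omega, C.left_mem (by omega)⟩,
      C.cmp_U (by omega) bn.le fun k k1 k2 v hv => .inr ⟨.inr ⟨k, by omega, k2, hv⟩, fun h => ?_,
        K3 v hv.1.1⟩⟩
    ⟨_, s3, cmp_symm (B.cmp_bot Pz (C.mK i hi) (fun v hv => .inr ⟨.inl hv, fun h => ?_, fun h => ?_⟩)
      fun v hv h => .inl (.inl ⟨hv, h⟩))⟩
    ⟨C.z a, .inr ⟨a, by omega, by omega, C.left_mem (by omega)⟩,
      C.cmp_U (by omega) (by omega) fun k k1 k2 v hv => .inr ⟨.inr (.inl ⟨k, k1, k2, hv⟩),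
        fun h => ?_, K3 v hv.1.1⟩⟩
    ⟨C.z (b + 4), .inr ⟨b + 3, by omega, by omega, C.right_mem (by omega)⟩,
      cmp_trans (y := C.z C.n) ?_ (cmp_symm (C.cmp_U (by omega) le_rfl fun k k1 k2 v hv =>
        .inr ⟨.inr (.inr ⟨k, k1, k2, hv⟩), fun h => ?_, K3 v hv.1.1⟩))⟩
    ⟨_, s3, cmp_symm (Px.cmp_down Px.mz fun v hv h => ?_)⟩
  · rintro v (h | h)
    · exact Pz.cmp_down h.1 fun u hu h' => .inl ⟨hu, h'.trans_lt h.2⟩
    · exact Px.cmp_down h.1 fun u hu h' => .inr ⟨hu, h'.trans_lt h.2⟩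
  · rintro v h (h' | ⟨k, k1, k2, h'⟩)
    · have := C.Gt_gate (by omega) (by omega) P₂ h h'; omega
    · have := C.Gt_lk (by omega) (by omega) h h'; omega
  · rintro v (h | h)
    · exact nB v h.2 i hi (by linarith [B.gate_dK Pz (C.mK i hi) h])
    · exact nU bn.le h
  · rintro v (h | h | h)
    · rintro (⟨h', h'' | h'' | h''⟩ | h')
      · exact up P₁ (by omega) (by linarith) v h'' h' h
      · exact up P₂ (by omega) (by linarith) v h'' h' h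
      · linarith [E.st.high v h'', (abs_le.1 (E.π_lip (C.z 0) v)).1, E.mem_B.1 h,
          show E.π v = wdist E.G E.ℓ E.s v from rfl]
      · linarith [hp v h' 0 (by omega), E.mem_B.1 h]
    · exact nU (by omega) h
    · exact nU le_rfl h
  · rintro v (h | ⟨k, k1, k2, h⟩) (h' | ⟨k', k3, k4, h'⟩ | ⟨k', k3, k4, h'⟩)
    · linarith [B.gate_dK Pz (C.mK i hi) h, E.mem_B.1 h', E.d_tri (C.z 0) v (C.z i),
        B.d_le (C.z i) v, E.d_comm v (C.z i)]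
    · have := C.lk_gate (by omega) hi Pz h' h; omega
    · have := C.lk_gate (by omega) hi Pz h' h; omega
    · linarith [C.lk_dK h, E.mem_B.1 h', E.d_tri (C.z 0) v (C.z k), B.d_le (C.z k) v,
        E.d_comm v (C.z k), fk k (by omega) (by omega)]
    · have := C.lk_lk (by omega) h' h; omega
    · have := C.lk_lk (by omega) h h'; omega
  · exact fun h => by linarith [C.Gt_d (by omega) h, hp v hv (a + 2) (by omega)]
  · exact fun h => by linarith [C.Gt_d (by omega) h, hp v hv (b + 2) (by omega)]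
  · have := C.Gt_lk (by omega) (by omega) h hv; omega
  · have := C.Gt_lk (by omega) (by omega) h hv; omega
  · have := C.Gt_gate (by omega) hi Pz h hv; omega
  · have := C.Gt_gate (by omega) hi Pz h hv; omega
  · have := C.Gt_lk (by omega) (by omega) h hv; omega
  · obtain ⟨q, hq⟩ := E.d_geo (C.z 0) (C.z C.n)
    refine ⟨q, fun v hv => ?_⟩
    have : E.d (C.z 0) v ≤ 2 * D := by
      linarith [E.d_add_le_wl q hv, E.d_nonneg v (C.z C.n)]
    exact .inr ⟨.inl this, b1 v this, b3 v this⟩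
  · have := C.Gt_lk (by omega) (by omega) h hv; omega
  · rcases lt_or_ge (E.π v) (E.π (C.z 0) - 2 * D) with h' | h'
    · exact .inl (.inr ⟨hv, h'⟩)
    · have : E.d (C.z 0) v ≤ 2 * D := by linarith [Px.d_le hv Px.mz h, E.d_comm v (C.z 0)]
      exact .inr ⟨.inl this, b1 v this, b2 v this⟩

end Crest.Agent.N206.TA.Gn.Chain
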