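import Crest.Agent.N206.PL.Defs
import Crest.Agent.N206.Top.Par
import Crest.Agent.N206.TA.Gain3
import Crest.Agent.N206.TA.Alg1
import Crest.Agent.N206.TA.Basic
import Crest.Agent.N206.PL.Basic2

-- ▼ part N206/PL/Top
section

/-! # Row 206, S0317: `TopStmt` (helper6) -/

set_option autoImplicit false

namespace Crest.Agent.N206.PL

theorem top : TopStmt := fun _ _ h =>
  ⟨fun X h1 h2 h3 => Top.no_k5 h X (fun i => (h1 i).2) h2 h3,
    fun A B h1 h2 h3 h4 h5 h6 =>
      Top.no_k33 h A B (fun i => (h1 i).2) (fun i => (h2 i).2) h3 h4 h5 h6⟩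

end Crest.Agent.N206.PL
end

-- ▼ part N206/TA/Gain
section

/-!
# Row 206, S0317, Theorem A, leaf Gain: walk up, walk down (helper6)
-/

set_option autoImplicit false

noncomputable section

open scoped Classical

namespace Crest.Agent.N206.TA

open Crest.GeometryTopology.GraphMetric Crest.Agent.N206.PL

variable {V : Type} [Fintype V] {E : Env V}

namespace Gn

theorem cc_pos : 0 < cc := by unfold cc; norm_num

theorem Band.lipK (B : Band E) {x : V} {r : ℝ} {X : V → ℝ} (hX : E.LipOn cc (E.B x r) X) {a b : V}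
    (ha : a ∈ B.K) {t : ℝ} (h : B.dK a b ≤ t * B.w) (ht : t ≤ 900) (h' : E.d x a + t * B.w ≤ r) :
    |X a - X b| ≤ t * (cc * B.w) := by
  obtain ⟨p, hp, hs⟩ := B.kwalk ha (h.trans (mul_le_mul_of_nonneg_right ht B.hw.le))
  have hm : ∀ v ∈ p.support, v ∈ E.B x r := fun v hv => E.mem_B.2 (by
    linarith [(hs v hv).2, B.nonneg v b, B.d_le a v, E.d_tri x a v])
  refine (E.lip_walk p fun u v huv he => hX u (hm u (p.fst_mem_support_of_mem_edges he)) v
    (hm v (p.snd_mem_support_of_mem_edges he)) huv).trans ?_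
  rw [hp]
  nlinarith [cc_pos]

namespace Chain

variable {B : Band E} (C : Chain B)

theorem no_centre {ϱ : ℝ} (h1 : 0 ≤ ϱ) (h2 : ϱ ≤ 40 * B.w) {y : V} (hy : y ∈ E.Sg)
    (hs : ∀ k ≤ C.n, 6 * B.w < |B.dK y (C.z k) - ϱ|) {i : ℕ} (hi : i ≤ C.n)
    (h0 : 597 * B.w < B.dK (C.z i) (C.z 0)) (hn : 597 * B.w < B.dK (C.z i) (C.z C.n))
    (h0n : 2 * B.w < B.dK (C.z 0) (C.z C.n)) : ¬ B.dK (C.z i) y ≤ 503 * B.w := fun h => by
  have hw := B.hw
  obtain ⟨k, hk, h'⟩ := C.close hi h0 hn h0n hy h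
  have : ∀ j ≤ C.n, ϱ + 6 * B.w < B.dK y (C.z j) := fun j hj => by
    induction j with
    | zero => linarith [B.tri (C.z i) y (C.z 0)]
    | succ j ih =>
      rcases lt_abs.1 (hs _ hj) with h3 | h3
      · linarith
      · linarith [ih (by omega), C.step j hj, B.tri y (C.z (j + 1)) (C.z j),
          B.comm (C.z j) (C.z (j + 1))]
  linarith [this k hk, B.comm y (C.z k)]

theorem walk_up {D : ℝ} (hD : E.d (C.z 0) (C.z C.n) = D) (h1 : 10 ^ 4 * B.w ≤ D)
    (rl : ∀ i ≤ C.n, E.d (C.z 0) (C.z i) ≤ 10 * D) {S : Set V} (hS : S ⊆ E.Sg) {X : V → ℝ}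
    (hX : E.LipOn cc (E.B (C.z 0) (30 * D)) X)
    (H : ∀ z ∈ S, ∀ i ≤ C.n, B.dK (C.z i) z ≤ 3 * B.w → 597 * B.w < B.dK (C.z i) (C.z 0) →
      597 * B.w < B.dK (C.z i) (C.z C.n) → ∃ p ∈ E.BB B.ok S B.w (200 * B.w) z,
        ∃ p' ∈ E.BB B.ok S B.w (60 * B.w) z, 130 * cc * B.w < X p - X p') (z : V) :
    z ∈ S → ∀ i ≤ C.n, B.dK (C.z i) z ≤ 3 * B.w → ∃ e, (e = C.z 0 ∨ e = C.z C.n) ∧
      X z + cc / 3 * E.d z e - 800 * (cc * B.w) ≤ X e := by
  have hw := B.hw
  have hc := cc_pos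
  have hcw := mul_pos hc hw
  have : IsTrans V fun a b => X b < X a := ⟨fun _ _ _ h h' => h'.trans h⟩
  have : Std.Irrefl fun a b => X b < X a := ⟨fun _ => lt_irrefl _⟩
  induction z using (Finite.wellFounded_of_trans_of_irrefl fun a b => X b < X a).induction with
  | h z ih =>
  intro hz i hi h
  have zK : z ∈ B.K := B.mem_K (C.mK i hi) (by linarith)
  have zd : E.d (C.z 0) z ≤ 11 * D := by
    linarith [rl i hi, B.d_le (C.z i) z, E.d_tri (C.z 0) (C.z i) z]
  have fin : ∀ e, B.dK (C.z i) e ≤ 597 * B.w →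
      X z + cc / 3 * E.d z e - 800 * (cc * B.w) ≤ X e := fun e he => by
    have h3 : B.dK z e ≤ 600 * B.w := by linarith [B.tri z (C.z i) e, B.comm z (C.z i)]
    have h4 := mul_le_mul_of_nonneg_left ((B.d_le z e).trans h3) hc.le
    linarith [(abs_le.1 (B.lipK hX zK h3 (by norm_num) (by linarith))).2]
  rcases le_or_gt (B.dK (C.z i) (C.z 0)) (597 * B.w) with h0 | h0
  · exact ⟨_, .inl rfl, fin _ h0⟩
  rcases le_or_gt (B.dK (C.z i) (C.z C.n)) (597 * B.w) with hn | hn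
  · exact ⟨_, .inr rfl, fin _ hn⟩
  obtain ⟨p, ⟨p1, s, hs, p2⟩, p', ⟨p3, -⟩, hp⟩ := H z hz i hi h h0 hn
  change B.dK _ _ ≤ _ at p1 p2 p3
  have pK : p ∈ B.K := B.mem_K zK (by linarith)
  have l1 := (abs_le.1 (B.lipK hX zK p3 (by norm_num) (by linarith))).2
  have l2 := (abs_le.1 (B.lipK (t := 1) (b := s) hX pK (by linarith [B.comm p s]) (by norm_num)
    (by linarith [B.d_le z p, E.d_tri (C.z 0) z p]))).2
  have zs : B.dK z s ≤ 201 * B.w := by linarith [B.tri z p s, B.comm p s]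
  obtain ⟨k, hk, h'⟩ := C.close hi h0 hn (by linarith [B.d_le (C.z 0) (C.z C.n)]) (hS hs)
    (by linarith [B.tri (C.z i) z s])
  obtain ⟨e, he, h''⟩ := ih s (by linarith) hs k hk h'
  have h4 : E.d z e ≤ E.d s e + 201 * B.w := by linarith [E.d_tri z s e, B.d_le z s]
  exact ⟨e, he, by linarith [mul_le_mul_of_nonneg_left h4 hc.le]⟩

end Chain

end Gn

open Gn in
theorem gain : GainStmt := by
  intro V _ E w β ϱ ok S Qc Z X x y hδ hΛ hβ hlam hok hS hQ hQK hZ hx _ h1 _ h3 h2 _ hr r1 r2 hs hX H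
  have hw : 0 < w := by linarith [E.δ_pos]
  let B : Band E := ⟨w, β, ok, hw, hΛ, hβ, hlam, hok⟩
  obtain ⟨n, z, rfl, rfl, z1, z2, z3⟩ := exists_chain (r := fun a b => E.dR ok a b ≤ 4 * w) hx hr
  let C : Chain B := ⟨n, z, fun k hk => hS (hQ (z1 k hk)), fun k hk => hQK (z1 k hk), z2,
    fun i j hij hj => not_le.1 (z3 i j hij hj)⟩
  have rl : ∀ i ≤ n, E.d (z 0) (z i) ≤ 10 * E.d (z 0) (z n) := fun i hi => C.rl rfl h1 h2 h3 hi
  have H' := fun v (hv : v ∈ S) i (hi : i ≤ n) (h : B.dK (z i) v ≤ 3 * w)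
      (h0 : 597 * w < B.dK (z i) (z 0)) (hn : 597 * w < B.dK (z i) (z n)) =>
    (H v hv (B.mem_K (C.mK i hi) (h.trans (show 3 * w ≤ 900 * w by linarith)))
      (by linarith [rl i hi, B.d_le (z i) v, E.d_tri (z 0) (z i) v])).resolve_left
      fun ⟨z', hz', h'⟩ => C.no_centre (ϱ := ϱ) (by linarith) r2 (hZ hz')
        (fun k hk => hs _ (z1 k hk) _ hz') hi h0 hn
        (show 2 * w < B.dK (z 0) (z n) by linarith [B.d_le (z 0) (z n)])
        (show B.dK (z i) z' ≤ 503 * w by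
          linarith [B.tri (z i) v z', B.comm v z', show B.dK z' v = E.dR ok z' v from rfl])
  have hex : ∃ k, k ≤ n ∧ E.d (z 0) (z n) / 2 < E.d (z 0) (z k) := ⟨n, le_rfl, by linarith⟩
  obtain ⟨hk, k1⟩ := Nat.find_spec hex
  have k2 : E.d (z 0) (z (Nat.find hex)) ≤ E.d (z 0) (z n) / 2 + 4 * w := by
    obtain h0 | ⟨j, hj⟩ := Nat.eq_zero_or_eq_succ_pred (Nat.find hex) |>.imp_right
      fun h => (⟨_, h⟩ : ∃ j, Nat.find hex = j + 1)
    · rw [h0, E.d_self]; linarith
    · have := Nat.find_min hex (m := j) (by omega)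
      rw [hj] at hk ⊢
      linarith [not_lt.1 fun h => this ⟨by omega, h⟩, z2 j hk, E.d_le_dR ok (z j) (z (j + 1)),
        E.d_tri (z 0) (z j) (z (j + 1))]
  set k := Nat.find hex
  have k3 : ∀ e, e = z 0 ∨ e = z n → cc * (4996 * w) ≤ cc * E.d (z k) e := by
    rintro e (rfl | rfl) <;> refine mul_le_mul_of_nonneg_left ?_ cc_pos.le
    · linarith [E.d_comm (z 0) (z k)]
    · linarith [E.d_tri (z 0) (z k) (z n)]
  have kk : B.dK (z k) (z k) ≤ 3 * w := by linarith [B.self (z k)]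
  obtain ⟨e, he, e1⟩ := C.walk_up rfl h1 rl hS hX (fun v hv i hi h h0 hn =>
    (H' v hv i hi h h0 hn).1) (z k) (hQ (z1 k hk)) k hk kk
  obtain ⟨e', he', e2⟩ := C.walk_up (X := fun v => -X v) rfl h1 rl hS
    (fun u hu v hv h => by simpa [abs_sub_comm, ← sub_eq_add_neg, neg_add_eq_sub] using hX u hu v hv h)
    (fun v hv i hi h h0 hn => by
      obtain ⟨p, hp, p', hp', h⟩ := (H' v hv i hi h h0 hn).2
      exact ⟨p', hp', p, hp, show 130 * cc * w < _ by linarith⟩) (z k) (hQ (z1 k hk)) k hk kk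
  have e3 : 1730 * (cc * w) ≤ X e - X e' := by
    linarith [k3 e he, k3 e' he', show B.w = w from rfl, mul_pos cc_pos hw,
      show cc * B.w = cc * w from rfl]
  have := mul_pos cc_pos hw
  change e = z 0 ∨ e = z n at he
  change e' = z 0 ∨ e' = z n at he'
  rcases he with rfl | rfl <;> rcases he' with rfl | rfl <;>
    linarith [le_abs_self (X (z 0) - X (z n)), neg_abs_le (X (z 0) - X (z n))]

end Crest.Agent.N206.TA
end
end

-- ▼ part N206/TA/Alg
section

/-!
# Row 206, Theorem A: the algebra of one stage (helper22)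
-/

set_option autoImplicit false

noncomputable section

open scoped Classical

namespace Crest.Agent.N206.TA

open Crest.GeometryTopology.GraphMetric Crest.Agent.N206.PL Crest.Agent.R206.Iface534

variable {V : Type} [Fintype V]

namespace Stage

variable {E : Env V} {w : ℝ} {D : Dom V} (T : Stage E w D) {n : ℕ}
  (r : ∀ i, Res E n (w / K0) (T.sub i))

/-- the slope charged to an edge -/
def gα (p q : V) : ℝ :=
  if h : ∃ i, p ∈ T.ter i ∨ q ∈ T.ter i then
    (if T.kind h.choose = Kind.ramp then T.a h.choose else (r h.choose).αe p q) else 0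

omit [Fintype V] in
theorem near_edge {i : T.ι} {p q : V} (h : E.G.Adj p q) (hi : p ∈ T.ter i ∨ q ∈ T.ter i) :
    T.Near i p ∧ T.Near i q := by
  rcases hi with hi | hi
  · exact ⟨⟨p, hi, Or.inl rfl⟩, ⟨p, hi, Or.inr h.symm⟩⟩
  · exact ⟨⟨q, hi, Or.inr h⟩, ⟨q, hi, Or.inl rfl⟩⟩

omit r in
/-- the mean of the passed parameters -/
theorem mean_par (i : T.ι) {A : ℝ} (hA : 0 ≤ A) (ξ α : ℝ) :
    mean (fun e => T.pA i A ξ e + |T.pξ i A ξ e| / 2 + T.pξ i A ξ e * α) =
      A + |ξ| / 2 + ξ * (if T.kind i = Kind.ramp then T.a i else α) := by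
  unfold pA pξ
  cases hk : T.kind i with
  | plain => simp only [reduceCtorEq, if_false]; exact mean_const _
  | tent =>
    simp only [reduceCtorEq, if_false]
    rw [← mean_aff (A + |ξ| / 2 + ξ * α) (A * T.a i) (T.cell i)]
    exact mean_congr fun e => by ring
  | ramp =>
    simp only [if_true, abs_mul, abs_sg, abs_of_nonneg hA]
    rw [← mean_aff (A + |ξ| / 2 + ξ * T.a i) (A * α) (T.cell i)]
    exact mean_congr fun e => by ring

omit r in
theorem mean_pA (i : T.ι) (A ξ : ℝ) :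
    mean (fun e => T.pA i A ξ e) =
      if T.kind i = Kind.ramp then A / 2 + |ξ| / 2 + ξ * T.a i else A := by
  unfold pA
  cases hk : T.kind i with
  | plain => simp only [reduceCtorEq, if_false]; exact mean_const _
  | tent => simp only [reduceCtorEq, if_false]; exact mean_aff _ _ _
  | ramp => simp only [if_true]; exact mean_const _

theorem mean_inc_near {i : T.ι} {p q : V} (hp : T.Near i p) (hq : T.Near i q) {A : ℝ}
    (hA : 0 ≤ A) (ξ : ℝ) :
    mean (fun ω => |inc E A ξ (T.gX r) (T.gu r A ξ ω) p q|) =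
      mean (fun e => mean (fun ω => |inc E (T.pA i A ξ e) (T.pξ i A ξ e) (r i).Xf
        ((r i).u (T.pA i A ξ e) (T.pξ i A ξ e) ω) p q|)) := by
  rw [mean_succ]
  exact mean_congr fun e => mean_congr fun ω => by rw [T.inc_near r hp hq hA]

theorem load {A : ℝ} (ξ : ℝ) (hA : 0 ≤ A) {p q : V} (h : E.G.Adj p q) :
    mean (fun ω => |inc E A ξ (T.gX r) (T.gu r A ξ ω) p q|) ≤
      5 * (A + |ξ| / 2 + ξ * T.gα r p q) * E.ℓ s(p, q) := by
  unfold gα
  split_ifs with h1 hk
  · obtain ⟨hp, hq⟩ := T.near_edge h h1.choose_spec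
    rw [T.mean_inc_near r hp hq hA]
    refine (mean_mono fun e => (r _).load _ _ (T.pA_nonneg _ ξ hA e) p q h).trans ?_
    rw [mean_mul_right, mean_mul_left, T.mean_par _ hA, if_pos hk]
  · obtain ⟨hp, hq⟩ := T.near_edge h h1.choose_spec
    rw [T.mean_inc_near r hp hq hA]
    refine (mean_mono fun e => (r _).load _ _ (T.pA_nonneg _ ξ hA e) p q h).trans ?_
    rw [mean_mul_right, mean_mul_left, T.mean_par _ hA, if_neg hk]
  · push Not at h1
    have hp : ∀ i, p ∉ T.ter i := fun i => (h1 i).1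
    have hq : ∀ i, q ∉ T.ter i := fun i => (h1 i).2
    rw [mean_succ, ← mean_const (Ω := V → Bool) (5 * (A + |ξ| / 2 + ξ * 0) * E.ℓ s(p, q))]
    refine mean_mono fun e => ?_
    rw [← mean_const (Ω := Om V n) (5 * (A + |ξ| / 2 + ξ * 0) * E.ℓ s(p, q))]
    refine mean_mono fun ω => ?_
    obtain ⟨l, hl⟩ := T.one_cell (Or.inr h)
    have c1 : T.cu r e p - T.cu r e q = sg (e l) * (T.g l p - T.g l q) := by
      unfold cu
      rw [Finset.sum_eq_single l (fun l' _ hl' => by rw [T.gf_far r hp, (hl l' hl').1, mul_zero])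
        (by simp), Finset.sum_eq_single l
        (fun l' _ hl' => by rw [T.gf_far r hq, (hl l' hl').2, mul_zero]) (by simp),
        T.gf_far r hp, T.gf_far r hq]
      ring
    have e1 : inc E A ξ (T.gX r) (T.gu r A ξ (Fin.cons e ω)) p q =
        (A + |ξ| / 2) * (E.π p - E.π q) + ξ * (T.X' p - T.X' q) +
          A * (sg (e l) * (T.g l p - T.g l q)) := by
      simp only [inc, gu_cons, T.gX_far r hp, T.gX_far r hq, T.su_far r hp, T.su_far r hq, ← c1]
      ring
    rw [e1]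
    have h1 := pi_edge E h
    have h2 := T.lipX p trivial q trivial h
    have h3 := ell_pos E h
    have h5 := T.lipg l p trivial q trivial h
    have h4 : 0 ≤ A + |ξ| / 2 := by positivity
    calc _ ≤ (A + |ξ| / 2) * |E.π p - E.π q| + |ξ| * |T.X' p - T.X' q| +
          A * |T.g l p - T.g l q| := by
          refine (abs_add_le _ _).trans (add_le_add ((abs_add_le _ _).trans ?_) ?_)
          · rw [abs_mul, abs_mul, abs_of_nonneg h4]
          · rw [abs_mul, abs_mul, abs_of_nonneg hA, abs_sg, one_mul]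
      _ ≤ (A + |ξ| / 2) * E.ℓ s(p, q) + |ξ| * (1 * E.ℓ s(p, q)) + A * (cc * E.ℓ s(p, q)) := by
          gcongr
      _ ≤ _ := by
          simp only [cc]
          nlinarith [mul_nonneg (abs_nonneg ξ) h3.le, mul_nonneg hA h3.le]

theorem w_small {w : ℝ} (hw : 0 ≤ w) : w / K0 ≤ w / 100000 := by
  refine div_le_div_of_nonneg_left hw (by norm_num) ?_
  norm_num [K0]

/-- the glued result -/
def glue (hw : 0 ≤ w) : Res E (n + 1) w D where
  Xf := T.gX r
  u := T.gu r
  αe := T.gα r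
  lip := fun p _ q _ h => by
    by_cases h1 : ∃ i, p ∈ T.ter i ∨ q ∈ T.ter i
    · obtain ⟨i, hi⟩ := h1
      obtain ⟨hp, hq⟩ := T.near_edge h hi
      rw [T.gX_near r hp, T.gX_near r hq]
      split_ifs
      · exact T.lipX p trivial q trivial h
      · exact (r i).lip p trivial q trivial h
    · push Not at h1
      rw [T.gX_far r fun i => (h1 i).1, T.gX_far r fun i => (h1 i).2]
      exact T.lipX p trivial q trivial h
  off := fun p hp => by
    rw [T.gX_far r fun i hi => hp (T.terr i hi), T.suppX p hp]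
  near := fun p => by
    have h1 := T.gX_sub_bd r hw p
    have h2 := T.nearX p
    have h3 := w_small hw
    have h4 := abs_add_le (T.gX r p - T.X' p) (T.X' p - D.X p)
    rw [sub_add_sub_cancel] at h4
    simp only [cc] at *
    linarith
  uoff := fun A ξ ω p hp => by
    have hf : ∀ i, p ∉ T.ter i := fun i hi => hp (T.terr i hi)
    simp only [gu, T.su_far r hf, cu, T.gf_far r hf, T.suppg _ p hp, mul_zero,
      Finset.sum_const_zero, add_zero]
  ubd := fun A ξ hA ω p => by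
    have h1 := T.cu_bd r hw (ω 0) p
    have h3 := w_small hw
    have h0 : 0 ≤ w / K0 := by simp only [K0]; positivity
    have hξ := abs_nonneg ξ
    have h2 : |T.su r A ξ (ω 0) (Fin.tail ω) p| ≤ 2 * (A + |ξ|) * (w / K0) := by
      by_cases h : ∃ i, p ∈ T.ter i
      · obtain ⟨i, hi⟩ := h
        rw [T.su_near r (T.near_of_mem hi)]
        refine ((r i).ubd _ _ (T.pA_nonneg i ξ hA _) _ _).trans ?_
        exact mul_le_mul_of_nonneg_right (T.pA_le i ξ hA _) h0
      · push Not at h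
        rw [T.su_far r h, abs_zero]; positivity
    unfold gu
    refine (abs_add_le _ _).trans ?_
    rw [abs_mul, abs_of_nonneg hA]
    have h4 : |T.cu r (ω 0) p| ≤ w / 2 := by simp only [cc] at h1; linarith
    have h5 := mul_le_mul_of_nonneg_left h4 hA
    have h6 : 2 * (A + |ξ|) * (w / K0) ≤ 2 * (A + |ξ|) * (w / 100000) := by gcongr
    nlinarith [mul_nonneg hA hw, mul_nonneg hξ hw]
  umean := fun A ξ p => by
    rw [mean_succ]
    simp only [gu_cons, mean_add, mean_const, T.su_mean r, add_zero, mean_mul_left, T.cu_mean r,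
      mul_zero]
  αbd := fun p q => by
    unfold gα
    split_ifs
    · exact T.slope _
    · exact (r _).αbd p q
    · norm_num
  load := fun A ξ hA p q h => T.load r ξ hA h

/-- correlation with the sign of a cell -/
theorem corr (l : V) (A ξ : ℝ) (p q : V) :
    |A * (T.gf r l p - T.gf r l q)| ≤ mean (fun ω => |inc E A ξ (T.gX r) (T.gu r A ξ ω) p q|) := by
  rw [mean_succ]
  have h1 : ∀ e : V → Bool, mean (fun ω : Om V n =>
      inc E A ξ (T.gX r) (T.gu r A ξ (Fin.cons e ω)) p q) =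
      ((A + |ξ| / 2) * (E.π p - E.π q) + ξ * (T.gX r p - T.gX r q)) +
        (A * T.cu r e p - A * T.cu r e q) := by
    intro e
    simp only [inc, gu_cons, mean_add, mean_sub, mean_const, T.su_mean r, add_zero]
  have h2 : mean (fun e : V → Bool => sg (e l) * mean (fun ω : Om V n =>
      inc E A ξ (T.gX r) (T.gu r A ξ (Fin.cons e ω)) p q)) = A * (T.gf r l p - T.gf r l q) := by
    simp only [h1]
    rw [← T.cu_corr r l p, ← T.cu_corr r l q, ← mean_sub, ← mean_mul_left,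
      ← add_zero (mean fun e => A * (sg (e l) * T.cu r e p - sg (e l) * T.cu r e q)),
      ← zero_mul ((A + |ξ| / 2) * (E.π p - E.π q) + ξ * (T.gX r p - T.gX r q)), ← mean_sg l,
      ← mean_mul_right, ← mean_add]
    exact mean_congr fun e => by ring
  rw [← h2]
  refine (abs_mean_le _).trans (mean_mono fun e => ?_)
  rw [abs_mul, abs_sg, one_mul]
  exact abs_mean_le _

theorem good_sub (hw : 0 ≤ w) {i : T.ι} {x y : V} (hx : x ∈ T.ter i) (hy : y ∈ T.ter i)
    (h : (r i).Good x y) : (T.glue r hw).Good x y := by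
  have nx := T.near_of_mem hx
  have ny := T.near_of_mem hy
  have hc : 0 ≤ c2 * E.d x y := mul_nonneg (by norm_num [c2, cc]) (d_nonneg E x y)
  change c2 * E.d x y ≤ |T.gX r x - T.gX r y| ∨
    (∀ A ξ, 0 ≤ A → c2 * E.d x y * A ≤
      mean (fun ω => |inc E A ξ (T.gX r) (T.gu r A ξ ω) x y|)) ∨
    ∃ α : ℝ, |α| ≤ 1 / 2 ∧ ∀ A ξ, 0 ≤ A → c2 * E.d x y * ((A + |ξ| / 2 + ξ * α) / 2) ≤
      mean (fun ω => |inc E A ξ (T.gX r) (T.gu r A ξ ω) x y|)
  rcases h with h | h | ⟨α, hα, h⟩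
  · by_cases hk : T.kind i = Kind.ramp
    · refine Or.inr (Or.inl fun A ξ hA => le_trans ?_ (T.corr r (T.cell i) A ξ x y))
      rw [T.gf_near r nx, T.gf_near r ny, if_pos ⟨hk, rfl⟩, if_pos ⟨hk, rfl⟩, dX, dX,
        (T.subX i).1 hk, add_sub_cancel, add_sub_cancel, abs_mul, abs_of_nonneg hA, mul_comm A]
      exact mul_le_mul_of_nonneg_right h hA
    · left
      rw [T.gX_near r nx, T.gX_near r ny, if_neg hk, if_neg hk]; exact h
  · have key : ∀ A ξ, 0 ≤ A → c2 * E.d x y *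
        (if T.kind i = Kind.ramp then A / 2 + |ξ| / 2 + ξ * T.a i else A) ≤
        mean (fun ω => |inc E A ξ (T.gX r) (T.gu r A ξ ω) x y|) := by
      intro A ξ hA
      rw [T.mean_inc_near r nx ny hA, ← T.mean_pA i A ξ, ← mean_mul_left]
      exact mean_mono fun e => h _ _ (T.pA_nonneg i ξ hA e)
    by_cases hk : T.kind i = Kind.ramp
    · refine Or.inr (Or.inr ⟨T.a i, T.slope i, fun A ξ hA => le_trans ?_ (key A ξ hA)⟩)
      rw [if_pos hk]
      refine mul_le_mul_of_nonneg_left ?_ hc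
      linarith [(xi_al (ξ := ξ) (T.slope i)).1]
    · refine Or.inr (Or.inl fun A ξ hA => ?_)
      have := key A ξ hA
      rwa [if_neg hk] at this
  · refine Or.inr (Or.inr ⟨if T.kind i = Kind.ramp then T.a i else α, ?_, fun A ξ hA => ?_⟩)
    · split_ifs
      · exact T.slope i
      · exact hα
    · rw [T.mean_inc_near r nx ny hA, ← T.mean_par i hA ξ α, div_eq_mul_inv, ← mean_mul_right,
        ← mean_mul_left]
      exact mean_mono fun e => by
        rw [← div_eq_mul_inv]; exact h _ _ (T.pA_nonneg i ξ hA e)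

theorem good_win (hw : 0 ≤ w) {x y : V} (hd : E.d x y < 2 * 10 ^ 4 * w)
    (h : (∃ l, cc * w / 16 ≤ T.g l x ∧ T.g l y = 0) ∨ 5 * (130 * cc * w) ≤ |D.X x - D.X y|) :
    (T.glue r hw).Good x y := by
  have hc : c2 * E.d x y ≤ cc * w / 32 := by
    simp only [c2, cc]; linarith
  have h3 := w_small hw
  rcases h with ⟨l, h1, h2⟩ | h
  · refine Or.inr (Or.inl fun A ξ hA => le_trans ?_ (T.corr r l A ξ x y))
    rw [abs_mul, abs_of_nonneg hA, mul_comm A]
    refine mul_le_mul_of_nonneg_right (hc.trans (le_trans ?_ (le_abs_self _))) hA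
    have h4 := abs_le.1 (T.gf_sub_bd r hw l x)
    have h5 := abs_le.1 (T.gf_sub_bd r hw l y)
    simp only [cc] at *
    linarith [h4.1, h5.2]
  · left
    have h4 := (T.glue r hw).near x
    have h5 := (T.glue r hw).near y
    have h6 : |D.X x - D.X y| ≤ |(T.glue r hw).Xf x - (T.glue r hw).Xf y| +
        |(T.glue r hw).Xf x - D.X x| + |(T.glue r hw).Xf y - D.X y| := by
      have e : D.X x - D.X y = ((T.glue r hw).Xf x - (T.glue r hw).Xf y) -
        ((T.glue r hw).Xf x - D.X x) + ((T.glue r hw).Xf y - D.X y) := by ring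
      rw [e]
      exact (abs_add_le _ _).trans (add_le_add (abs_sub _ _) le_rfl)
    simp only [cc] at *
    linarith

end Stage

theorem val_succ (k : ℕ) : val (k + 1) = val k - 1 / 16 * (1 / 2) ^ (k + 1) := by
  simp only [val]; ring

theorem val_le (k : ℕ) : val k ≤ 1 := by
  have : (1 / 2 : ℝ) ^ k ≤ 1 := pow_le_one₀ (by norm_num) (by norm_num)
  simp only [val]; linarith

theorem claim' (geom : GeomStmt) (n : ℕ) : ∀ (E : Env V) (w : ℝ) (D : Dom V),
    1000 * E.δ ≤ w / K0 ^ n → 1000 * w ≤ E.Λ → IsDom E w D →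
    ∀ (κ : Type) [Fintype κ] (x y : κ → V) (W : κ → ℝ) (idx : κ → ℕ), (∀ q, 0 ≤ W q) →
      (∀ q, D.OK E (x q) (y q) ∧ E.AtScale w (idx q) (x q) (y q) ∧ idx q < n) →
      ∃ r : Res E n w D,
        ∑ q, W q * val (idx q) ≤ ∑ q, W q * (if r.Good (x q) (y q) then 1 else 0) := by
  have hK : (1 : ℝ) ≤ K0 := by norm_num [K0]
  have hK0 : (0 : ℝ) < K0 := by linarith
  induction n with
  | zero =>
    intro E w D h1 _ hD κ _ x y W idx _ hq
    have hw : 0 ≤ w := by
      simp only [pow_zero, div_one] at h1; linarith [E.δ_pos]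
    have : IsEmpty κ := ⟨fun q => absurd (hq q).2.2 (Nat.not_lt_zero _)⟩
    exact ⟨Res.triv E 0 hw hD.lipX, by simp⟩
  | succ n ih =>
    intro E w D h1 h2 hD κ _ x y W idx hW hq
    have hw : 0 ≤ w := by
      have : 0 < w / K0 ^ (n + 1) := by linarith [E.δ_pos]
      exact ((div_pos_iff_of_pos_right (by positivity)).1 this).le
    have hmono : ∀ k, k ≤ n + 1 → 1000 * E.δ ≤ w / K0 ^ k := fun k hk =>
      h1.trans (div_le_div_of_nonneg_left hw (by positivity) (pow_le_pow_right₀ hK hk))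
    obtain ⟨T, alive, win, ha, hwin, hsum⟩ := geom V E w D
      (by simpa using hmono 1 (by omega)) h2 hD κ x y W idx hW
      (fun q => ⟨(hq q).1, (hq q).2.1, hmono _ (hq q).2.2.le⟩)
    have hdiv : ∀ k, w / K0 / K0 ^ k = w / K0 ^ (k + 1) := fun k => by
      rw [div_div, pow_succ, mul_comm]
    have hsub : ∀ i : T.ι, ∃ r : Res E n (w / K0) (T.sub i),
        ∑ q : {q // alive q = some i}, W q * val (idx q - 1) ≤
          ∑ q : {q // alive q = some i}, W q * (if r.Good (x q) (y q) then 1 else 0) := by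
      intro i
      refine ih E (w / K0) (T.sub i) (by rw [hdiv]; exact h1)
        (le_trans (by have := div_le_self hw hK; linarith) h2) (T.dom i)
        {q // alive q = some i} (fun q => x q) (fun q => y q) (fun q => W q)
        (fun q => idx q - 1) (fun q => hW q) fun q => ?_
      obtain ⟨a1, a2, -, -⟩ := ha q i q.2
      obtain ⟨-, b2, b3⟩ := hq q
      refine ⟨a2, ?_, by omega⟩
      unfold Env.AtScale at b2 ⊢
      rw [hdiv, Nat.sub_add_cancel a1]
      exact b2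
    choose r hr using hsub
    refine ⟨T.glue r hw, ?_⟩
    -- the alive pairs
    have s1 : ∀ F : κ → T.ι → ℝ, ∑ i, ∑ q : {q // alive q = some i}, F q i =
        ∑ q, match alive q with | some i => F q i | none => 0 := by
      intro F
      have : ∀ i, ∑ q : {q // alive q = some i}, F q i =
          ∑ q, if alive q = some i then F q i else 0 := by
        intro i
        rw [← Finset.sum_filter]
        exact (Finset.sum_subtype _ (by simp) (fun q => F q i)).symm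
      simp only [this]
      rw [Finset.sum_comm]
      refine Finset.sum_congr rfl fun q _ => ?_
      cases alive q with
      | none => simp
      | some j => simp
    have s2 := Finset.sum_le_sum (s := Finset.univ) fun i _ => hr i
    rw [s1 (fun q _ => W q * val (idx q - 1)),
      s1 (fun q i => W q * (if (r i).Good (x q) (y q) then 1 else 0))] at s2
    have s3 := add_le_add hsum s2
    rw [← Finset.sum_add_distrib, ← Finset.sum_add_distrib] at s3
    rw [← sub_nonneg, ← Finset.sum_sub_distrib] at s3 ⊢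
    refine s3.trans (Finset.sum_le_sum fun q _ => ?_)
    have hWq := hW q
    have hg : (0 : ℝ) ≤ if (T.glue r hw).Good (x q) (y q) then 1 else 0 := by
      split_ifs <;> norm_num
    by_cases hwq : win q
    · obtain ⟨i0, hgain⟩ := hwin q hwq
      have hG : (T.glue r hw).Good (x q) (y q) := by
        refine T.good_win r hw ?_ hgain
        have := (hq q).2.1.2.1
        rwa [i0, pow_zero, div_one] at this
      cases hal : alive q with
      | some i => have := (ha q i hal).1; omega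
      | none =>
        simp only [if_pos hwq, if_pos hG, i0, val, if_true]
        linarith
    · rw [if_neg hwq]
      cases hal : alive q with
      | some i =>
        obtain ⟨a1, -, a3, a4⟩ := ha q i hal
        obtain ⟨k, hk⟩ : ∃ k, idx q = k + 1 := ⟨idx q - 1, by omega⟩
        have hle : (if (r i).Good (x q) (y q) then (1 : ℝ) else 0) ≤
            if (T.glue r hw).Good (x q) (y q) then 1 else 0 := by
          split_ifs with c1 c2
          · exact le_rfl
          · exact absurd (T.good_sub r hw a3 a4 c1) c2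
          · norm_num
          · exact le_rfl
        have := mul_le_mul_of_nonneg_left hle hWq
        simp only [hk, Nat.add_sub_cancel, val_succ, reduceCtorEq, and_false, if_false,
          Nat.succ_ne_zero]
        linarith
      | none =>
        have h0 := mul_nonneg hWq hg
        rcases Nat.eq_zero_or_pos (idx q) with i0 | i0
        · simp only [i0, lt_irrefl, false_and, if_false, if_true, val]
          linarith
        · obtain ⟨k, hk⟩ : ∃ k, idx q = k + 1 := ⟨idx q - 1, by omega⟩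
          have := mul_le_mul_of_nonneg_left (val_le k) hWq
          simp only [hk, val_succ, Nat.succ_pos, and_self, if_true, Nat.succ_ne_zero, if_false]
          linarith

theorem alg : AlgImp := by
  intro geom n V _ E w D h1 h2 hD κ _ x y W idx hW hq
  obtain ⟨r, hr⟩ := claim' geom n E w D h1 h2 hD κ x y W idx hW hq
  exact ⟨r.Xf, r.u, r.αe, fun q => r.Good (x q) (y q), r.lip, r.off, r.near, r.uoff, r.ubd,
    r.umean, r.αbd, r.load, fun q h => h, hr⟩

end Crest.Agent.N206.TA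
end
end

-- ▼ part N206/TA/Root
section

/-!
# Row 206, S0317, Theorem A: the root domain, `root : RootImp` (helper62)
-/

set_option autoImplicit false

noncomputable section

open scoped Classical

namespace Crest.Agent.N206.TA

open Crest.GeometryTopology.GraphMetric Crest.Agent.N206.PL Crest.Agent.R206.Iface534

namespace Rt

variable {V : Type} [Fintype V] {n : ℕ}

theorem card_pos : (0 : ℝ) < Fintype.card (Om V n) := by exact_mod_cast Fintype.card_pos

theorem avg_mono {F F' : Om V n → ℝ} (h : ∀ o, F o ≤ F' o) : avg F ≤ avg F' :=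
  div_le_div_of_nonneg_right (Finset.sum_le_sum fun o _ => h o) card_pos.le

theorem avg_add (F F' : Om V n → ℝ) : avg (fun o => F o + F' o) = avg F + avg F' := by
  simp only [avg, Finset.sum_add_distrib, add_div]

theorem avg_sub (F F' : Om V n → ℝ) : avg (fun o => F o - F' o) = avg F - avg F' := by
  simp only [avg, Finset.sum_sub_distrib, sub_div]

theorem avg_const (c : ℝ) : avg (fun _ : Om V n => c) = c := by
  have := (card_pos (V := V) (n := n)).ne'
  simp only [avg, Finset.sum_const, Finset.card_univ, nsmul_eq_mul]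
  field_simp

theorem abs_avg_le (F : Om V n → ℝ) : |avg F| ≤ avg fun o => |F o| := by
  simp only [avg, abs_div, abs_of_pos (card_pos (V := V) (n := n))]
  exact div_le_div_of_nonneg_right (Finset.abs_sum_le_sum_abs _ _) card_pos.le

theorem isCut_avg (F : Om V n → V → ℝ) : IsCut fun x y => avg fun o => |F o x - F o y| := by
  refine ((IsCut.sum Finset.univ _ fun o _ => IsCut.abs (F o)).smul
    (c := 1 / (Fintype.card (Om V n) : ℝ)) (by positivity)).congr fun x y => ?_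
  simp only [avg]
  ring

/-- a cutoff function -/
theorem exists_cut {G : SimpleGraph V} {ℓ : Sym2 V → ℝ} {δ : ℝ} (hw : WG G ℓ δ) (S : Set V)
    {r : ℝ} (hr : 0 < r) :
    ∃ χ : V → ℝ, (∀ x, 0 ≤ χ x) ∧ (∀ x, χ x ≤ 1) ∧ (∀ x ∈ S, χ x = 1) ∧
      (∀ x, χ x ≠ 0 → ∃ z ∈ S, wdist G ℓ z x < r) ∧
      ∀ x y, G.Adj x y → |χ x - χ y| ≤ ℓ s(x, y) / r := by
  have key : ∀ x, ∃ a : ℝ, 0 ≤ a ∧ (∀ z ∈ S, r - wdist G ℓ z x ≤ a) ∧
      (a = 0 ∨ ∃ z ∈ S, a = r - wdist G ℓ z x) := by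
    intro x
    by_cases h : ∃ z ∈ S, wdist G ℓ z x ≤ r
    · obtain ⟨z₀, hz₀, h₀⟩ := h
      obtain ⟨z, hz, hmin⟩ := Finset.exists_min_image (Finset.univ.filter fun z => z ∈ S)
        (fun z => wdist G ℓ z x) ⟨z₀, by simpa using hz₀⟩
      exact ⟨r - wdist G ℓ z x, by linarith [hmin z₀ (by simpa using hz₀)],
        fun y hy => by linarith [hmin y (by simpa using hy)], Or.inr ⟨z, by simpa using hz, rfl⟩⟩
    · push Not at h
      exact ⟨0, le_rfl, fun z hz => by linarith [h z hz], Or.inl rfl⟩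
  choose a a0 a1 a2 using key
  have ale : ∀ x, a x ≤ r := fun x => by
    rcases a2 x with e | ⟨z, -, e⟩ <;> rw [e]
    · exact hr.le
    · linarith [hw.nonneg z x]
  have alip : ∀ x y, G.Adj x y → a x ≤ a y + ℓ s(x, y) := fun x y hxy => by
    rcases a2 x with e | ⟨z, hz, e⟩ <;> rw [e]
    · linarith [a0 y, hw.adj_pos hxy]
    · linarith [a1 y z hz, hw.tri z x y, hw.edge hxy]
  refine ⟨fun x => a x / r, fun x => div_nonneg (a0 x) hr.le, fun x => (div_le_one hr).2 (ale x),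
    fun x hx => ?_, fun x hx => ?_, fun x y hxy => ?_⟩
  · have := a1 x x hx
    rw [hw.self] at this
    show a x / r = 1
    rw [div_eq_one_iff_eq hr.ne']
    linarith [ale x]
  · rcases a2 x with e | ⟨z, hz, e⟩
    · exact absurd (by simp [e]) hx
    · refine ⟨z, hz, ?_⟩
      by_contra h
      have : a x = 0 := le_antisymm (by linarith) (a0 x)
      exact hx (by simp [this])
  · have e1 := alip x y hxy
    have e2 := alip y x hxy.symm
    rw [Sym2.eq_swap] at e2
    show |a x / r - a y / r| ≤ _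
    rw [← sub_div, abs_div, abs_of_pos hr]
    exact div_le_div_of_nonneg_right (abs_le.2 ⟨by linarith, by linarith⟩) hr.le

theorem prod_le {f g c d B L : ℝ} (hd0 : 0 ≤ d) (hd1 : d ≤ 1) (hf : |f| ≤ B) (hL : |c - d| ≤ L) :
    |f * c - g * d| ≤ B * L + |f - g| := by
  have e : f * c - g * d = f * (c - d) + (f - g) * d := by ring
  rw [e]
  refine (abs_add_le _ _).trans (add_le_add ?_ ?_)
  · rw [abs_mul]
    exact mul_le_mul hf hL (abs_nonneg _) ((abs_nonneg _).trans hf)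
  · rw [abs_mul, abs_of_nonneg hd0]
    exact mul_le_of_le_one_right (abs_nonneg _) hd1

/-- the root domain -/
def dom (E : Env V) : Dom V := ⟨E.Sg, E.R / 2, E.lam, fun _ => 0, fun _ => 30 * E.R⟩

omit [Fintype V] in
theorem le_π (E : Env V) {x : V} (hx : x ∈ E.Sg) : E.R ≤ E.π x := by
  obtain ⟨τ, -, p, hp⟩ := E.st.away
  rw [E.π_eq, E.d_comm]
  exact hp _ p.start_mem_support x hx

omit [Fintype V] in
theorem isDom (E : Env V) (hR : 0 < E.R) (w : ℝ) : IsDom E w (dom E) where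
  sub := fun _ h => h
  subJ := fun x hx => ⟨by have := le_π E hx; show E.R / 2 ≤ _; linarith, by
    have := E.st.room x hx; show wdist E.G E.ℓ E.s x < E.lam; linarith⟩
  pos := half_pos hR
  le := le_rfl
  lipX := fun u _ v _ h => by simpa [dom] using (E.ℓ_pos h).le
  lipb := fun u _ v _ h => by simpa [dom] using (E.ℓ_pos h).le
  sep := fun _ _ _ h _ h' => absurd h h'
  cb := ⟨fun _ => 0, fun _ => 0, fun _ _ => by simp [dom], fun _ _ _ _ _ => ⟨rfl, rfl⟩⟩

omit [Fintype V] in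
theorem ok (E : Env V) {x y : V} (hx : x ∈ E.Sg) (hy : y ∈ E.Sg) (h : 140 * E.d x y ≤ E.R) :
    (dom E).OK E x y := by
  have h0 := E.d_nonneg x y
  have h1 := le_π E hx
  have h2 : E.π x + E.R ≤ E.lam := E.st.room x hx
  refine ⟨hx, hy, ?_, ?_, ?_, Or.inr ⟨0, 0, by norm_num, fun _ _ => by simp [dom]⟩⟩
  · show _ ≤ 30 * E.R
    linarith
  · show E.R / 2 + _ ≤ _
    linarith
  · show _ ≤ E.lam
    linarith

/-- one class of scales -/
theorem one_class (H : ∀ n, Claim n) (E : Env V) (hR : 0 < E.R) {Δ m w : ℝ} (hΔ : 1 ≤ Δ)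
    (hm : ∀ x ∈ E.Sg, |E.π x - m| ≤ Δ * E.R) (hw0 : 0 ≤ w) (hwR : w ≤ E.R) (hΛ : 1000 * w ≤ E.Λ)
    (hn : 1000 * E.δ ≤ w / K0 ^ n) {κ : Type} [Fintype κ] (a b : κ → V) (ω : κ → ℝ)
    (idx : κ → ℕ) (hω : ∀ q, 0 ≤ ω q)
    (hq : ∀ q, a q ∈ E.Sg ∧ b q ∈ E.Sg ∧ 140 * E.d (a q) (b q) ≤ E.R ∧
      E.AtScale w (idx q) (a q) (b q) ∧ idx q < n) :
    ∃ ρ : V → V → ℝ, IsCut ρ ∧ (∀ x y, E.G.Adj x y → ρ x y ≤ (20 * Δ + 75) * E.ℓ s(x, y)) ∧
      (∀ x y, (∀ z ∈ E.Sg, E.R / 10 ≤ E.d z x) → (∀ z ∈ E.Sg, E.R / 10 ≤ E.d z y) → ρ x y = 0) ∧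
      c2 / 16 * ∑ q, ω q * E.d (a q) (b q) ≤ ∑ q, ω q * ρ (a q) (b q) := by
  obtain ⟨Xf, u, αe, good, -, -, hX, -, hu, hu0, hα, hload, hgood, hsum⟩ :=
    H n V E w (dom E) hn hΛ (isDom E hR w) κ a b (fun q => ω q * E.d (a q) (b q)) idx
      (fun q => mul_nonneg (hω q) (E.d_nonneg _ _))
      fun q => ⟨ok E (hq q).1 (hq q).2.1 (hq q).2.2.1, (hq q).2.2.2.1, (hq q).2.2.2.2⟩
  obtain ⟨χ, χ0, χ1, χS, χn, χl⟩ := exists_cut E.wg E.Sg (r := E.R / 10) (by linarith)
  set F : ℝ → Om V n → V → ℝ := fun ξ o p => E.π p + ξ * Xf p + u (1 / 2) ξ o p - m with hF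
  have hinc : ∀ ξ : ℝ, |ξ| = 1 → ∀ o p q, inc E (1 / 2) ξ Xf (u (1 / 2) ξ o) p q =
      F ξ o p - F ξ o q := by
    intro ξ hξ o p q
    simp only [inc, hF, hξ]; ring
  have hFb : ∀ ξ : ℝ, |ξ| = 1 → ∀ o p, χ p ≠ 0 → |F ξ o p| ≤ (Δ + 3) * E.R := by
    intro ξ hξ o p hp
    obtain ⟨z, hz, hd⟩ := χn p hp
    have e1 := abs_le.1 (hm z hz)
    have e2 := abs_le.1 (E.π_lip z p)
    have e3 : |ξ * Xf p| ≤ w := by
      have := hX p
      rw [abs_mul, hξ, one_mul]
      simp only [dom, sub_zero, cc] at this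
      linarith
    have e4 := hu (1 / 2) ξ (by norm_num) o p
    rw [hξ] at e4
    have e5 := abs_le.1 e3
    have e6 := abs_le.1 e4
    have hd' : E.d z p < E.R / 10 := hd
    simp only [hF]
    rw [abs_le]; constructor <;> linarith
  have hedge : ∀ ξ : ℝ, |ξ| = 1 → ∀ x y, E.G.Adj x y →
      avg (fun o => |F ξ o x * χ x - F ξ o y * χ y|) ≤ (10 * Δ + 75 / 2) * E.ℓ s(x, y) := by
    intro ξ hξ x y hxy
    have hl := E.ℓ_pos hxy
    have hB : (Δ + 3) * E.R * (E.ℓ s(x, y) / (E.R / 10)) = (10 * Δ + 30) * E.ℓ s(x, y) := by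
      field_simp; ring
    have h1 : ∀ o, |F ξ o x * χ x - F ξ o y * χ y| ≤
        (10 * Δ + 30) * E.ℓ s(x, y) + |F ξ o x - F ξ o y| := by
      intro o
      rw [← hB]
      by_cases hx : χ x = 0
      · by_cases hy : χ y = 0
        · rw [hx, hy, hB]
          simp only [mul_zero, sub_zero, abs_zero]
          positivity
        · rw [abs_sub_comm, abs_sub_comm (F ξ o x)]
          exact prod_le (χ0 x) (χ1 x) (hFb ξ hξ o y hy) (by rw [abs_sub_comm]; exact χl x y hxy)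
      · exact prod_le (χ0 y) (χ1 y) (hFb ξ hξ o x hx) (χl x y hxy)
    have h2 := hload (1 / 2) ξ (by norm_num) x y hxy
    simp only [hinc ξ hξ] at h2
    have h3 : ξ * αe x y ≤ 1 / 2 := by
      have := le_abs_self (ξ * αe x y)
      rw [abs_mul, hξ, one_mul] at this
      linarith [hα x y]
    refine (avg_mono h1).trans ?_
    rw [avg_add, avg_const]
    rw [hξ] at h2
    nlinarith
  have a1 : |(1 : ℝ)| = 1 := abs_one
  have a2 : |(-1 : ℝ)| = 1 := by simp
  refine ⟨fun x y => avg (fun o => |F 1 o x * χ x - F 1 o y * χ y|) +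
    avg (fun o => |F (-1) o x * χ x - F (-1) o y * χ y|),
    (isCut_avg fun o x => F 1 o x * χ x).add (isCut_avg fun o x => F (-1) o x * χ x),
    fun x y hxy => ?_, fun x y hx hy => ?_, ?_⟩
  · have := hedge 1 a1 x y hxy
    have := hedge (-1) a2 x y hxy
    linarith
  · have e : ∀ x, (∀ z ∈ E.Sg, E.R / 10 ≤ E.d z x) → χ x = 0 := fun x hx => by
      by_contra h
      obtain ⟨z, hz, hd⟩ := χn x h
      exact absurd (hx z hz) (not_le.2 hd)
    simp [e x hx, e y hy, avg_const]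
  · have hc2 : 0 < c2 := by unfold c2 cc; norm_num
    have key : ∀ q, c2 * (ω q * E.d (a q) (b q) * if good q then 1 else 0) ≤
        ω q * (avg (fun o => |F 1 o (a q) * χ (a q) - F 1 o (b q) * χ (b q)|) +
          avg (fun o => |F (-1) o (a q) * χ (a q) - F (-1) o (b q) * χ (b q)|)) := by
      intro q
      rw [χS _ (hq q).1, χS _ (hq q).2.1]
      simp only [mul_one]
      have n1 := (abs_nonneg _).trans (abs_avg_le fun o => F 1 o (a q) - F 1 o (b q))
      have n2 := (abs_nonneg _).trans (abs_avg_le fun o => F (-1) o (a q) - F (-1) o (b q))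
      split_ifs with hg
      swap
      · simpa using mul_nonneg (hω q) (add_nonneg n1 n2)
      suffices h : c2 * E.d (a q) (b q) ≤ avg (fun o => |F 1 o (a q) - F 1 o (b q)|) +
          avg (fun o => |F (-1) o (a q) - F (-1) o (b q)|) by
        have := mul_le_mul_of_nonneg_left h (hω q)
        linarith
      rcases hgood q hg with h | h | ⟨α, -, h⟩
      · have m : ∀ ξ : ℝ, avg (fun o => F ξ o (a q) - F ξ o (b q)) =
            E.π (a q) - E.π (b q) + ξ * (Xf (a q) - Xf (b q)) := by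
          intro ξ
          have : (fun o => F ξ o (a q) - F ξ o (b q)) = fun o =>
              (E.π (a q) - E.π (b q) + ξ * (Xf (a q) - Xf (b q))) +
                (u (1 / 2) ξ o (a q) - u (1 / 2) ξ o (b q)) := by
            funext o; simp only [hF]; ring
          rw [this, avg_add, avg_const, avg_sub, hu0, hu0]; ring
        have b1 := abs_avg_le fun o => F 1 o (a q) - F 1 o (b q)
        have b2 := abs_avg_le fun o => F (-1) o (a q) - F (-1) o (b q)
        rw [m] at b1 b2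
        have b3 := abs_le.1 b1
        have b4 := abs_le.1 b2
        have hd := mul_nonneg hc2.le (E.d_nonneg (a q) (b q))
        rcases le_abs.1 h with h | h <;> linarith
      · have b1 := h (1 / 2) 1 (by norm_num)
        have b2 := h (1 / 2) (-1) (by norm_num)
        simp only [hinc 1 a1, hinc (-1) a2] at b1 b2
        linarith
      · have b1 := h (1 / 2) 1 (by norm_num)
        have b2 := h (1 / 2) (-1) (by norm_num)
        simp only [hinc 1 a1, hinc (-1) a2, a1, a2] at b1 b2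
        linarith
    refine le_trans ?_ (Finset.sum_le_sum fun q _ => key q)
    rw [← Finset.mul_sum]
    refine le_trans ?_ (mul_le_mul_of_nonneg_left hsum hc2.le)
    rw [div_eq_mul_one_div, mul_assoc, Finset.mul_sum]
    refine mul_le_mul_of_nonneg_left (Finset.sum_le_sum fun q _ => ?_) hc2.le
    have hv : 1 / 16 ≤ val (idx q) := by
      unfold val
      have : (0 : ℝ) ≤ 1 / 16 * (1 / 2) ^ idx q := by positivity
      linarith
    rw [mul_comm]
    exact mul_le_mul_of_nonneg_left hv (mul_nonneg (hω q) (E.d_nonneg _ _))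

theorem exists_dyadic {y : ℝ} (hy : 1 ≤ y) : ∃ t : ℕ, y ≤ 2 ^ t ∧ 2 ^ t < 2 * y := by
  have hex : ∃ t : ℕ, y ≤ 2 ^ t := by
    obtain ⟨t, ht⟩ := pow_unbounded_of_one_lt y (one_lt_two (α := ℝ))
    exact ⟨t, ht.le⟩
  refine ⟨Nat.find hex, Nat.find_spec hex, ?_⟩
  rcases h : Nat.find hex with _ | t
  · simp only [pow_zero]; linarith
  · have := Nat.find_min hex (m := t) (by omega)
    rw [pow_succ]
    linarith [not_le.1 this]

end Rt

open Rt in
theorem root : RootImp := by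
  intro H Δ hΔ
  have hc2 : 0 < c2 := by unfold c2 cc; norm_num
  refine ⟨40 * (20 * Δ + 75), c2 / 16, 10 ^ 8 * K0, by positivity, by positivity,
    by unfold K0; norm_num, ?_⟩
  intro V _ G ℓ δ hw hmf s T lam R m Sg hR st hm ι _ a b ω hω hab
  set C : ℝ := 10 ^ 8 * K0 with hC
  have hK : (1 : ℝ) ≤ K0 := by unfold K0; norm_num
  have hC1 : 10 ^ 8 ≤ C := by rw [hC]; nlinarith
  have hC0 : 0 < C := by linarith
  have ht : ∀ q, ∃ t : ℕ, 0 < wdist G ℓ (a q) (b q) →
      R / C / 2 ^ t ≤ wdist G ℓ (a q) (b q) ∧ wdist G ℓ (a q) (b q) < 2 * (R / C / 2 ^ t) := by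
    intro q
    by_cases hd : 0 < wdist G ℓ (a q) (b q)
    · obtain ⟨t, h1, h2⟩ := exists_dyadic (y := R / C / wdist G ℓ (a q) (b q)) (by
        rw [le_div_iff₀ hd, le_div_iff₀ hC0]; linarith [(hab q).2.2.2])
      refine ⟨t, fun _ => ⟨?_, ?_⟩⟩
      · rw [div_le_iff₀ hd] at h1
        rw [div_le_iff₀ (by positivity)]; linarith
      · rw [← mul_div_assoc, lt_div_iff₀ hd] at h2
        rw [← mul_div_assoc, lt_div_iff₀ (by positivity)]; linarith
    · exact ⟨0, fun h => absurd h hd⟩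
  choose t ht using ht
  set P : ℕ → ι → Prop := fun r q => 0 < wdist G ℓ (a q) (b q) ∧ t q % 40 = r with hP
  have hcl : ∀ r : ℕ, ∃ ρ : V → V → ℝ, IsCut ρ ∧
      (∀ x y, G.Adj x y → ρ x y ≤ (20 * Δ + 75) * ℓ s(x, y)) ∧
      (∀ x y, (∀ z ∈ Sg, R / 10 ≤ wdist G ℓ z x) → (∀ z ∈ Sg, R / 10 ≤ wdist G ℓ z y) →
        ρ x y = 0) ∧
      c2 / 16 * ∑ q ∈ Finset.univ.filter (P r), ω q * wdist G ℓ (a q) (b q) ≤
        ∑ q ∈ Finset.univ.filter (P r), ω q * ρ (a q) (b q) := by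
    intro r
    rcases (Finset.univ.filter (P r)).eq_empty_or_nonempty with he | hne
    · exact ⟨fun _ _ => 0, IsCut.zero, fun x y hxy => mul_nonneg (by linarith)
        (hw.adj_pos hxy).le, fun _ _ _ _ => rfl, by simp [he]⟩
    obtain ⟨q₀, hq₀, hmax⟩ := Finset.exists_max_image _ (fun q => t q / 40) hne
    have hq₀' : P r q₀ := by simpa using hq₀
    have hδ : 0 < δ := by
      have key : ∀ x y, 0 < wdist G ℓ x y → 0 < δ := by
        intro x y hxy
        obtain ⟨p, -, hp⟩ := hw.exists_geo x y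
        cases p with
        | nil => rw [← hp] at hxy; simp [wl] at hxy
        | cons h p => exact (hw.adj_pos h).trans_le (hw.adj_le h)
      exact key _ _ hq₀'.1
    set w : ℝ := R / C / 2 ^ r / 10 ^ 4 with hw'
    have hw0 : 0 ≤ w := by positivity
    have hsc : ∀ q, P r q → 10 ^ 4 * (w / K0 ^ (t q / 40)) = R / C / 2 ^ t q := by
      intro q hq
      have e : (2 : ℝ) ^ t q = 2 ^ r * K0 ^ (t q / 40) := by
        unfold K0
        rw [← pow_mul, ← pow_add, ← hq.2, Nat.mod_add_div]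
      rw [e, hw']
      field_simp
    have hwR : w ≤ R := by
      rw [hw', div_div, div_div]
      refine div_le_self hR.le ?_
      have : (1 : ℝ) ≤ 2 ^ r := one_le_pow₀ (by norm_num)
      nlinarith
    let E : Env V := ⟨G, ℓ, δ, s, T, lam, R, Sg, 1000 * w, hw, hmf, st, hδ, by positivity⟩
    obtain ⟨ρ, h1, h2, h3, h4⟩ := one_class (n := t q₀ / 40 + 1) H E hR hΔ (m := m) hm hw0 hwR
      le_rfl (by
        show 1000 * δ ≤ _
        have e1 := (ht q₀ hq₀'.1).2
        have e2 := (hab q₀).2.2.1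
        rw [← hsc q₀ hq₀'] at e1
        have e3 : w / K0 ^ (t q₀ / 40) = K0 * (w / K0 ^ (t q₀ / 40 + 1)) := by
          rw [pow_succ]; field_simp
        rw [e3] at e1
        have e4 : K0 * (10 ^ 8 * δ) < K0 * (2 * 10 ^ 4 * (w / K0 ^ (t q₀ / 40 + 1))) := by
          rw [hC] at e2; linarith
        have e5 := lt_of_mul_lt_mul_left e4 (by linarith)
        linarith)
      (κ := {q // P r q}) (fun q => a q) (fun q => b q) (fun q => ω q) (fun q => t q / 40)
      (fun q => hω q) fun q => by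
        have e1 := ht q q.2.1
        have e2 := (hab q).2.2.2
        have e3 := q.2.1
        rw [← hsc q q.2] at e1
        refine ⟨(hab q).1, (hab q).2.1, ?_, ⟨e1.1, ?_, ?_⟩,
          Nat.lt_succ_of_le (hmax q (by simpa using q.2))⟩
        · show 140 * wdist G ℓ _ _ ≤ R
          nlinarith
        · show wdist G ℓ _ _ < _
          linarith [e1.2]
        · show 10 * wdist G ℓ _ _ ≤ R
          nlinarith
    refine ⟨ρ, h1, h2, h3, ?_⟩
    rw [Finset.sum_subtype (Finset.univ.filter (P r)) (p := P r) (by simp),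
      Finset.sum_subtype (Finset.univ.filter (P r)) (p := P r) (by simp)]
    exact h4
  choose ρ c1 c2' c3 c4 using hcl
  refine ⟨fun x y => ∑ r ∈ Finset.range 40, ρ r x y, IsCut.sum _ _ fun r _ => c1 r,
    fun x y hxy => ?_, fun x y hx hy => Finset.sum_eq_zero fun r _ => c3 r x y hx hy, ?_⟩
  · refine (Finset.sum_le_sum fun r _ => c2' r x y hxy).trans (le_of_eq ?_)
    simp only [Finset.sum_const, Finset.card_range, nsmul_eq_mul]
    push_cast; ring
  · have e1 : ∑ q, ω q * wdist G ℓ (a q) (b q) ≤ ∑ r ∈ Finset.range 40,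
        ∑ q ∈ Finset.univ.filter (P r), ω q * wdist G ℓ (a q) (b q) := by
      simp only [Finset.sum_filter]
      rw [Finset.sum_comm]
      refine Finset.sum_le_sum fun q _ => ?_
      by_cases hd : 0 < wdist G ℓ (a q) (b q)
      · refine le_trans ?_ (Finset.single_le_sum (f := fun r =>
          if P r q then ω q * wdist G ℓ (a q) (b q) else 0) (fun r _ => ?_)
          (Finset.mem_range.2 (Nat.mod_lt (t q) (by norm_num))))
        · rw [if_pos ⟨hd, rfl⟩]
        · split_ifs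
          · exact mul_nonneg (hω q) hd.le
          · exact le_rfl
      · have : wdist G ℓ (a q) (b q) = 0 := le_antisymm (not_lt.1 hd) (hw.nonneg _ _)
        simp [this]
    refine (mul_le_mul_of_nonneg_left e1 (by positivity)).trans ?_
    rw [Finset.mul_sum]
    refine (Finset.sum_le_sum fun r _ => c4 r).trans ?_
    simp only [Finset.mul_sum]
    rw [Finset.sum_comm]
    refine Finset.sum_le_sum fun r _ => Finset.sum_le_sum_of_subset_of_nonneg
      (Finset.filter_subset _ _) fun q _ _ => mul_nonneg (hω q) ((c1 r).nonneg _ _)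

end Crest.Agent.N206.TA
end
end

-- ▼ part N206/TA/G0
section

/-!
# Row 206, S0317, Theorem A, geometric stage: bands (helper24)
-/

set_option autoImplicit false

noncomputable section

open scoped Classical

namespace Crest.Agent.N206.TA

open Crest.GeometryTopology.GraphMetric Crest.Agent.N206.PL

variable {V : Type}

/-! ### capped minima, representatives, separated sets -/

/-- the minimum of `c` and of the values of `f` on `A` -/
def inf2 (c : ℝ) (A : Set V) (f : V → ℝ) : ℝ := sInf (insert c (f '' A))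

section inf2

variable [Fintype V] {c c' L : ℝ} {A : Set V} {f f' : V → ℝ}

theorem inf2_fin : (insert c (f '' A)).Finite := ((Set.toFinite A).image f).insert c

theorem inf2_le_c : inf2 c A f ≤ c := csInf_le inf2_fin.bddBelow (Set.mem_insert _ _)

theorem inf2_le {a : V} (ha : a ∈ A) : inf2 c A f ≤ f a :=
  csInf_le inf2_fin.bddBelow (Set.mem_insert_of_mem _ ⟨a, ha, rfl⟩)

theorem inf2_eq : inf2 c A f = c ∨ ∃ a ∈ A, inf2 c A f = f a := by
  rcases (Set.insert_nonempty c (f '' A)).csInf_mem inf2_fin with h | ⟨a, ha, h⟩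
  · exact Or.inl h
  · exact Or.inr ⟨a, ha, h.symm⟩


theorem inf2_lt (h : inf2 c A f < L) : c < L ∨ ∃ a ∈ A, f a < L := by
  rcases inf2_eq (c := c) (A := A) (f := f) with h' | ⟨a, ha, h'⟩
  · exact Or.inl (h' ▸ h)
  · exact Or.inr ⟨a, ha, h' ▸ h⟩

theorem inf2_le_add (h1 : c ≤ c' + L) (h2 : ∀ a ∈ A, f a ≤ f' a + L) :
    inf2 c A f ≤ inf2 c' A f' + L := by
  rcases inf2_eq (c := c') (A := A) (f := f') with h | ⟨a, ha, h⟩
  · rw [h]; exact inf2_le_c.trans h1
  · rw [h]; exact (inf2_le ha).trans (h2 a ha)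

theorem inf2_lip (h1 : |c - c'| ≤ L) (h2 : ∀ a ∈ A, |f a - f' a| ≤ L) :
    |inf2 c A f - inf2 c' A f'| ≤ L := by
  have a1 : inf2 c A f ≤ inf2 c' A f' + L :=
    inf2_le_add (by linarith [(abs_le.1 h1).2]) fun a ha => by linarith [(abs_le.1 (h2 a ha)).2]
  have a2 : inf2 c' A f' ≤ inf2 c A f + L :=
    inf2_le_add (by linarith [(abs_le.1 h1).1]) fun a ha => by linarith [(abs_le.1 (h2 a ha)).1]
  rw [abs_le]; constructor <;> linarith

end inf2

/-- the representative of the class of `a` -/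
def qrep (r : V → V → Prop) (a : V) : V := (Quot.mk r a).out

theorem qrep_eq_iff {r : V → V → Prop} (hr : ∀ a b, r a b → r b a) {a b : V} :
    qrep r a = qrep r b ↔ Relation.ReflTransGen r a b := by
  have e : qrep r a = qrep r b ↔ Quot.mk r a = Quot.mk r b := by
    constructor
    · intro h
      rw [← Quot.out_eq (Quot.mk r a), ← Quot.out_eq (Quot.mk r b)]
      exact congrArg _ h
    · intro h; unfold qrep; rw [h]
  rw [e]
  constructor
  · intro h
    have h' := Quot.eqvGen_exact h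
    clear e h
    induction h' with
    | rel x y h => exact Relation.ReflTransGen.single h
    | refl x => exact Relation.ReflTransGen.refl
    | symm x y h0 ih =>
      clear h0
      induction ih with
      | refl => exact Relation.ReflTransGen.refl
      | tail _ h ih => exact Relation.ReflTransGen.head (hr _ _ h) ih
    | trans x y z _ _ i1 i2 => exact i1.trans i2
  · intro h
    clear e
    induction h with
    | refl => rfl
    | tail _ h ih => exact ih.trans (Quot.sound h)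

theorem qrep_idem (r : V → V → Prop) (a : V) : qrep r (qrep r a) = qrep r a := by
  unfold qrep; rw [Quot.out_eq]

theorem qrep_rel {r : V → V → Prop} {a b : V} (h : r a b) : qrep r a = qrep r b := by
  unfold qrep; rw [Quot.sound h]

/-- a maximal separated subset -/
theorem exists_net [Fintype V] (P : V → Prop) (ρ : V → V → ℝ) (r : ℝ) (hr : 0 ≤ r)
    (h0 : ∀ a, ρ a a = 0) (hs : ∀ a b, ρ a b = ρ b a) :
    ∃ Z : Set V, (∀ z ∈ Z, P z) ∧ (∀ z ∈ Z, ∀ z' ∈ Z, ρ z z' ≤ r → z = z') ∧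
      ∀ a, P a → ∃ z ∈ Z, ρ z a ≤ r := by
  obtain ⟨Z, hZ, hmax⟩ := Set.Finite.exists_maximal
    (s := {Z : Set V | (∀ z ∈ Z, P z) ∧ ∀ z ∈ Z, ∀ z' ∈ Z, ρ z z' ≤ r → z = z'})
    (Set.toFinite _) ⟨∅, by simp⟩
  refine ⟨Z, hZ.1, hZ.2, fun a ha => ?_⟩
  by_contra hn
  push Not at hn
  have hin : insert a Z ∈
      {Z : Set V | (∀ z ∈ Z, P z) ∧ ∀ z ∈ Z, ∀ z' ∈ Z, ρ z z' ≤ r → z = z'} := by
    refine ⟨?_, ?_⟩
    · rintro z (rfl | hz)
      · exact ha
      · exact hZ.1 z hz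
    · rintro z (rfl | hz) z' (rfl | hz') h
      · rfl
      · rw [hs] at h; exact absurd h (not_le.2 (hn _ hz'))
      · exact absurd h (not_le.2 (hn _ hz))
      · exact hZ.2 z hz z' hz' h
  have := hmax hin (Set.subset_insert a Z) (Set.mem_insert a Z)
  have := hn a this
  rw [h0] at this
  linarith

/-! ### bands -/

/-- a domain and an offset of the bands -/
structure C0 (V : Type) where
  E : Env V
  w : ℝ
  D : Dom V
  β : ℝ
  hδ : 1000 * E.δ ≤ w / K0
  hΛ : 1000 * w ≤ E.Λ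
  dom : IsDom E w D

namespace C0

variable (c : C0 V)

/-- index of the band -/
def bk (p : V) : ℤ := ⌊(c.E.π p - c.β) / c.w⌋
/-- lower end of the band -/
def blo (p : V) : ℝ := c.β + c.bk p * c.w
/-- edges inside one band -/
def ok (e : Sym2 V) : Prop := ∀ x ∈ e, ∀ y ∈ e, c.bk x = c.bk y
/-- distance inside the band -/
def dK (p q : V) : ℝ := c.E.dR c.ok p q
/-- height distance to the ends of the band -/
def t0 (p : V) : ℝ := min (c.E.π p - c.blo p) (c.blo p + c.w - c.E.π p)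
/-- the band lies inside `J` -/
def alive (p : V) : Prop := c.D.j0 ≤ c.blo p ∧ c.blo p + c.w ≤ c.D.j1
/-- capped distance to `A` -/
def dS (A : Set V) (p : V) : ℝ := inf2 c.w A fun a => c.dK a p
/-- big neighbourhood -/
def BB (z : V) : Set V := c.E.BB c.ok c.D.S c.w (200 * c.w) z
/-- small neighbourhood -/
def BB1 (z : V) : Set V := c.E.BB c.ok c.D.S c.w (60 * c.w) z
/-- `X` can be clamped around `z` -/
def Clamp (z : V) (σ v : ℝ) : Prop :=
  c.E.LipOn cc (c.BB z) c.D.X ∧ (σ = 1 ∨ σ = -1) ∧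
    (∀ p ∈ c.BB z, σ * c.D.X p ≤ v + 130 * cc * c.w) ∧ ∀ p ∈ c.BB1 z, v ≤ σ * c.D.X p
/-- capturable points -/
def Capt (z : V) : Prop :=
  z ∈ c.D.S ∧ c.alive z ∧ 500 * c.w ≤ c.D.b z ∧
    (c.E.AffOn (c.BB z) c.D.X ∨ ∃ σ v, c.Clamp z σ v)

theorem w'_pos : 0 < c.w / K0 := by have := c.hδ; have := c.E.δ_pos; linarith

theorem w_pos : 0 < c.w := by
  have h := c.w'_pos
  have : (0 : ℝ) < K0 := by norm_num [K0]
  exact (div_pos_iff_of_pos_right this).1 h

theorem w'_le : 10 ^ 9 * (c.w / K0) ≤ c.w := by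
  have := c.w_pos
  rw [mul_div_assoc', div_le_iff₀ (by norm_num [K0])]
  have : (10 : ℝ) ^ 9 ≤ K0 := by norm_num [K0]
  nlinarith

theorem δ_le : 1000 * c.E.δ ≤ c.w := by have := c.hδ; have := c.w'_le; have := c.w'_pos; linarith

theorem blo_le (p : V) : c.blo p ≤ c.E.π p := by
  have h := Int.floor_le ((c.E.π p - c.β) / c.w)
  rw [le_div_iff₀ c.w_pos] at h
  unfold blo bk; linarith

theorem lt_bhi (p : V) : c.E.π p < c.blo p + c.w := by
  have h := Int.lt_floor_add_one ((c.E.π p - c.β) / c.w)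
  rw [div_lt_iff₀ c.w_pos] at h
  unfold blo bk; linarith

theorem bk_eq {p q : V} (h1 : c.blo p ≤ c.E.π q) (h2 : c.E.π q < c.blo p + c.w) :
    c.bk q = c.bk p := by
  unfold blo at h1 h2
  rw [bk, Int.floor_eq_iff, le_div_iff₀ c.w_pos, div_lt_iff₀ c.w_pos]
  constructor <;> linarith

theorem blo_eq {p q : V} (h : c.bk p = c.bk q) : c.blo p = c.blo q := by unfold blo; rw [h]

theorem alive_of {p q : V} (h : c.bk p = c.bk q) (hp : c.alive p) : c.alive q := by
  unfold alive at *; rwa [← c.blo_eq h]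

theorem ok_iff {u v : V} : c.ok s(u, v) ↔ c.bk u = c.bk v := by
  constructor
  · intro h; exact h u (by simp) v (by simp)
  · intro h x hx y hy
    rw [Sym2.mem_iff] at hx hy
    rcases hx with rfl | rfl <;> rcases hy with rfl | rfl <;> simp [h]

theorem dK_self (p : V) : c.dK p p = 0 := c.E.dR_self _ p
theorem dK_comm (p q : V) : c.dK p q = c.dK q p := c.E.dR_comm _ p q
theorem dK_tri (p q r : V) : c.dK p r ≤ c.dK p q + c.dK q r := c.E.dR_tri _ p q r
theorem dK_edge {u v : V} (h : c.E.G.Adj u v) (hb : c.bk u = c.bk v) :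
    c.dK u v ≤ c.E.ℓ s(u, v) := c.E.dR_edge _ h (c.ok_iff.2 hb)
theorem dK_lip {u v : V} (h : c.E.G.Adj u v) (hb : c.bk u = c.bk v) (z : V) :
    |c.dK z u - c.dK z v| ≤ c.E.ℓ s(u, v) := c.E.dR_lip _ h (c.ok_iff.2 hb) z

theorem dK_near {u v : V} (h : u = v ∨ c.E.G.Adj u v) (hb : c.bk u = c.bk v) :
    c.dK u v ≤ c.E.δ := by
  rcases h with rfl | h
  · rw [dK_self]; exact c.E.δ_pos.le
  · exact (c.dK_edge h hb).trans (c.E.ℓ_le h)

theorem π_near {u v : V} (h : u = v ∨ c.E.G.Adj u v) : |c.E.π u - c.E.π v| ≤ c.E.δ := by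
  rcases h with rfl | h
  · simpa using c.E.δ_pos.le
  · exact (c.E.π_edge h).trans (c.E.ℓ_le h)

theorem mem_J {p : V} (h : c.alive p) : p ∈ c.D.J c.E :=
  ⟨h.1.trans (c.blo_le p), (c.lt_bhi p).trans_le h.2⟩


theorem t0_le (p : V) : c.t0 p ≤ c.w / 2 := by
  have h1 : c.t0 p ≤ c.E.π p - c.blo p := min_le_left _ _
  have h2 : c.t0 p ≤ c.blo p + c.w - c.E.π p := min_le_right _ _
  linarith

theorem t0_lip {p q : V} (h : c.bk p = c.bk q) : |c.t0 p - c.t0 q| ≤ |c.E.π p - c.E.π q| := by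
  unfold t0
  rw [c.blo_eq h]
  refine (abs_min_sub_min_le_max _ _ _ _).trans (max_le (le_of_eq ?_) (le_of_eq ?_))
  · congr 1; ring
  · rw [abs_sub_comm]; congr 1; ring

theorem bk_of_t0 {p q : V} (h : |c.E.π p - c.E.π q| < c.t0 p) : c.bk q = c.bk p := by
  have h1 : c.t0 p ≤ c.E.π p - c.blo p := min_le_left _ _
  have h2 : c.t0 p ≤ c.blo p + c.w - c.E.π p := min_le_right _ _
  rw [abs_lt] at h
  exact c.bk_eq (by linarith) (by linarith)

theorem margin {p : V} (h : c.alive p) :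
    c.D.j0 + c.t0 p ≤ c.E.π p ∧ c.E.π p + c.t0 p ≤ c.D.j1 := by
  have h1 : c.t0 p ≤ c.E.π p - c.blo p := min_le_left _ _
  have h2 : c.t0 p ≤ c.blo p + c.w - c.E.π p := min_le_right _ _
  constructor <;> linarith [h.1, h.2]

variable [Fintype V]

theorem bk_of_dK {p q : V} (h : c.dK p q ≤ 999 * c.w) : c.bk p = c.bk q := by
  have := c.w_pos
  have : q ∈ {v | c.bk p = c.bk v} :=
    c.E.mem_of_dR c.ok (A := {v | c.bk p = c.bk v})
      (fun u hu v _ ho => hu.trans (c.ok_iff.1 ho)) (x := p) rfl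
      (by have := c.hΛ; unfold dK at h; linarith)
  exact this

theorem dJ_le_dK {p q : V} (hp : c.alive p) (h : c.dK p q ≤ 999 * c.w) :
    c.D.dJ c.E p q ≤ c.dK p q := by
  have hw := c.w_pos
  obtain ⟨γ, hγ, ho⟩ := c.E.dR_walk c.ok (x := p) (y := q)
    (by have := c.hΛ; unfold dK at h; linarith)
  unfold dK
  rw [← hγ]
  refine c.E.dR_le_wl _ γ ?_
  clear hγ h
  induction γ with
  | nil => simp
  | @cons u v _ ha γ ih =>
    have hb : c.bk u = c.bk v := c.ok_iff.1 (ho s(u, v) (by simp))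
    intro e he
    rw [SimpleGraph.Walk.edges_cons, List.mem_cons] at he
    rcases he with rfl | he
    · intro x hx
      rcases Sym2.mem_iff.1 hx with rfl | rfl
      · exact c.mem_J hp
      · exact c.mem_J (c.alive_of hb hp)
    · exact ih (c.alive_of hb hp) (fun e he => ho e (by simp [he])) e he

theorem b_dJ {p q : V} (h : c.D.dJ c.E p q ≤ 999 * c.w) : |c.D.b p - c.D.b q| ≤ c.D.dJ c.E p q := by
  have hw := c.w_pos
  have := c.E.lip_dR (fun e => ∀ x ∈ e, x ∈ c.D.J c.E) (L := 1) (g := c.D.b)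
    (fun u v huv ho => c.dom.lipb u (ho u (by simp)) v (ho v (by simp)) huv) (x := p) (y := q)
    (by have := c.hΛ; unfold Dom.dJ at h; linarith)
  simpa [Dom.dJ] using this

theorem b_dK {p q : V} (hp : c.alive p) (h : c.dK p q ≤ 999 * c.w) :
    |c.D.b p - c.D.b q| ≤ c.dK p q :=
  (c.b_dJ ((c.dJ_le_dK hp h).trans h)).trans (c.dJ_le_dK hp h)

/-- small balls around a point far from the ends of its band -/
theorem ball {x p : V} {r : ℝ} (hr : r < c.t0 x) (hp : c.E.d x p ≤ r) :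
    c.bk p = c.bk x ∧ c.dK x p ≤ c.E.d x p := by
  have key : ∀ u, c.E.d x u ≤ r → c.bk u = c.bk x := fun u hu =>
    c.bk_of_t0 (((c.E.π_lip x u).trans hu).trans_lt hr)
  exact ⟨key p hp, c.E.dR_le_d c.ok (r := r)
    (fun u v _ hu hv => c.ok_iff.2 ((key u hu).trans (key v hv).symm)) hp⟩

theorem dS_le {A : Set V} {a : V} (ha : a ∈ A) (p : V) : c.dS A p ≤ c.dK a p := inf2_le ha
theorem dS_lt {A : Set V} {p : V} {r : ℝ} (hr : r ≤ c.w) (h : c.dS A p < r) :
    ∃ a ∈ A, c.dK a p < r := by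
  rcases inf2_lt h with h | h
  · linarith
  · exact h
theorem dS_lip (A : Set V) {u v : V} (h : c.E.G.Adj u v) (hb : c.bk u = c.bk v) :
    |c.dS A u - c.dS A v| ≤ c.E.ℓ s(u, v) :=
  inf2_lip (by simpa using (c.E.ℓ_pos h).le) fun a _ => c.dK_lip h hb a

end C0

end Crest.Agent.N206.TA
end
end

-- ▼ part N206/TA/G1
section

/-!
# Row 206, S0317, Theorem A, geometric stage: centres and the clamp (helper24)
-/

set_option autoImplicit false

noncomputable section

open scoped Classical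

namespace Crest.Agent.N206.TA

open Crest.GeometryTopology.GraphMetric Crest.Agent.N206.PL

variable {V : Type}

/-- centres -/
structure C1 (V : Type) extends C0 V where
  Z : Set V
  Zc : Set V
  σ : V → ℝ
  v : V → ℝ
  za : V → ℝ
  zb : V → ℝ
  α : V → ℝ
  α0 : V → ℝ
  Z_S : ∀ z ∈ Z, z ∈ D.S
  Z_alive : ∀ z ∈ Z, toC0.alive z
  Z_b : ∀ z ∈ Z, 500 * w ≤ D.b z
  Z_sep : ∀ z ∈ Z, ∀ z' ∈ Z, toC0.dK z z' ≤ 500 * w → z = z'
  Z_max : ∀ a, toC0.Capt a → ∃ z ∈ Z, toC0.dK z a ≤ 500 * w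
  Zc_sub : ∀ z ∈ Zc, z ∈ Z
  Zc_clamp : ∀ z ∈ Zc, toC0.Clamp z (σ z) (v z)
  Z_aff : ∀ z ∈ Z, z ∉ Zc → |za z| ≤ 1 / 2 ∧ ∀ p ∈ toC0.BB z, D.X p = za z * E.π p + zb z
  cb1 : ∀ p ∈ D.Zone E w, |α p| ≤ 1 / 2 ∧ D.X p = α p * E.π p + α0 p
  cb2 : ∀ p ∈ D.Zone E w, ∀ q ∈ D.Zone E w, D.dJ E p q ≤ w → α p = α q ∧ α0 p = α0 q

theorem exists_C1 [Fintype V] (c : C0 V) : ∃ c1 : C1 V, c1.toC0 = c := by
  obtain ⟨Z, h1, h2, h3⟩ := exists_net c.Capt c.dK (500 * c.w) (by linarith [c.w_pos])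
    c.dK_self c.dK_comm
  have e1 : ∀ z, ∃ σ v : ℝ, z ∈ Z → ¬ c.E.AffOn (c.BB z) c.D.X → c.Clamp z σ v := fun z => by
    by_cases hz : z ∈ Z
    · rcases (h1 z hz).2.2.2 with h | ⟨σ, v, h⟩
      · exact ⟨0, 0, fun _ h' => absurd h h'⟩
      · exact ⟨σ, v, fun _ _ => h⟩
    · exact ⟨0, 0, fun h => absurd h hz⟩
  have e2 : ∀ z, ∃ a b : ℝ, c.E.AffOn (c.BB z) c.D.X →
      |a| ≤ 1 / 2 ∧ ∀ p ∈ c.BB z, c.D.X p = a * c.E.π p + b := fun z => by
    by_cases hz : c.E.AffOn (c.BB z) c.D.X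
    · obtain ⟨a, b, h⟩ := hz
      exact ⟨a, b, fun _ => h⟩
    · exact ⟨0, 0, fun h => absurd h hz⟩
  choose σ v hσ using e1
  choose za zb hz using e2
  obtain ⟨α, α0, c1, c2⟩ := c.dom.cb
  refine ⟨⟨c, Z, {z | z ∈ Z ∧ ¬ c.E.AffOn (c.BB z) c.D.X}, σ, v, za, zb, α, α0,
    fun z h => (h1 z h).1, fun z h => (h1 z h).2.1, fun z h => (h1 z h).2.2.1, h2, h3,
    fun z h => h.1, fun z h => hσ z h.1 h.2, fun z h h' => hz z ?_, c1, c2⟩, rfl⟩
  by_contra hn
  exact h' ⟨h, hn⟩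

namespace C1

variable (c : C1 V)

/-- distance to the clean boundary and to the spheres around the centres -/
def ψ (ϱ : ℝ) (p : V) : ℝ := inf2 (c.D.b p) c.Z fun z => |c.dK z p - ϱ|

/-- the centre near `x`, if there is one -/
def ctr (x : V) : V := if h : ∃ z ∈ c.Z, c.dK z x ≤ 250 * c.w then h.choose else x

theorem ctr_eq {x z : V} (hz : z ∈ c.Z) (h : c.dK z x ≤ 250 * c.w) : c.ctr x = z := by
  have hex : ∃ z ∈ c.Z, c.dK z x ≤ 250 * c.w := ⟨z, hz, h⟩
  rw [ctr, dif_pos hex]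
  refine c.Z_sep _ hex.choose_spec.1 _ hz ?_
  have h1 := c.dK_tri hex.choose x z
  rw [c.dK_comm x z] at h1
  linarith [hex.choose_spec.2]

/-- the clamp without the collar term -/
def Y2 (z p : V) : ℝ := min (c.σ z * c.D.X p) (c.v z + max (cc * (c.dK z p - 60 * c.w)) 0)

variable [Fintype V]

theorem ψ_le_b (ϱ : ℝ) (p : V) : c.ψ ϱ p ≤ c.D.b p := inf2_le_c

theorem ψ_lip (ϱ : ℝ) {u v : V} (h : c.E.G.Adj u v) (hb : c.bk u = c.bk v)
    (hu : u ∈ c.D.J c.E) (hv : v ∈ c.D.J c.E) : |c.ψ ϱ u - c.ψ ϱ v| ≤ c.E.ℓ s(u, v) :=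
  inf2_lip (by simpa using c.dom.lipb u hu v hv h) fun z _ =>
    (abs_abs_sub_abs_le_abs_sub _ _).trans (by simpa using c.dK_lip h hb z)

theorem ψ_dK (ϱ : ℝ) {p q : V} (hp : c.alive p) (h : c.dK p q ≤ 999 * c.w) :
    |c.ψ ϱ p - c.ψ ϱ q| ≤ c.dK p q := by
  refine inf2_lip (c.b_dK hp h) fun z _ => (abs_abs_sub_abs_le_abs_sub _ _).trans ?_
  have h1 := c.dK_tri z p q
  have h2 := c.dK_tri z q p
  rw [c.dK_comm q p] at h2
  rw [abs_le]; constructor <;> linarith

theorem b_big {z p : V} (hz : z ∈ c.Z) (h : c.dK z p ≤ 200 * c.w) : 300 * c.w ≤ c.D.b p := by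
  have := c.w_pos
  have h1 := c.b_dK (c.Z_alive z hz) (q := p) (by linarith)
  have := c.Z_b z hz
  linarith [(abs_le.1 h1).2]

end C1

/-- the remaining parameters -/
structure C2 (V : Type) extends C1 V where
  t : ℝ
  s : ℝ
  ϱ : ℝ
  t1 : w / 8 ≤ t
  t2 : t ≤ 3 / 16 * w
  s1 : 0 ≤ s
  s2 : s ≤ w
  ϱ1 : 20 * w ≤ ϱ
  ϱ2 : ϱ ≤ 40 * w

namespace C2

variable (c : C2 V)

/-- the profile of the clamp -/
def Hh (z p : V) : ℝ :=
  max (max ((c.t - c.t0 p) / 2) ((c.dS c.D.S p - c.w / 2) / 2))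
    (max (cc * (c.dK z p - 60 * c.w)) 0)

/-- the clamp around `z` -/
def cl (z p : V) : ℝ := c.σ z * min (c.σ z * c.D.X p) (c.v z + c.Hh z p)

/-- the clamp around `z` is active at `p` -/
def Act (z p : V) : Prop := z ∈ c.Zc ∧ c.Hh z p < 130 * cc * c.w

/-- the clamped function -/
def X' (p : V) : ℝ := if h : ∃ z, c.Act z p then c.cl h.choose p else c.D.X p

/-- the zone in which `X'` is locally affine -/
def Zs : Set V :=
  {p | c.alive p ∧ c.t ≤ c.t0 p ∧ (∃ a ∈ c.D.S, c.dK a p ≤ c.w / 2) ∧ c.ψ c.ϱ p < 12 * c.w}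

/-- slope of `X'` -/
def α' (p : V) : ℝ :=
  if c.D.b p < 100 * c.w then c.α p else if c.ctr p ∈ c.Zc then 0 else c.za (c.ctr p)

/-- intercept of `X'` -/
def α0' (p : V) : ℝ :=
  if c.D.b p < 100 * c.w then c.α0 p
  else if c.ctr p ∈ c.Zc then c.σ (c.ctr p) * c.v (c.ctr p) else c.zb (c.ctr p)

theorem Hh_nonneg (z p : V) : 0 ≤ c.Hh z p := le_max_of_le_right (le_max_right _ _)

theorem σσ {z : V} (hz : z ∈ c.Zc) : c.σ z * c.σ z = 1 := by
  rcases (c.Zc_clamp z hz).2.1 with h | h <;> rw [h] <;> norm_num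

theorem abs_σ {z : V} (hz : z ∈ c.Zc) (a : ℝ) : |c.σ z * a| = |a| := by
  rcases (c.Zc_clamp z hz).2.1 with h | h <;> rw [h] <;> simp

theorem act_spec {z p : V} (h : c.Act z p) :
    c.w / 16 < c.t0 p ∧ c.dS c.D.S p < 3 / 5 * c.w ∧ c.dK z p < 190 * c.w := by
  have hw := c.w_pos
  have h0 := h.2
  have t1 := c.t1
  unfold Hh at h0
  rw [max_lt_iff, max_lt_iff, max_lt_iff] at h0
  obtain ⟨⟨a, b⟩, d, -⟩ := h0
  unfold cc at a b d
  refine ⟨by linarith, by linarith, by linarith⟩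

variable [Fintype V]

theorem act_BB {z p q : V} (h : c.Act z p) (hq : c.dK p q ≤ c.w / 4) : q ∈ c.BB z := by
  have hw := c.w_pos
  obtain ⟨-, a, b⟩ := c.act_spec h
  obtain ⟨u, hu, hu'⟩ := c.dS_lt (by linarith) a
  have h1 := c.dK_tri z p q
  have h2 := c.dK_tri u p q
  exact ⟨show c.dK z q ≤ _ by linarith, u, hu, show c.dK u q ≤ _ by linarith⟩

theorem X'_of_not {p : V} (h : ∀ z, ¬ c.Act z p) : c.X' p = c.D.X p := by
  rw [X', dif_neg (not_exists.2 h)]

/-- on the neighbourhood of a clamped centre `X'` is the clamp -/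
theorem X'_BB {z p : V} (hz : z ∈ c.Zc) (hp : p ∈ c.BB z) : c.X' p = c.cl z p := by
  have hw := c.w_pos
  by_cases h : ∃ z, c.Act z p
  · rw [X', dif_pos h]
    have h1 := (c.act_spec h.choose_spec).2.2
    have h2 : c.dK z p ≤ 200 * c.w := hp.1
    have h3 := c.dK_tri h.choose p z
    rw [c.dK_comm p z] at h3
    rw [c.Z_sep _ (c.Zc_sub _ h.choose_spec.1) _ (c.Zc_sub _ hz) (by linarith)]
  · rw [X', dif_neg h, cl, min_eq_left, ← mul_assoc, c.σσ hz, one_mul]
    have h1 : 130 * cc * c.w ≤ c.Hh z p := not_lt.1 fun h' => h ⟨z, hz, h'⟩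
    linarith [(c.Zc_clamp z hz).2.2.1 p hp]

theorem X'_small {p : V} (h : c.D.b p < 300 * c.w) : c.X' p = c.D.X p :=
  c.X'_of_not fun z hz => by
    have := c.b_big (c.Zc_sub z hz.1) (p := p) (by linarith [(c.act_spec hz).2.2, c.w_pos])
    linarith

theorem nearX (p : V) : |c.X' p - c.D.X p| ≤ 130 * cc * c.w := by
  have hw := c.w_pos
  have hh : 0 ≤ 130 * cc * c.w := by unfold cc; positivity
  by_cases h : ∃ z, c.Act z p
  · obtain ⟨z, hz⟩ := h
    have hp : p ∈ c.BB z := c.act_BB hz (by rw [c.dK_self]; linarith)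
    rw [c.X'_BB hz.1 hp, ← c.abs_σ hz.1, mul_sub, cl, ← mul_assoc, c.σσ hz.1, one_mul, abs_le]
    have h1 := (c.Zc_clamp z hz.1).2.2.1 p hp
    have h2 := c.Hh_nonneg z p
    have h3 := min_le_left (c.σ z * c.D.X p) (c.v z + c.Hh z p)
    refine ⟨?_, by linarith⟩
    rcases min_choice (c.σ z * c.D.X p) (c.v z + c.Hh z p) with e | e <;> rw [e] <;> linarith
  · rw [c.X'_of_not (not_exists.1 h)]; simpa using hh

theorem suppX (p : V) (h : p ∉ c.D.Terr c.E c.w) : c.X' p = c.D.X p := by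
  refine c.X'_of_not fun z hz => h ?_
  have hw := c.w_pos
  have hδ := c.δ_le
  obtain ⟨a, -, b⟩ := c.act_spec hz
  have hZ := c.Zc_sub z hz.1
  have hal := c.Z_alive z hZ
  have hm := c.margin (c.alive_of (c.bk_of_dK (p := z) (q := p) (by linarith)) hal)
  have h1 := c.dJ_le_dK hal (q := p) (by linarith)
  have := c.Z_b z hZ
  exact ⟨by linarith [hm.1], by linarith [hm.2], z, c.Z_S z hZ, by linarith, by linarith⟩

theorem Hh_lip (z : V) {p q : V} (h : c.E.G.Adj p q) (hb : c.bk p = c.bk q) :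
    |c.Hh z p - c.Hh z q| ≤ c.E.ℓ s(p, q) := by
  have l := c.E.ℓ_pos h
  have h1 := abs_le.1 ((c.t0_lip hb).trans (c.E.π_edge h))
  have h2 := abs_le.1 (c.dS_lip c.D.S h hb)
  have h3 := abs_le.1 (c.dK_lip h hb z)
  unfold Hh cc
  refine (abs_max_sub_max_le_max _ _ _ _).trans (max_le
    ((abs_max_sub_max_le_max _ _ _ _).trans (max_le ?_ ?_))
    ((abs_max_sub_max_le_max _ _ _ _).trans (max_le ?_ ?_))) <;>
  rw [abs_le] <;> constructor <;> linarith [h1.1, h1.2, h2.1, h2.2, h3.1, h3.2]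

theorem lipX_act {z p q : V} (hz : c.Act z p) (h : c.E.G.Adj p q) :
    |c.X' p - c.X' q| ≤ 1 * c.E.ℓ s(p, q) := by
  have hw := c.w_pos
  have hδ := c.δ_le
  have hb : c.bk q = c.bk p :=
    c.bk_of_t0 ((c.π_near (Or.inr h)).trans_lt (by linarith [(c.act_spec hz).1]))
  have hp : p ∈ c.BB z := c.act_BB hz (by rw [c.dK_self]; linarith)
  have hq : q ∈ c.BB z := c.act_BB hz ((c.dK_near (Or.inr h) hb.symm).trans (by linarith))
  rw [c.X'_BB hz.1 hp, c.X'_BB hz.1 hq, cl, cl, ← mul_sub, c.abs_σ hz.1]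
  refine (abs_min_sub_min_le_max _ _ _ _).trans (max_le ?_ ?_)
  · rw [← mul_sub, c.abs_σ hz.1]
    exact c.dom.lipX p trivial q trivial h
  · simpa using c.Hh_lip z h hb.symm

theorem lipX : c.E.LipOn 1 Set.univ c.X' := by
  intro p _ q _ h
  by_cases hp : ∃ z, c.Act z p
  · exact c.lipX_act hp.choose_spec h
  by_cases hq : ∃ z, c.Act z q
  · rw [abs_sub_comm, Sym2.eq_swap]
    exact c.lipX_act hq.choose_spec h.symm
  rw [c.X'_of_not (not_exists.1 hp), c.X'_of_not (not_exists.1 hq)]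
  exact c.dom.lipX p trivial q trivial h

theorem zs_cases {p : V} (hp : p ∈ c.Zs) :
    (c.D.b p < 12 * c.w ∧ p ∈ c.D.Zone c.E c.w) ∨
      (300 * c.w ≤ c.D.b p ∧ c.ctr p ∈ c.Z ∧ c.dK (c.ctr p) p < 52 * c.w) := by
  have hw := c.w_pos
  obtain ⟨h1, -, ⟨a, ha, ha'⟩, h4⟩ := hp
  rcases inf2_lt h4 with h | ⟨z, hz, h⟩
  · refine Or.inl ⟨h, c.mem_J h1, ⟨a, ha, ?_⟩, by linarith⟩
    have hb := c.bk_of_dK (p := a) (q := p) (by linarith)
    linarith [c.dJ_le_dK (c.alive_of hb.symm h1) (q := p) (by linarith)]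
  · have h5 : c.dK z p < 52 * c.w := by linarith [(abs_lt.1 h).2, c.ϱ2]
    rw [c.ctr_eq hz (by linarith)]
    exact Or.inr ⟨c.b_big hz (by linarith), hz, h5⟩

/-- (Z), first half -/
theorem zs_aff {p : V} (hp : p ∈ c.Zs) : |c.α' p| ≤ 1 / 2 ∧ c.X' p = c.α' p * c.E.π p + c.α0' p := by
  have hw := c.w_pos
  rcases c.zs_cases hp with ⟨h1, h2⟩ | ⟨h1, h2, h3⟩
  · have e : c.D.b p < 100 * c.w := by linarith
    rw [α', α0', if_pos e, if_pos e, c.X'_small (by linarith)]
    exact c.cb1 p h2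
  · obtain ⟨-, h5, ⟨a, ha, ha'⟩, -⟩ := hp
    have hB : p ∈ c.BB (c.ctr p) :=
      ⟨show c.dK _ p ≤ _ by linarith, a, ha, show c.dK a p ≤ _ by linarith⟩
    have hB1 : p ∈ c.BB1 (c.ctr p) :=
      ⟨show c.dK _ p ≤ _ by linarith, a, ha, show c.dK a p ≤ _ by linarith⟩
    have e : ¬ c.D.b p < 100 * c.w := by linarith
    rw [α', α0', if_neg e, if_neg e]
    by_cases hc : c.ctr p ∈ c.Zc
    · rw [if_pos hc, if_pos hc, c.X'_BB hc hB, cl]
      have h0 : c.Hh (c.ctr p) p = 0 := by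
        refine le_antisymm (max_le (max_le (by linarith) ?_) (max_le ?_ le_rfl)) (c.Hh_nonneg _ _)
        · linarith [c.dS_le ha p]
        · unfold cc; linarith
      rw [h0, add_zero, min_eq_right ((c.Zc_clamp _ hc).2.2.2 p hB1)]
      simp
    · rw [if_neg hc, if_neg hc, c.X'_of_not]
      · exact ⟨(c.Z_aff _ h2 hc).1, (c.Z_aff _ h2 hc).2 p hB⟩
      · intro z hz
        have := c.ctr_eq (c.Zc_sub z hz.1) (x := p) (by linarith [(c.act_spec hz).2.2])
        exact hc (this ▸ hz.1)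

/-- (Z), second half -/
theorem zs_loc {p q : V} (hp : p ∈ c.Zs) (hq : q ∈ c.Zs) (h : c.dK p q ≤ c.w) :
    c.α' p = c.α' q ∧ c.α0' p = c.α0' q := by
  have hw := c.w_pos
  have hb := abs_le.1 (c.b_dK hp.1 (q := q) (by linarith))
  rcases c.zs_cases hp with ⟨h1, h2⟩ | ⟨h1, h2, h3⟩ <;>
    rcases c.zs_cases hq with ⟨k1, k2⟩ | ⟨k1, k2, k3⟩
  · have e1 : c.D.b p < 100 * c.w := by linarith
    have e2 : c.D.b q < 100 * c.w := by linarith
    simp only [α', α0', if_pos e1, if_pos e2]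
    exact c.cb2 p h2 q k2 ((c.dJ_le_dK hp.1 (by linarith)).trans h)
  · linarith [hb.1]
  · linarith [hb.2]
  · have e : c.ctr q = c.ctr p := c.ctr_eq h2 (by linarith [c.dK_tri (c.ctr p) p q])
    have e1 : ¬ c.D.b p < 100 * c.w := by linarith
    have e2 : ¬ c.D.b q < 100 * c.w := by linarith
    simp only [α', α0', if_neg e1, if_neg e2, e, and_self]

end C2

end Crest.Agent.N206.TA
end
end

-- ▼ part N206/TA/G2
section

/-!
# Row 206, S0317, Theorem A, geometric stage: regularity of the clamp, cells (helper24)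
-/

set_option autoImplicit false

noncomputable section

open scoped Classical

namespace Crest.Agent.N206.TA

open Crest.GeometryTopology.GraphMetric Crest.Agent.N206.PL

variable {V : Type}

namespace C2

variable (c : C2 V)

/-- lower level -/
def L0 : ℝ := 6 * c.w + c.s
/-- upper level -/
def La : ℝ := 10 * c.w + c.s
/-- the points which belong to cells -/
def Sp : Set V := {a | a ∈ c.D.S ∧ c.alive a ∧ c.L0 < c.ψ c.ϱ a}
/-- links of cells -/
def rc (a b : V) : Prop := a ∈ c.Sp ∧ b ∈ c.Sp ∧ c.dK a b ≤ 4 * c.w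
/-- name of the cell -/
def crep (a : V) : V := qrep c.rc a
/-- the cell with name `l` -/
def cell (l : V) : Set V := {a | a ∈ c.Sp ∧ c.crep a = l}
/-- the bump of a cell -/
def g (l p : V) : ℝ :=
  cc * max (min (min (c.t0 p - c.t) (c.ψ c.ϱ p - 8 * c.w)) (c.w - c.dS (c.cell l) p)) 0

theorem rc_symm (a b : V) (h : c.rc a b) : c.rc b a := ⟨h.2.1, h.1, by rw [c.dK_comm]; exact h.2.2⟩

theorem g_nonneg (l p : V) : 0 ≤ c.g l p := mul_nonneg (by norm_num [cc]) (le_max_right _ _)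

theorem g_le_t0 (l p : V) : c.g l p ≤ cc * max (c.t0 p - c.t) 0 :=
  mul_le_mul_of_nonneg_left (max_le_max ((min_le_left _ _).trans (min_le_left _ _)) le_rfl)
    (by norm_num [cc])

theorem bdg (l p : V) : |c.g l p| ≤ cc * c.w := by
  have hw := c.w_pos
  rw [abs_of_nonneg (c.g_nonneg l p)]
  refine (c.g_le_t0 l p).trans (mul_le_mul_of_nonneg_left (max_le ?_ hw.le) (by norm_num [cc]))
  linarith [c.t0_le p, c.t1]

theorem g_zero_t {l p : V} (h : c.t0 p ≤ c.t) : c.g l p = 0 := by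
  refine le_antisymm ((c.g_le_t0 l p).trans ?_) (c.g_nonneg l p)
  rw [max_eq_right (by linarith), mul_zero]

theorem g_zero_ψ {l p : V} (h : c.ψ c.ϱ p ≤ 8 * c.w) : c.g l p = 0 := by
  rw [g, max_eq_right (((min_le_left _ _).trans (min_le_right _ _)).trans (by linarith)), mul_zero]

variable [Fintype V]

theorem g_ne {l p : V} (h : c.g l p ≠ 0) :
    c.t < c.t0 p ∧ c.alive p ∧ ∃ a ∈ c.cell l, c.dK a p < c.w := by
  have hw := c.w_pos
  have h1 : c.dS (c.cell l) p < c.w := by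
    by_contra hn
    refine h ?_
    rw [g, max_eq_right ((min_le_right _ _).trans (by linarith)), mul_zero]
  obtain ⟨a, ha, ha'⟩ := c.dS_lt le_rfl h1
  exact ⟨not_le.1 fun h' => h (c.g_zero_t h'),
    c.alive_of (c.bk_of_dK (by linarith)) ha.1.2.1, a, ha, ha'⟩

theorem lipg_ne {l p q : V} (hp : c.g l p ≠ 0) (h : c.E.G.Adj p q) :
    |c.g l p - c.g l q| ≤ cc * c.E.ℓ s(p, q) := by
  have hw := c.w_pos
  have hδ := c.δ_le
  obtain ⟨h1, h2, -⟩ := c.g_ne hp
  have hb : c.bk q = c.bk p :=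
    c.bk_of_t0 ((c.π_near (Or.inr h)).trans_lt (by linarith [c.t1]))
  have a1 := (c.t0_lip hb.symm).trans (c.E.π_edge h)
  have a2 := c.dS_lip (c.cell l) h hb.symm
  have a3 := c.ψ_lip c.ϱ h hb.symm (c.mem_J h2) (c.mem_J (c.alive_of hb.symm h2))
  rw [g, g, ← mul_sub, abs_mul, abs_of_nonneg (by norm_num [cc] : (0 : ℝ) ≤ cc)]
  refine mul_le_mul_of_nonneg_left ?_ (by norm_num [cc])
  refine (abs_max_sub_max_le_abs _ _ _).trans ((abs_min_sub_min_le_max _ _ _ _).trans (max_le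
    ((abs_min_sub_min_le_max _ _ _ _).trans (max_le ?_ ?_)) ?_))
  · simpa using a1
  · simpa using a3
  · rw [abs_sub_comm] at a2; simpa using a2

theorem lipg (l : V) : c.E.LipOn cc Set.univ (c.g l) := by
  intro p _ q _ h
  by_cases hp : c.g l p = 0
  · by_cases hq : c.g l q = 0
    · rw [hp, hq, sub_zero, abs_zero]
      exact mul_nonneg (by norm_num [cc]) (c.E.ℓ_pos h).le
    · rw [abs_sub_comm, Sym2.eq_swap]; exact c.lipg_ne hq h.symm
  · exact c.lipg_ne hp h

theorem suppg (l p : V) (h : p ∉ c.D.Terr c.E c.w) : c.g l p = 0 := by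
  by_contra hn
  refine h ?_
  have hw := c.w_pos
  have hδ := c.δ_le
  obtain ⟨h1, h2, a, ha, ha'⟩ := c.g_ne hn
  have hm := c.margin h2
  have h3 := c.dJ_le_dK ha.1.2.1 (q := p) (by linarith)
  have h4 := c.ψ_le_b c.ϱ a
  have h5 : c.L0 < c.ψ c.ϱ a := ha.1.2.2
  have := c.t1
  have := c.s1
  unfold L0 at h5
  exact ⟨by linarith [hm.1], by linarith [hm.2], a, ha.1.1, by linarith, by linarith⟩

theorem oneg (l l' p q : V) (h : p = q ∨ c.E.G.Adj p q) (hp : c.g l p ≠ 0) (hq : c.g l' q ≠ 0) :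
    l = l' := by
  have hw := c.w_pos
  have hδ := c.δ_le
  obtain ⟨h1, -, a, ha, ha'⟩ := c.g_ne hp
  obtain ⟨-, -, b, hb, hb'⟩ := c.g_ne hq
  have hk : c.bk q = c.bk p := c.bk_of_t0 ((c.π_near h).trans_lt (by linarith [c.t1]))
  have h2 := c.dK_near h hk.symm
  have h3 := c.dK_tri a p b
  have h4 := c.dK_tri p q b
  rw [c.dK_comm q b] at h4
  rw [← ha.2, ← hb.2]
  exact qrep_rel ⟨ha.1, hb.1, by linarith⟩

theorem g_other {z l p : V} (hz : z ∈ c.Sp) (h : c.dK z p ≤ c.w) (hl : l ≠ c.crep z) :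
    c.g l p = 0 := by
  by_contra hn
  obtain ⟨-, -, a, ha, ha'⟩ := c.g_ne hn
  have h3 := c.dK_tri a p z
  rw [c.dK_comm p z] at h3
  refine hl ?_
  rw [← ha.2]
  exact qrep_rel ⟨ha.1, hz, by linarith [c.w_pos]⟩

theorem g_tent {z p : V} (hz : z ∈ c.Sp) (h : c.dK z p ≤ c.w / 2) (ht : c.t ≤ c.t0 p)
    (hψ : 9 * c.w ≤ c.ψ c.ϱ p) : c.g (c.crep z) p = cc * (c.t0 p - c.t) := by
  have hw := c.w_pos
  have h1 := c.dS_le (A := c.cell (c.crep z)) (a := z) ⟨hz, rfl⟩ p
  have h2 := c.t0_le p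
  have h3 := c.t1
  rw [g, min_eq_left (a := c.t0 p - c.t) (by linarith), min_eq_left (by linarith),
    max_eq_left (by linarith)]

/-- `t0` is affine on a ball inside a half band -/
theorem t0_aff {x : V} {r : ℝ} (h1 : r < c.t0 x) (h2 : r < |c.E.π x - c.blo x - c.w / 2|) :
    ∃ ε e : ℝ, |ε| = 1 ∧ ∀ p ∈ c.E.B x r, c.t0 p = ε * c.E.π p + e := by
  rcases lt_abs.1 h2 with h | h
  · refine ⟨-1, c.blo x + c.w, by simp, fun p hp => ?_⟩
    have a := abs_le.1 ((c.E.π_lip x p).trans hp)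
    rw [C0.t0, c.blo_eq (c.ball h1 hp).1, min_eq_right (by linarith [a.2])]; ring
  · refine ⟨1, -c.blo x, by simp, fun p hp => ?_⟩
    have a := abs_le.1 ((c.E.π_lip x p).trans hp)
    rw [C0.t0, c.blo_eq (c.ball h1 hp).1, min_eq_left (by linarith [a.1])]; ring

/-- away from the kinks the clamped function is regular on a small ball -/
theorem reg {x : V} {r : ℝ} (hx : x ∈ c.D.S) (hr : r ≤ c.w / 8) (h1 : r < c.t0 x)
    (h2 : r < |c.E.π x - c.blo x - c.w / 2|)
    (h3 : 2 * r < |c.t0 x + 2 * (c.σ (c.ctr x) * c.D.X x - c.v (c.ctr x)) - c.t|)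
    (h4 : 2 * r < |c.t0 x + 2 * (c.Y2 (c.ctr x) x - c.v (c.ctr x)) - c.t|)
    (h : c.E.LipOn cc (c.E.B x r) c.D.X ∨ c.E.AffOn (c.E.B x r) c.D.X) :
    c.E.LipOn cc (c.E.B x r) c.X' ∨ c.E.AffOn (c.E.B x r) c.X' := by
  have hw := c.w_pos
  have hK : ∀ p ∈ c.E.B x r, c.dK x p ≤ r := fun p hp => (c.ball h1 hp).2.trans hp
  by_cases ha : ∃ p ∈ c.E.B x r, ∃ z, c.Act z p
  swap
  · push Not at ha
    rcases h with h | ⟨a, b, h, h'⟩
    · refine Or.inl fun u hu v hv huv => ?_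
      rw [c.X'_of_not (ha u hu), c.X'_of_not (ha v hv)]
      exact h u hu v hv huv
    · exact Or.inr ⟨a, b, h, fun v hv => by rw [c.X'_of_not (ha v hv)]; exact h' v hv⟩
  obtain ⟨p0, hp0, z, hz⟩ := ha
  have r0 : 0 ≤ r := (c.E.d_nonneg x p0).trans hp0
  have hB : ∀ p ∈ c.E.B x r, p ∈ c.BB z := fun p hp => c.act_BB hz (by
    have := c.dK_tri p0 x p
    rw [c.dK_comm p0 x] at this
    linarith [hK p hp, hK p0 hp0])
  have hc : c.ctr x = z := c.ctr_eq (c.Zc_sub z hz.1) (by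
    have := c.dK_tri z p0 x
    rw [c.dK_comm p0 x] at this
    linarith [hK p0 hp0, (c.act_spec hz).2.2])
  rw [hc] at h3 h4
  have lY : c.E.LipOn cc (c.E.B x r) fun p => c.σ z * c.D.X p := fun u hu v hv huv => by
    rw [← mul_sub, c.abs_σ hz.1]
    exact (c.Zc_clamp z hz.1).1 u (hB u hu) v (hB v hv) huv
  have lY2 : c.E.LipOn cc (c.E.B x r) (c.Y2 z) := fun u hu v hv huv => by
    refine (abs_min_sub_min_le_max _ _ _ _).trans (max_le (lY u hu v hv huv) ?_)
    rw [add_sub_add_left_eq_sub]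
    refine (abs_max_sub_max_le_abs _ _ _).trans ?_
    rw [← mul_sub, abs_mul, abs_of_nonneg (by norm_num [cc] : (0 : ℝ) ≤ cc),
      sub_sub_sub_cancel_right]
    exact mul_le_mul_of_nonneg_left
      (c.dK_lip huv ((c.ball h1 hu).1.trans (c.ball h1 hv).1.symm) z) (by norm_num [cc])
  have hcl : ∀ p ∈ c.E.B x r, c.X' p = c.σ z * min (c.σ z * c.D.X p)
      (max (c.v z + (c.t - c.t0 p) / 2) (c.v z + max (cc * (c.dK z p - 60 * c.w)) 0)) := by
    intro p hp
    rw [c.X'_BB hz.1 (hB p hp), cl, Hh, max_add_add_left, max_assoc,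
      max_eq_right (a := (c.dS c.D.S p - c.w / 2) / 2)]
    refine le_max_of_le_right ?_
    linarith [c.dS_le hx p, hK p hp]
  have near : ∀ p ∈ c.E.B x r, |c.σ z * c.D.X x - c.σ z * c.D.X p| ≤ r / 4 ∧
      |c.Y2 z x - c.Y2 z p| ≤ r / 4 ∧ |c.t0 x - c.t0 p| ≤ r := fun p hp => by
    have hd : cc * c.E.d x p ≤ r / 4 := by
      have : c.E.d x p ≤ r := hp
      unfold cc; linarith
    exact ⟨(c.E.lip_ball lY hp).trans hd, (c.E.lip_ball lY2 hp).trans hd,
      (c.t0_lip (c.ball h1 hp).1.symm).trans ((c.E.π_lip x p).trans hp)⟩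
  rcases lt_abs.1 h3 with k3 | k3
  swap
  · refine Or.inl fun u hu v hv huv => ?_
    have e : ∀ p ∈ c.E.B x r, c.X' p = c.σ z * (c.σ z * c.D.X p) := fun p hp => by
      obtain ⟨n1, -, n3⟩ := near p hp
      rw [hcl p hp, min_eq_left (le_max_of_le_left ?_)]
      linarith [(abs_le.1 n1).1, (abs_le.1 n3).1]
    rw [e u hu, e v hv, ← mul_sub, c.abs_σ hz.1]
    exact lY u hu v hv huv
  rcases lt_abs.1 h4 with k4 | k4
  · refine Or.inl fun u hu v hv huv => ?_
    have e : ∀ p ∈ c.E.B x r, c.X' p = c.σ z * c.Y2 z p := fun p hp => by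
      obtain ⟨-, n2, n3⟩ := near p hp
      have : c.Y2 z p ≤ c.v z + max (cc * (c.dK z p - 60 * c.w)) 0 := min_le_right _ _
      rw [hcl p hp, max_eq_right, C1.Y2]
      linarith [(abs_le.1 n2).2, (abs_le.1 n3).2]
    rw [e u hu, e v hv, ← mul_sub, c.abs_σ hz.1]
    exact lY2 u hu v hv huv
  · obtain ⟨ε, e, hε, he⟩ := c.t0_aff h1 h2
    refine Or.inr ⟨c.σ z * (-ε / 2), c.σ z * (c.v z + (c.t - e) / 2), ?_, fun p hp => ?_⟩
    · rw [c.abs_σ hz.1, abs_div, abs_neg, hε]; norm_num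
    · obtain ⟨n1, n2, n3⟩ := near p hp
      have a1 : c.v z + (c.t - c.t0 p) / 2 < c.σ z * c.D.X p := by
        linarith [(abs_le.1 n1).2, (abs_le.1 n3).2]
      have a2 : c.Y2 z p < c.v z + (c.t - c.t0 p) / 2 := by
        linarith [(abs_le.1 n2).1, (abs_le.1 n3).1]
      have a3 : c.v z + max (cc * (c.dK z p - 60 * c.w)) 0 < c.v z + (c.t - c.t0 p) / 2 := by
        rcases min_lt_iff.1 a2 with a | a
        · linarith
        · exact a
      rw [hcl p hp, max_eq_left a3.le, min_eq_right a1.le, he p hp]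
      ring

end C2

end Crest.Agent.N206.TA
end
end

-- ▼ part N206/TA/G3
section

/-!
# Row 206, S0317, Theorem A, geometric stage: the subdomains (helper24)
-/

set_option autoImplicit false

noncomputable section

open scoped Classical

namespace Crest.Agent.N206.TA

open Crest.GeometryTopology.GraphMetric Crest.Agent.N206.PL

variable {V : Type}

namespace C2

variable (c : C2 V)

/-- the part of the band -/
def pos (p : V) : ℕ :=
  if c.E.π p - c.blo p < c.t then 0 else if c.E.π p - c.blo p < c.w / 2 then 1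
  else if c.E.π p - c.blo p < c.w - c.t then 2 else 3
/-- the cut heights in a band -/
def cut (n : ℕ) : ℝ :=
  if n = 0 then 0 else if n = 1 then c.t else if n = 2 then c.w / 2
  else if n = 3 then c.w - c.t else c.w
/-- lower end of the subinterval -/
def slo (p : V) : ℝ := max c.D.j0 (c.blo p + c.cut (c.pos p))
/-- upper end of the subinterval -/
def shi (p : V) : ℝ := min c.D.j1 (c.blo p + c.cut (c.pos p + 1))
/-- inner part of a live band -/
def inner (p : V) : Prop := c.alive p ∧ (c.pos p = 1 ∨ c.pos p = 2)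
/-- the zone -/
def zone (p : V) : ℕ :=
  if c.inner p then (if c.ψ c.ϱ p ≤ c.L0 then 1 else if c.ψ c.ϱ p < c.La then 2 else 3) else 0
/-- links of subdomains -/
def rs (a b : V) : Prop :=
  a ∈ c.D.S ∧ b ∈ c.D.S ∧ c.bk a = c.bk b ∧ c.pos a = c.pos b ∧ c.zone a = c.zone b ∧
    c.dK a b ≤ c.w
/-- name of the subdomain -/
def rep (a : V) : V := qrep c.rs a
/-- distance to the clean boundary of a subdomain -/
def bz (n : ℕ) (p : V) : ℝ :=
  if n = 0 then min (c.D.b p) c.w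
  else if n = 1 then min (min (c.D.b p) (c.L0 - c.ψ c.ϱ p)) c.w
  else if n = 2 then min (min (c.ψ c.ϱ p - c.L0) (c.La - c.ψ c.ϱ p)) c.w
  else min (c.ψ c.ϱ p - c.La) c.w
/-- the subdomain with name `z` -/
def child (z : V) : Dom V :=
  ⟨{a | a ∈ c.D.S ∧ c.rep a = z}, c.slo z, c.shi z,
    if c.zone z = 2 then c.g (c.crep z) else c.X', c.bz (c.zone z)⟩
/-- slope of the tent -/
def ez (z : V) : ℝ := if c.pos z = 1 then 1 else -1
/-- intercept of the tent -/
def e0 (z : V) : ℝ := if c.pos z = 1 then -c.blo z else c.blo z + c.w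

theorem pos_cases (p : V) :
    (c.pos p = 0 ∧ c.E.π p - c.blo p < c.t) ∨
    (c.pos p = 1 ∧ c.t ≤ c.E.π p - c.blo p ∧ c.E.π p - c.blo p < c.w / 2) ∨
    (c.pos p = 2 ∧ c.w / 2 ≤ c.E.π p - c.blo p ∧ c.E.π p - c.blo p < c.w - c.t) ∨
    (c.pos p = 3 ∧ c.w - c.t ≤ c.E.π p - c.blo p) := by
  unfold pos
  split_ifs with h1 h2 h3
  · exact Or.inl ⟨rfl, h1⟩
  · exact Or.inr (Or.inl ⟨rfl, not_lt.1 h1, h2⟩)
  · exact Or.inr (Or.inr (Or.inl ⟨rfl, not_lt.1 h2, h3⟩))
  · exact Or.inr (Or.inr (Or.inr ⟨rfl, not_lt.1 h3⟩))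

theorem cut0 : c.cut 0 = 0 := by simp [cut]
theorem cut1 : c.cut 1 = c.t := by simp [cut]
theorem cut2 : c.cut 2 = c.w / 2 := by simp [cut]
theorem cut3 : c.cut 3 = c.w - c.t := by simp [cut]
theorem cut4 : c.cut 4 = c.w := by simp [cut]

theorem pos_spec (p : V) :
    c.cut (c.pos p) ≤ c.E.π p - c.blo p ∧ c.E.π p - c.blo p < c.cut (c.pos p + 1) := by
  have h1 := c.blo_le p
  have h2 := c.lt_bhi p
  rcases c.pos_cases p with h | h | h | h <;> rw [h.1] <;>
    simp only [Nat.reduceAdd, cut0, cut1, cut2, cut3, cut4] <;> constructor <;>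
    first | linarith | linarith [h.2]

theorem slab_spec {z q : V} (h : q ∈ c.E.slab (c.slo z) (c.shi z)) :
    c.bk q = c.bk z ∧ c.pos q = c.pos z ∧ q ∈ c.D.J c.E := by
  have hw := c.w_pos
  have t1 := c.t1
  have t2 := c.t2
  obtain ⟨a, b⟩ := h
  rw [slo, max_le_iff] at a
  rw [shi, lt_min_iff] at b
  have hb : c.bk q = c.bk z := by
    have a2 := a.2
    have b2 := b.2
    rcases c.pos_cases z with h | h | h | h <;> rw [h.1] at a2 b2 <;>
      simp only [Nat.reduceAdd, cut0, cut1, cut2, cut3, cut4] at a2 b2 <;>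
      exact c.bk_eq (by linarith) (by linarith)
  refine ⟨hb, ?_, a.1, b.1⟩
  have a2 := a.2
  have b2 := b.2
  rw [← c.blo_eq hb] at a2 b2
  rcases c.pos_cases z with h | h | h | h <;> rw [h.1] at a2 b2 ⊢ <;>
    simp only [Nat.reduceAdd, cut0, cut1, cut2, cut3, cut4] at a2 b2 <;>
    rcases c.pos_cases q with k | k | k | k <;>
    first | exact k.1 | linarith [k.2]

theorem mem_slab {z q : V} (hq : q ∈ c.D.J c.E) (h1 : c.bk q = c.bk z) (h2 : c.pos q = c.pos z) :
    q ∈ c.E.slab (c.slo z) (c.shi z) := by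
  have := c.pos_spec q
  rw [slo, shi, ← h2, ← c.blo_eq h1]
  exact ⟨max_le hq.1 (by linarith [this.1]), lt_min hq.2 (by linarith [this.2])⟩

theorem inner_of {p q : V} (h1 : c.bk p = c.bk q) (h2 : c.pos p = c.pos q) (h : c.inner p) :
    c.inner q := ⟨c.alive_of h1 h.1, h2 ▸ h.2⟩

theorem inner_t0 {p : V} (h : c.inner p) : c.t ≤ c.t0 p := by
  have hw := c.w_pos
  have t2 := c.t2
  rcases c.pos_cases p with k | k | k | k
  · have := h.2; omega
  · exact le_min k.2.1 (by linarith [k.2.2])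
  · exact le_min (by linarith [k.2.1]) (by linarith [k.2.2])
  · have := h.2; omega

theorem outer_t0 {p : V} (h : ¬ c.inner p) (ha : c.alive p) : c.t0 p ≤ c.t := by
  rcases c.pos_cases p with k | k | k | k
  · exact (min_le_left _ _).trans k.2.le
  · exact absurd ⟨ha, Or.inl k.1⟩ h
  · exact absurd ⟨ha, Or.inr k.1⟩ h
  · exact (min_le_right _ _).trans (by linarith [k.2])

theorem t0_half {z p : V} (h : c.inner z) (h1 : c.bk p = c.bk z) (h2 : c.pos p = c.pos z) :
    c.t0 p = c.ez z * c.E.π p + c.e0 z := by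
  rw [ez, e0, ← c.blo_eq h1, ← h2]
  have := (c.inner_of h1.symm h2.symm h).2
  rcases c.pos_cases p with k | k | k | k
  · omega
  · rw [if_pos k.1, if_pos k.1, C0.t0, min_eq_left (by linarith [k.2.2])]; ring
  · rw [if_neg (by omega), if_neg (by omega), C0.t0, min_eq_right (by linarith [k.2.1])]; ring
  · omega

theorem abs_ez (z : V) : |cc * c.ez z| ≤ 1 / 2 := by
  unfold ez cc; split_ifs <;> norm_num [abs_of_pos]

theorem zone_cases (p : V) :
    (c.zone p = 0 ∧ ¬ c.inner p) ∨ (c.zone p = 1 ∧ c.inner p ∧ c.ψ c.ϱ p ≤ c.L0) ∨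
    (c.zone p = 2 ∧ c.inner p ∧ c.L0 < c.ψ c.ϱ p ∧ c.ψ c.ϱ p < c.La) ∨
    (c.zone p = 3 ∧ c.inner p ∧ c.La ≤ c.ψ c.ϱ p) := by
  unfold zone
  split_ifs with h1 h2 h3
  · exact Or.inr (Or.inl ⟨rfl, h1, h2⟩)
  · exact Or.inr (Or.inr (Or.inl ⟨rfl, h1, not_le.1 h2, h3⟩))
  · exact Or.inr (Or.inr (Or.inr ⟨rfl, h1, not_lt.1 h3⟩))
  · exact Or.inl ⟨rfl, h1⟩

theorem bz0 (p : V) : c.bz 0 p = min (c.D.b p) c.w := by simp [bz]
theorem bz1 (p : V) : c.bz 1 p = min (min (c.D.b p) (c.L0 - c.ψ c.ϱ p)) c.w := by simp [bz]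
theorem bz2 (p : V) : c.bz 2 p = min (min (c.ψ c.ϱ p - c.L0) (c.La - c.ψ c.ϱ p)) c.w := by
  simp [bz]
theorem bz3 (p : V) : c.bz 3 p = min (c.ψ c.ϱ p - c.La) c.w := by simp [bz]
theorem bz1_le (p : V) : c.bz 1 p ≤ c.L0 - c.ψ c.ϱ p := by
  rw [bz1]; exact (min_le_left _ _).trans (min_le_right _ _)
theorem bz2_le (p : V) : c.bz 2 p ≤ c.ψ c.ϱ p - c.L0 := by
  rw [bz2]; exact (min_le_left _ _).trans (min_le_left _ _)
theorem bz2_le' (p : V) : c.bz 2 p ≤ c.La - c.ψ c.ϱ p := by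
  rw [bz2]; exact (min_le_left _ _).trans (min_le_right _ _)
theorem bz3_le (p : V) : c.bz 3 p ≤ c.ψ c.ϱ p - c.La := by rw [bz3]; exact min_le_left _ _

theorem bz_le_w (n : ℕ) (p : V) : c.bz n p ≤ c.w := by
  unfold bz; split_ifs <;> exact min_le_right _ _

theorem bz_lip (n : ℕ) {p q : V} {L : ℝ} (h1 : |c.D.b p - c.D.b q| ≤ L)
    (h2 : n ≠ 0 → |c.ψ c.ϱ p - c.ψ c.ϱ q| ≤ L) : |c.bz n p - c.bz n q| ≤ L := by
  have h0 : |c.w - c.w| ≤ L := by simpa using (abs_nonneg _).trans h1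
  unfold bz
  split_ifs with a b d
  · exact (abs_min_sub_min_le_max _ _ _ _).trans (max_le h1 h0)
  · refine (abs_min_sub_min_le_max _ _ _ _).trans (max_le
      ((abs_min_sub_min_le_max _ _ _ _).trans (max_le h1 ?_)) h0)
    have := h2 a
    rw [abs_sub_comm] at this; simpa using this
  · refine (abs_min_sub_min_le_max _ _ _ _).trans (max_le
      ((abs_min_sub_min_le_max _ _ _ _).trans (max_le ?_ ?_)) h0)
    · simpa using h2 a
    · have := h2 a
      rw [abs_sub_comm] at this; simpa using this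
  · exact (abs_min_sub_min_le_max _ _ _ _).trans (max_le (by simpa using h2 a) h0)

theorem zone_gap {a b : V} (h1 : c.bk a = c.bk b) (h2 : c.pos a = c.pos b)
    (h : c.zone a ≠ c.zone b) :
    c.alive a ∧ c.bz (c.zone a) a ≤ |c.ψ c.ϱ a - c.ψ c.ϱ b| ∧
      c.bz (c.zone a) a + c.bz (c.zone b) b ≤ |c.ψ c.ϱ a - c.ψ c.ϱ b| := by
  have hL : c.L0 ≤ c.La := by unfold L0 La; linarith [c.w_pos]
  have m1 := le_abs_self (c.ψ c.ϱ a - c.ψ c.ϱ b)
  have m2 := neg_abs_le (c.ψ c.ϱ a - c.ψ c.ϱ b)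
  have a1 := c.bz1_le a
  have a2 := c.bz2_le a
  have a2' := c.bz2_le' a
  have a3 := c.bz3_le a
  have b1 := c.bz1_le b
  have b2 := c.bz2_le b
  have b2' := c.bz2_le' b
  have b3 := c.bz3_le b
  rcases c.zone_cases a with k | k | k | k <;> rcases c.zone_cases b with l | l | l | l <;>
    first
    | exact absurd (k.1.trans l.1.symm) h
    | exact absurd (c.inner_of h1.symm h2.symm l.2.1) k.2
    | exact absurd (c.inner_of h1 h2 k.2.1) l.2
    | (rw [k.1, l.1]
       refine ⟨k.2.1.1, ?_, ?_⟩ <;> linarith [l.2.2])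

theorem rs_symm (a b : V) (h : c.rs a b) : c.rs b a :=
  ⟨h.2.1, h.1, h.2.2.1.symm, h.2.2.2.1.symm, h.2.2.2.2.1.symm, by rw [c.dK_comm]; exact h.2.2.2.2.2⟩

theorem rep_inv {Y : Type} (F : V → Y) {a z : V}
    (h : ∀ u v, c.rs u v → c.zone u = c.zone a → F u = F v) (ha : a ∈ c.D.S) (hz : c.rep a = z) :
    z ∈ c.D.S ∧ c.bk a = c.bk z ∧ c.pos a = c.pos z ∧ c.zone a = c.zone z ∧ F a = F z := by
  have : Relation.ReflTransGen c.rs a z := by
    rw [← qrep_eq_iff c.rs_symm, ← hz]; exact (qrep_idem _ _).symm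
  clear hz
  induction this with
  | refl => exact ⟨ha, rfl, rfl, rfl, rfl⟩
  | tail _ h' ih =>
    exact ⟨h'.2.1, ih.2.1.trans h'.2.2.1, ih.2.2.1.trans h'.2.2.2.1,
      ih.2.2.2.1.trans h'.2.2.2.2.1, ih.2.2.2.2.trans (h _ _ h' ih.2.2.2.1.symm)⟩

theorem rep_spec {a z : V} (ha : a ∈ c.D.S) (hz : c.rep a = z) :
    z ∈ c.D.S ∧ c.bk a = c.bk z ∧ c.pos a = c.pos z ∧ c.zone a = c.zone z := by
  have := c.rep_inv (fun _ => ()) (fun _ _ _ _ => rfl) ha hz
  exact ⟨this.1, this.2.1, this.2.2.1, this.2.2.2.1⟩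

theorem mem_Sp {a : V} (ha : a ∈ c.D.S) (h : 2 ≤ c.zone a) : a ∈ c.Sp := by
  have hL : c.L0 < c.La := by unfold L0 La; linarith [c.w_pos]
  rcases c.zone_cases a with k | k | k | k
  · omega
  · omega
  · exact ⟨ha, k.2.1.1, k.2.2.1⟩
  · exact ⟨ha, k.2.1.1, hL.trans_le k.2.2⟩

theorem crep_rep {a z : V} (ha : a ∈ c.D.S) (hz : c.rep a = z) (h : 2 ≤ c.zone a) :
    c.crep a = c.crep z := by
  refine (c.rep_inv c.crep (fun u v huv e => ?_) ha hz).2.2.2.2
  have e' := huv.2.2.2.2.1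
  have hr : c.rc u v := ⟨c.mem_Sp huv.1 (by omega), c.mem_Sp huv.2.1 (by omega),
    by linarith [huv.2.2.2.2.2, c.w_pos]⟩
  exact qrep_rel hr

theorem dK_le_child (z p q : V) : c.dK p q ≤ (c.child z).dJ c.E p q :=
  c.E.dR_mono (fun _ _ h x hx y hy =>
    (c.slab_spec (h x hx)).1.trans (c.slab_spec (h y hy)).1.symm) p q

theorem dJ_le_child (z p q : V) : c.D.dJ c.E p q ≤ (c.child z).dJ c.E p q :=
  c.E.dR_mono (fun _ _ h x hx => (c.slab_spec (h x hx)).2.2) p q

variable [Fintype V]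

theorem bz_le_b (n : ℕ) (p : V) : c.bz n p ≤ c.D.b p := by
  have h := c.ψ_le_b c.ϱ p
  have hw := c.w_pos
  have := c.s1
  unfold bz
  split_ifs
  · exact min_le_left _ _
  · exact (min_le_left _ _).trans (min_le_left _ _)
  · exact (min_le_left _ _).trans ((min_le_left _ _).trans (by unfold L0; linarith))
  · exact (min_le_left _ _).trans (by unfold La; linarith)

theorem mem_Zs {a p : V} (ha : a ∈ c.D.S) (hi : c.inner p) (h : c.dK a p ≤ c.w / 2)
    (hψ : c.ψ c.ϱ p < 12 * c.w) : p ∈ c.Zs := ⟨hi.1, c.inner_t0 hi, ⟨a, ha, h⟩, hψ⟩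

theorem mem_Zs2 {a : V} (ha : a ∈ c.D.S) (h : c.zone a = 2) : a ∈ c.Zs := by
  have hw := c.w_pos
  have := c.s2
  rcases c.zone_cases a with k | k | k | k
  · omega
  · omega
  · exact c.mem_Zs ha k.2.1 (by rw [c.dK_self]; linarith)
      (k.2.2.2.trans (by unfold La; linarith))
  · omega

theorem α'_rep {a z : V} (ha : a ∈ c.D.S) (hz : c.rep a = z) (h : c.zone a = 2) :
    c.α' a = c.α' z ∧ c.α0' a = c.α0' z := by
  have := (c.rep_inv (fun u => (c.α' u, c.α0' u)) (fun u v huv e => by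
    have := c.zs_loc (c.mem_Zs2 huv.1 (e.trans h))
      (c.mem_Zs2 huv.2.1 (huv.2.2.2.2.1.symm.trans (e.trans h))) huv.2.2.2.2.2
    rw [this.1, this.2]) ha hz).2.2.2.2
  exact Prod.ext_iff.1 this

end C2

end Crest.Agent.N206.TA
end
end

-- ▼ part N206/TA/G4
section

/-!
# Row 206, S0317, Theorem A, geometric stage: the stage (helper24)
-/

set_option autoImplicit false

noncomputable section

open scoped Classical

namespace Crest.Agent.N206.TA

open Crest.GeometryTopology.GraphMetric Crest.Agent.N206.PL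

variable {V : Type}

namespace C2

variable (c : C2 V)

/-- the kind of a zone -/
def kind (n : ℕ) : Kind := if n = 2 then Kind.ramp else if n = 3 then Kind.tent else Kind.plain

theorem kind_ramp {n : ℕ} : kind n = Kind.ramp ↔ n = 2 := by
  unfold kind; split_ifs with h1 h2 <;> simp [h1]

theorem kind_tent {n : ℕ} : kind n = Kind.tent ↔ n = 3 := by
  unfold kind; split_ifs with h1 h2 <;> simp [*]

theorem kind_plain {n : ℕ} : kind n = Kind.plain ↔ n ≠ 2 ∧ n ≠ 3 := by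
  unfold kind; split_ifs with h1 h2 <;> simp [*]

variable [Fintype V]

theorem child_lipb (z : V) : c.E.LipOn 1 ((c.child z).J c.E) (c.child z).b := by
  intro u hu v hv h
  obtain ⟨a1, -, a3⟩ := c.slab_spec hu
  obtain ⟨b1, -, b3⟩ := c.slab_spec hv
  exact c.bz_lip _ (c.dom.lipb u a3 v b3 h) fun _ => by
    simpa using c.ψ_lip c.ϱ h (a1.trans b1.symm) a3 b3

theorem child_sep (z : V) : ∀ a ∈ (c.child z).S, ∀ a' ∈ c.E.Sg, a' ∈ (c.child z).J c.E →
    a' ∉ (c.child z).S → (c.child z).b a ≤ (c.child z).dJ c.E a a' := by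
  intro a ha a' h1 h2 h3
  have hw := c.w_pos
  obtain ⟨b1, b2, b3⟩ := c.slab_spec h2
  obtain ⟨-, r1, r2, r3⟩ := c.rep_spec ha.1 ha.2
  change c.bz (c.zone z) a ≤ _
  by_cases hS : a' ∈ c.D.S
  swap
  · exact ((c.bz_le_b _ a).trans (c.dom.sep a ha.1 a' h1 b3 hS)).trans (c.dJ_le_child z a a')
  refine le_trans ?_ (c.dK_le_child z a a')
  by_cases hK : c.dK a a' ≤ c.w
  swap
  · exact (c.bz_le_w _ a).trans (not_le.1 hK).le
  by_cases hz : c.zone a = c.zone a'
  · exact absurd ⟨hS, (qrep_rel (r := c.rs)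
      ⟨ha.1, hS, r1.trans b1.symm, r2.trans b2.symm, hz, hK⟩).symm.trans ha.2⟩ h3
  · obtain ⟨g1, g2, -⟩ := c.zone_gap (r1.trans b1.symm) (r2.trans b2.symm) hz
    rw [← r3]
    exact g2.trans (c.ψ_dK c.ϱ g1 (by linarith))

theorem zone_spec {z p : V} (hp : p ∈ (c.child z).Zone c.E (c.w / K0)) :
    c.bk p = c.bk z ∧ c.pos p = c.pos z ∧ p ∈ c.D.J c.E ∧ c.bz (c.zone z) p < c.w / 8 ∧
      ∃ a ∈ c.D.S, c.rep a = z ∧ c.dK a p ≤ c.w / 8 ∧ c.D.dJ c.E a p ≤ c.w / 8 := by
  obtain ⟨h1, ⟨a, ha, h2⟩, h3⟩ := hp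
  obtain ⟨b1, b2, b3⟩ := c.slab_spec h1
  have := c.w'_le
  have := c.w'_pos
  change c.bz (c.zone z) p < _ at h3
  exact ⟨b1, b2, b3, by linarith, a, ha.1, ha.2, by linarith [c.dK_le_child z a p],
    by linarith [c.dJ_le_child z a p]⟩

theorem child_cb (z : V) : ∃ α β : V → ℝ,
    (∀ p ∈ (c.child z).Zone c.E (c.w / K0), |α p| ≤ 1 / 2 ∧
      (c.child z).X p = α p * c.E.π p + β p) ∧
    ∀ p ∈ (c.child z).Zone c.E (c.w / K0), ∀ q ∈ (c.child z).Zone c.E (c.w / K0),
      (c.child z).dJ c.E p q ≤ c.w / K0 → α p = α q ∧ β p = β q := by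
  have hw := c.w_pos
  have w1 := c.w'_le
  have w2 := c.w'_pos
  have s1 := c.s1
  have s2 := c.s2
  have zs : (∀ p ∈ (c.child z).Zone c.E (c.w / K0), p ∈ c.Zs) → c.zone z ≠ 2 → ∃ α β : V → ℝ,
      (∀ p ∈ (c.child z).Zone c.E (c.w / K0), |α p| ≤ 1 / 2 ∧
        (c.child z).X p = α p * c.E.π p + β p) ∧
      ∀ p ∈ (c.child z).Zone c.E (c.w / K0), ∀ q ∈ (c.child z).Zone c.E (c.w / K0),
        (c.child z).dJ c.E p q ≤ c.w / K0 → α p = α q ∧ β p = β q := fun h h2 =>
    ⟨c.α', c.α0', fun p hp => by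
      simp only [child, if_neg h2]; exact c.zs_aff (h p hp), fun p hp q hq hd =>
      c.zs_loc (h p hp) (h q hq) (by linarith [c.dK_le_child z p q])⟩
  rcases c.zone_cases z with k | k | k | k
  · have hz : ∀ p ∈ (c.child z).Zone c.E (c.w / K0),
        p ∈ c.D.Zone c.E c.w ∧ c.D.b p < c.w := fun p hp => by
      obtain ⟨-, -, b3, b4, a, ha, -, -, b5⟩ := c.zone_spec hp
      rw [k.1, bz0, min_lt_iff] at b4
      have : c.D.b p < c.w := by rcases b4 with b | b <;> linarith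
      exact ⟨⟨b3, ⟨a, ha, by linarith⟩, by linarith⟩, this⟩
    refine ⟨c.α, c.α0, fun p hp => ?_, fun p hp q hq hd =>
      c.cb2 p (hz p hp).1 q (hz q hq).1 (by linarith [c.dJ_le_child z p q])⟩
    simp only [child, if_neg (by omega : c.zone z ≠ 2)]
    rw [c.X'_small (by linarith [(hz p hp).2])]
    exact c.cb1 p (hz p hp).1
  · refine zs (fun p hp => ?_) (by omega)
    obtain ⟨b1, b2, -, -, a, ha, ha', b4, -⟩ := c.zone_spec hp
    obtain ⟨-, r1, r2, r3⟩ := c.rep_spec ha ha'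
    have h1 := c.ψ_dK c.ϱ (c.alive_of r1.symm k.2.1.1) (q := p) (by linarith)
    have h2 : c.ψ c.ϱ a ≤ c.L0 := by
      rcases c.zone_cases a with l | l | l | l
      · omega
      · exact l.2.2
      · omega
      · omega
    exact c.mem_Zs ha (c.inner_of b1.symm b2.symm k.2.1) (by linarith)
      (by unfold L0 at h2; linarith [(abs_le.1 h1).1])
  · have hz : ∀ p ∈ (c.child z).Zone c.E (c.w / K0),
        c.ψ c.ϱ p ≤ 15 / 2 * c.w ∨ 9 * c.w ≤ c.ψ c.ϱ p := fun p hp => by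
      obtain ⟨-, -, -, b4, -⟩ := c.zone_spec hp
      rw [k.1, bz2, min_lt_iff, min_lt_iff] at b4
      unfold L0 La at b4
      rcases b4 with (b | b) | b
      · left; linarith
      · right; linarith
      · linarith
    refine ⟨fun p => if c.ψ c.ϱ p ≤ 8 * c.w then 0 else cc * c.ez z,
      fun p => if c.ψ c.ϱ p ≤ 8 * c.w then 0 else cc * (c.e0 z - c.t), fun p hp => ?_,
      fun p hp q hq hd => ?_⟩
    · simp only [child, if_pos k.1]
      split_ifs with h
      · rw [c.g_zero_ψ h]; simp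
      · obtain ⟨b1, b2, -, -, a, ha, ha', b4, -⟩ := c.zone_spec hp
        obtain ⟨-, r1, r2, r3⟩ := c.rep_spec ha ha'
        refine ⟨c.abs_ez z, ?_⟩
        rw [← c.crep_rep ha ha' (by omega), c.g_tent (c.mem_Sp ha (by omega)) (by linarith)
          (c.inner_t0 (c.inner_of b1.symm b2.symm k.2.1))
          ((hz p hp).resolve_left (by linarith)), c.t0_half k.2.1 b1 b2]
        ring
    · have h0 := c.dK_le_child z p q
      have h1 := abs_le.1 (c.ψ_dK c.ϱ (c.alive_of (c.zone_spec hp).1.symm k.2.1.1) (q := q)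
        (by linarith))
      have : c.ψ c.ϱ p ≤ 8 * c.w ↔ c.ψ c.ϱ q ≤ 8 * c.w := by
        rcases hz p hp with a | a <;> rcases hz q hq with b | b <;> constructor <;> intro <;>
          linarith [h1.1, h1.2]
      simp only [this, and_self]
  · refine zs (fun p hp => ?_) (by omega)
    obtain ⟨b1, b2, -, b3, a, ha, -, b4, -⟩ := c.zone_spec hp
    rw [k.1, bz3, min_lt_iff] at b3
    unfold La at b3
    exact c.mem_Zs ha (c.inner_of b1.symm b2.symm k.2.1) (by linarith)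
      (by rcases b3 with b | b <;> linarith)

theorem child_dom (z : V) : IsDom c.E (c.w / K0) (c.child z) where
  sub a ha := c.dom.sub ha.1
  subJ a ha := c.mem_slab (c.dom.subJ ha.1) (c.rep_spec ha.1 ha.2).2.1 (c.rep_spec ha.1 ha.2).2.2.1
  pos := c.dom.pos.trans_le (le_max_left _ _)
  le := (min_le_left _ _).trans c.dom.le
  lipX := by
    simp only [child]
    split_ifs
    · intro u _ v _ h
      exact (c.lipg _ u trivial v trivial h).trans
        (mul_le_mul_of_nonneg_right (by norm_num [cc]) (c.E.ℓ_pos h).le)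
    · exact c.lipX
  lipb := c.child_lipb z
  sep := c.child_sep z
  cb := c.child_cb z

theorem child_terr (z : V) : (c.child z).Terr c.E (c.w / K0) ⊆ c.D.Terr c.E c.w := by
  rintro p ⟨h1, h2, a, ha, h3, h4⟩
  have w1 := c.w'_le
  have w2 := c.w'_pos
  have a1 : c.D.j0 ≤ (c.child z).j0 := le_max_left _ _
  have a2 : (c.child z).j1 ≤ c.D.j1 := min_le_left _ _
  have a3 := c.dJ_le_child z a p
  have a4 : (c.child z).b a ≤ c.D.b a := c.bz_le_b _ a
  exact ⟨by linarith, by linarith, a, ha.1, by linarith, by linarith⟩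

theorem near_terr {z p q : V} (hq : q ∈ (c.child z).Terr c.E (c.w / K0))
    (h : p = q ∨ c.E.G.Adj p q) : c.bk p = c.bk z ∧ c.pos p = c.pos z ∧
      ∃ a ∈ c.D.S, c.rep a = z ∧ c.dK a p ≤ c.w / 4 ∧ c.dK a p + c.E.δ ≤ c.bz (c.zone z) a := by
  obtain ⟨h1, h2, a, ha, h3, h4⟩ := hq
  have w1 := c.w'_le
  have w2 := c.w'_pos
  have w3 := c.hδ
  have w4 := c.E.δ_pos
  have hπ := abs_le.1 (c.π_near h)
  change c.slo z + _ ≤ _ at h1
  change _ ≤ c.shi z at h2
  change _ ≤ c.bz (c.zone z) a at h4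
  obtain ⟨b1, b2, -⟩ := c.slab_spec (z := z) (q := p) ⟨by linarith [hπ.1], by linarith [hπ.2]⟩
  obtain ⟨d1, -, -⟩ := c.slab_spec (z := z) (q := q) ⟨by linarith, by linarith⟩
  have e1 := c.dK_near h (b1.trans d1.symm)
  have e2 := c.dK_tri a q p
  rw [c.dK_comm q p] at e2
  have e3 := c.dK_le_child z a q
  exact ⟨b1, b2, a, ha.1, ha.2, by linarith, by linarith⟩

theorem child_apart {z z' p q : V} (hp : p ∈ (c.child z).Terr c.E (c.w / K0))
    (hq : q ∈ (c.child z').Terr c.E (c.w / K0)) (h : p = q ∨ c.E.G.Adj p q) : z = z' := by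
  have hw := c.w_pos
  obtain ⟨a1, a2, a, ha, a3, a4, a5⟩ := c.near_terr hp (Or.inl rfl)
  obtain ⟨b1, b2, b, hb, b3, b4, b5⟩ := c.near_terr hq h
  obtain ⟨-, r1, r2, r3⟩ := c.rep_spec ha a3
  obtain ⟨-, u1, u2, u3⟩ := c.rep_spec hb b3
  have e1 : c.bk a = c.bk b := by rw [r1, ← a1, b1, u1]
  have e2 : c.pos a = c.pos b := by rw [r2, ← a2, b2, u2]
  have e3 := c.dK_tri a p b
  rw [c.dK_comm p b] at e3
  by_cases hz : c.zone a = c.zone b
  · rw [← a3, ← b3]
    exact qrep_rel (r := c.rs) ⟨ha, hb, e1, e2, hz, by linarith⟩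
  · obtain ⟨g1, -, g3⟩ := c.zone_gap e1 e2 hz
    have := c.ψ_dK c.ϱ g1 (q := b) (by linarith)
    rw [r3, u3] at g3
    linarith [c.E.δ_pos]

theorem child_loc {z p q : V} (hq : q ∈ (c.child z).Terr c.E (c.w / K0))
    (h : p = q ∨ c.E.G.Adj p q) :
    (c.zone z < 2 → ∀ l, c.g l p = 0) ∧ (2 ≤ c.zone z → ∀ l, l ≠ c.crep z → c.g l p = 0) ∧
      (c.zone z = 3 → c.g (c.crep z) p = cc * c.ez z * c.E.π p + cc * (c.e0 z - c.t)) ∧
      (c.zone z = 2 → c.X' p = c.α' z * c.E.π p + c.α0' z) := by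
  have hw := c.w_pos
  have s1 := c.s1
  have s2 := c.s2
  have w4 := c.E.δ_pos
  obtain ⟨b1, b2, a, ha, a3, a4, a5⟩ := c.near_terr hq h
  obtain ⟨-, r1, r2, r3⟩ := c.rep_spec ha a3
  have hψ : c.alive z → |c.ψ c.ϱ a - c.ψ c.ϱ p| ≤ c.dK a p := fun h =>
    c.ψ_dK c.ϱ (c.alive_of r1.symm h) (by linarith)
  refine ⟨fun hz l => ?_, fun hz l hl => ?_, fun hz => ?_, fun hz => ?_⟩
  · rcases c.zone_cases z with k | k | k | k
    · by_contra hn
      obtain ⟨g1, g2, -⟩ := c.g_ne hn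
      linarith [c.outer_t0 (fun h => k.2 (c.inner_of b1 b2 h)) g2]
    · have := c.bz1_le a
      rw [k.1] at a5
      unfold L0 at this
      exact c.g_zero_ψ (by linarith [(abs_le.1 (hψ k.2.1.1)).1])
    · omega
    · omega
  · exact c.g_other (c.mem_Sp ha (by omega)) (by linarith)
      (by rwa [c.crep_rep ha a3 (by omega)])
  · rcases c.zone_cases z with k | k | k | k
    · omega
    · omega
    · omega
    · have := c.bz3_le a
      rw [k.1] at a5
      unfold La at this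
      rw [← c.crep_rep ha a3 (by omega), c.g_tent (c.mem_Sp ha (by omega)) (by linarith)
        (c.inner_t0 (c.inner_of b1.symm b2.symm k.2.1))
        (by linarith [(abs_le.1 (hψ k.2.1.1)).2]), c.t0_half k.2.1 b1 b2]
      ring
  · rcases c.zone_cases z with k | k | k | k
    · omega
    · omega
    · have := c.bz2_le' a
      rw [k.1] at a5
      unfold La at this
      have hp : p ∈ c.Zs := c.mem_Zs ha (c.inner_of b1.symm b2.symm k.2.1) (by linarith)
        (by linarith [(abs_le.1 (hψ k.2.1.1)).1])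
      have e1 := c.zs_loc (c.mem_Zs2 ha (by omega)) hp (by linarith)
      have e2 := c.α'_rep ha a3 (by omega)
      rw [← e2.1, ← e2.2, e1.1, e1.2]
      exact (c.zs_aff hp).2
    · omega

/-- the stage -/
def stage : Stage c.E c.w c.D where
  ι := {z : V // z ∈ c.D.S}
  fin := inferInstance
  sub i := c.child i.1
  kind i := kind (c.zone i.1)
  cell i := c.crep i.1
  a i := if c.zone i.1 = 2 then c.α' i.1 else cc * c.ez i.1
  a0 i := if c.zone i.1 = 2 then c.α0' i.1 else cc * (c.e0 i.1 - c.t)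
  X' := c.X'
  g := c.g
  dom i := c.child_dom i.1
  terr i := c.child_terr i.1
  apart _ _ _ _ hp hq h := Subtype.ext (c.child_apart hp hq h)
  lipX := c.lipX
  suppX := c.suppX
  nearX := c.nearX
  lipg := c.lipg
  bdg := c.bdg
  suppg := c.suppg
  oneg := c.oneg
  slope i := by
    split_ifs with h
    · exact (c.zs_aff (c.mem_Zs2 i.2 h)).1
    · exact c.abs_ez _
  subX i := ⟨fun h => if_pos (kind_ramp.1 h), fun h => if_neg fun h' => h (kind_ramp.2 h')⟩
  loc i p q hq h := by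
    obtain ⟨h1, h2, h3, h4⟩ := c.child_loc hq h
    have h5 : c.zone i.1 ≤ 3 := by rcases c.zone_cases i.1 with k | k | k | k <;> omega
    refine ⟨fun l hl => ?_, fun hk => ?_, fun hk => ?_, fun hk => ?_⟩
    · by_cases hz : c.zone i.1 < 2
      · exact h1 hz l
      · exact h2 (by omega) l hl
    · have := kind_plain.1 hk
      exact h1 (by omega) _
    · have := kind_tent.1 hk
      rw [if_neg (by omega), if_neg (by omega)]
      exact h3 this
    · have := kind_ramp.1 hk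
      rw [if_pos this, if_pos this]
      exact h4 this

end C2

end Crest.Agent.N206.TA
end
end

-- ▼ part N206/TA/G5
section

/-!
# Row 206, S0317, Theorem A, geometric stage: surviving and winning pairs (helper24)
-/

set_option autoImplicit false

noncomputable section

open scoped Classical

namespace Crest.Agent.N206.TA

open Crest.GeometryTopology.GraphMetric Crest.Agent.N206.PL

variable {V : Type} [Fintype V]

theorem IsDom.b_dJ {E : Env V} {w : ℝ} {D : Dom V} (h : IsDom E w D) {p q : V}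
    (hd : D.dJ E p q < E.Λ) : |D.b p - D.b q| ≤ D.dJ E p q := by
  have := E.lip_dR (fun e => ∀ x ∈ e, x ∈ D.J E) (L := 1) (g := D.b)
    (fun u v huv ho => h.lipb u (ho u (by simp)) v (ho v (by simp)) huv) (x := p) (y := q) hd
  simpa [Dom.dJ] using this

theorem Dom.dJ_le_d (E : Env V) (D : Dom V) {x v : V} {r : ℝ} (h1 : D.j0 + r ≤ E.π x)
    (h2 : E.π x + r < D.j1) (hv : E.d x v ≤ r) : v ∈ D.J E ∧ D.dJ E x v ≤ E.d x v := by
  have key : ∀ u, E.d x u ≤ r → u ∈ D.J E := fun u hu => by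
    have := abs_le.1 ((E.π_lip x u).trans hu)
    exact ⟨by linarith [this.2], by linarith [this.1]⟩
  refine ⟨key v hv, E.dR_le_d _ (r := r) (fun u v _ hu hv z hz => ?_) hv⟩
  rcases Sym2.mem_iff.1 hz with rfl | rfl
  · exact key _ hu
  · exact key _ hv

theorem IsDom.mem_S {E : Env V} {w : ℝ} {D : Dom V} (h : IsDom E w D) {x v : V} {r : ℝ}
    (hx : x ∈ D.S) (hv : v ∈ E.Sg) (h1 : D.j0 + r ≤ E.π x) (h2 : E.π x + r < D.j1)
    (hb : r < D.b x) (hd : E.d x v ≤ r) : v ∈ D.S := by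
  by_contra hn
  obtain ⟨a, b⟩ := D.dJ_le_d E h1 h2 hd
  linarith [h.sep x hx v hv a hn]

namespace C2

variable (c : C2 V)

omit [Fintype V] in
theorem slab_margin {x : V} {r : ℝ} (h0 : c.D.j0 + r ≤ c.E.π x) (h0' : c.E.π x + r ≤ c.D.j1)
    (h1 : r < c.t0 x) (h2 : r < |c.E.π x - c.blo x - c.w / 2|) (h3 : r < |c.t0 x - c.t|) :
    c.slo x + r ≤ c.E.π x ∧ c.E.π x + r ≤ c.shi x := by
  have hw := c.w_pos
  have t1 := c.t1
  have t2 := c.t2
  have a1 : c.t0 x ≤ c.E.π x - c.blo x := min_le_left _ _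
  have a2 : c.t0 x ≤ c.blo x + c.w - c.E.π x := min_le_right _ _
  have key : c.blo x + c.cut (c.pos x) + r ≤ c.E.π x ∧
      c.E.π x + r ≤ c.blo x + c.cut (c.pos x + 1) := by
    rcases c.pos_cases x with k | k | k | k <;> rw [k.1] <;>
      simp only [Nat.reduceAdd, cut0, cut1, cut2, cut3, cut4]
    · have e : c.t0 x = c.E.π x - c.blo x := min_eq_left (by linarith [k.2])
      rw [abs_of_nonpos (by linarith [k.2])] at h3
      constructor <;> linarith
    · have e : c.t0 x = c.E.π x - c.blo x := min_eq_left (by linarith [k.2.2])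
      rw [abs_of_nonneg (by linarith [k.2.1])] at h3
      rw [abs_of_nonpos (by linarith [k.2.2])] at h2
      constructor <;> linarith
    · have e : c.t0 x = c.blo x + c.w - c.E.π x := min_eq_right (by linarith [k.2.1])
      rw [abs_of_nonneg (by linarith [k.2.2])] at h3
      rw [abs_of_nonneg (by linarith [k.2.1])] at h2
      constructor <;> linarith
    · have e : c.t0 x = c.blo x + c.w - c.E.π x := min_eq_right (by linarith [k.2])
      rw [abs_of_nonpos (by linarith [k.2])] at h3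
      constructor <;> linarith
  rw [slo, shi, ← max_add_add_right]
  exact ⟨max_le h0 key.1, le_min h0' key.2⟩

/-- a pair which avoids all kinks survives -/
theorem alive_pair {x y : V} (h : c.D.OK c.E x y) (hD : 1000 * c.E.d x y ≤ c.w)
    (hδ : c.E.δ ≤ c.E.d x y) (k1 : 70 * c.E.d x y < c.t0 x)
    (k2 : 70 * c.E.d x y < |c.E.π x - c.blo x - c.w / 2|) (k3 : 70 * c.E.d x y < |c.t0 x - c.t|)
    (k4 : 70 * c.E.d x y < |c.t0 x + 2 * (c.σ (c.ctr x) * c.D.X x - c.v (c.ctr x)) - c.t|)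
    (k5 : 70 * c.E.d x y < |c.t0 x + 2 * (c.Y2 (c.ctr x) x - c.v (c.ctr x)) - c.t|)
    (k6 : 70 * c.E.d x y < |c.ψ c.ϱ x - c.L0|) (k7 : 70 * c.E.d x y < |c.ψ c.ϱ x - c.La|) :
    (c.child (c.rep x)).OK c.E x y ∧ x ∈ (c.child (c.rep x)).Terr c.E (c.w / K0) ∧
      y ∈ (c.child (c.rep x)).Terr c.E (c.w / K0) := by
  obtain ⟨hx, hy, hb, m1, m2, hX⟩ := h
  have hw := c.w_pos
  have w2 := c.w'_pos
  have δ0 := c.E.δ_pos
  have hΛ := c.hΛ
  obtain ⟨-, r1, r2, r3⟩ := c.rep_spec hx rfl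
  have e1 : (c.child (c.rep x)).j0 = c.slo x := by
    change c.slo _ = _; rw [slo, slo, r2, c.blo_eq r1]
  have e2 : (c.child (c.rep x)).j1 = c.shi x := by
    change c.shi _ = _; rw [shi, shi, r2, c.blo_eq r1]
  obtain ⟨n1, n2⟩ := c.slab_margin m1 m2 k1 k2 k3
  rw [← e1] at n1
  rw [← e2] at n2
  have hx' : x ∈ (c.child (c.rep x)).S := ⟨hx, rfl⟩
  have hb' : 30 * c.E.d x y ≤ (c.child (c.rep x)).b x := by
    change _ ≤ c.bz (c.zone _) x
    rw [← r3]
    rcases c.zone_cases x with k | k | k | k <;> rw [k.1]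
    · rw [bz0]; exact le_min hb (by linarith)
    · rw [abs_of_nonpos (by linarith [k.2.2])] at k6
      rw [bz1]; exact le_min (le_min hb (by linarith)) (by linarith)
    · rw [abs_of_nonneg (by linarith [k.2.2.1])] at k6
      rw [abs_of_nonpos (by linarith [k.2.2.2])] at k7
      rw [bz2]; exact le_min (le_min (by linarith) (by linarith)) (by linarith)
    · rw [abs_of_nonneg (by linarith [k.2.2])] at k7
      rw [bz3]; exact le_min (by linarith) (by linarith)
  have hdom := c.child_dom (c.rep x)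
  have hy' : y ∈ (c.child (c.rep x)).S :=
    hdom.mem_S (r := c.E.d x y) hx' hy (by linarith) (by linarith) (by linarith) le_rfl
  have hJ := ((c.child (c.rep x)).dJ_le_d c.E (x := x) (v := y) (r := c.E.d x y) (by linarith)
    (by linarith) le_rfl).2
  have hby := abs_le.1 (hdom.b_dJ (p := x) (q := y) (by linarith))
  have hπ := abs_le.1 (c.E.π_lip x y)
  have z0 : ∀ u, (c.child (c.rep x)).dJ c.E u u = 0 := fun u => c.E.dR_self _ u
  refine ⟨⟨hx', hy, hb', n1, n2, ?_⟩,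
    ⟨by linarith, by linarith, x, hx', by rw [z0]; linarith, by rw [z0]; linarith⟩,
    ⟨by linarith [hπ.2], by linarith [hπ.1], y, hy', by rw [z0]; linarith,
      by rw [z0]; linarith [hby.2]⟩⟩
  simp only [child]
  split_ifs
  · exact Or.inl fun u _ v _ h => c.lipg _ u trivial v trivial h
  · exact c.reg hx (by linarith) (by linarith) (by linarith) (by linarith) (by linarith) hX

theorem cell_chain {x y : V} (hx : x ∈ c.Sp) (h : Relation.ReflTransGen c.rc x y) :
    c.bk x = c.bk y ∧ y ∈ c.cell (c.crep x) ∧ Relation.ReflTransGen (fun a b =>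
      a ∈ c.cell (c.crep x) ∧ b ∈ c.cell (c.crep x) ∧ c.E.dR c.ok a b ≤ 4 * c.w) x y := by
  induction h with
  | refl => exact ⟨rfl, ⟨hx, rfl⟩, Relation.ReflTransGen.refl⟩
  | tail _ h ih =>
    have : _ ∈ c.cell (c.crep x) := ⟨h.2.1, (qrep_rel h).symm.trans ih.2.1.2⟩
    exact ⟨ih.1.trans (c.bk_of_dK (by linarith [h.2.2, c.w_pos])), this,
      ih.2.2.tail ⟨ih.2.1, this, h.2.2⟩⟩

/-- points which cannot be clamped -/
theorem not_clamp {z : V} (hz : z ∈ c.D.S) (hl : c.E.LipOn cc (c.BB z) c.D.X)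
    (h : ¬ ∃ σ v, c.Clamp z σ v) :
    (∃ p ∈ c.BB z, ∃ p' ∈ c.BB1 z, 130 * cc * c.w < c.D.X p - c.D.X p') ∧
      ∃ p ∈ c.BB1 z, ∃ p' ∈ c.BB z, 130 * cc * c.w < c.D.X p - c.D.X p' := by
  have hw := c.w_pos
  have hz1 : z ∈ c.BB1 z := ⟨show c.dK z z ≤ _ by rw [c.dK_self]; linarith, z, hz,
    show c.dK z z ≤ _ by rw [c.dK_self]; linarith⟩
  have key : ∀ σ : ℝ, (σ = 1 ∨ σ = -1) →
      ∃ p ∈ c.BB z, ∃ p' ∈ c.BB1 z, 130 * cc * c.w < σ * c.D.X p - σ * c.D.X p' := by
    intro σ hσ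
    obtain ⟨p', hp', hm⟩ := Set.exists_min_image (c.BB1 z) (fun p => σ * c.D.X p)
      (Set.toFinite _) ⟨z, hz1⟩
    by_contra hn
    push Not at hn
    exact h ⟨σ, σ * c.D.X p', hl, hσ, fun p hp => by linarith [hn p hp p' hp'], hm⟩
  obtain ⟨p, hp, p', hp', h1⟩ := key 1 (Or.inl rfl)
  obtain ⟨q, hq, q', hq', h2⟩ := key (-1) (Or.inr rfl)
  exact ⟨⟨p, hp, p', hp', by linarith⟩, q', hq', q, hq, by linarith⟩

/-- a pair of the current scale in the middle of a cell wins -/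
theorem win_pair (gain : GainStmt) {x y : V} (h : c.D.OK c.E x y) (hD : 10 ^ 4 * c.w ≤ c.E.d x y)
    (hR : 10 * c.E.d x y ≤ c.E.R) (k1 : c.w / 4 ≤ c.t0 x) (k2 : 9 * c.w ≤ c.ψ c.ϱ x) :
    (∃ l, cc * c.w / 16 ≤ c.g l x ∧ c.g l y = 0) ∨
      5 * (130 * cc * c.w) ≤ |c.D.X x - c.D.X y| := by
  obtain ⟨hx, hy, hb, m1, m2, hX⟩ := h
  have hw := c.w_pos
  have hΛ := c.hΛ
  have s1 := c.s1
  have s2 := c.s2
  have t2 := c.t2
  have l1 := c.blo_le x
  have l2 := c.lt_bhi x
  have hal : c.alive x := ⟨by linarith, by linarith⟩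
  have hxp : x ∈ c.Sp := ⟨hx, hal, by unfold L0; linarith⟩
  by_cases hg : c.g (c.crep x) y = 0
  · refine Or.inl ⟨c.crep x, ?_, hg⟩
    rw [c.g_tent hxp (by rw [c.dK_self]; linarith) (by linarith) k2]
    unfold cc; linarith
  right
  have hS : ∀ v ∈ c.E.Sg, c.E.d x v ≤ 20 * c.E.d x y → v ∈ c.D.S := fun v hv hd =>
    c.dom.mem_S hx hv (by linarith) (by linarith) (by linarith) hd
  obtain ⟨-, g2, a, ha, ha'⟩ := c.g_ne hg
  have hyp : y ∈ c.Sp := ⟨hS y hy (by linarith), g2, by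
    have : ¬ c.ψ c.ϱ y ≤ 8 * c.w := fun h => hg (c.g_zero_ψ h)
    unfold L0; linarith⟩
  have hch : ∀ u ∈ c.cell (c.crep x), Relation.ReflTransGen c.rc x u := fun u hu =>
    (qrep_eq_iff c.rc_symm).1 hu.2.symm
  have hyc : y ∈ c.cell (c.crep x) :=
    ⟨hyp, (qrep_rel (r := c.rc) ⟨ha.1, hyp, by linarith⟩).symm.trans ha.2⟩
  have hsl : ∀ u, u ∈ c.E.slab (c.blo x) (c.blo x + c.w) ↔ c.bk u = c.bk x := fun u =>
    ⟨fun hu => c.bk_eq hu.1 hu.2, fun hu => by
      rw [← c.blo_eq hu]; exact ⟨c.blo_le u, c.lt_bhi u⟩⟩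
  have G := fun X => gain V c.E c.w (c.blo x) c.ϱ c.ok c.D.S (c.cell (c.crep x)) c.Z X x y c.δ_le
    hΛ (c.dom.pos.trans_le hal.1) (hal.2.trans c.dom.le)
    (fun u hu v _ => by rw [c.ok_iff, hsl, (hsl u).1 hu]; exact eq_comm) c.dom.sub
    (fun u hu => hu.1.1) (fun u hu => (hsl u).2 (c.cell_chain hxp (hch u hu)).1.symm)
    (fun z hz => c.dom.sub (c.Z_S z hz)) ⟨hxp, rfl⟩ hyc hD (by linarith [c.dom.pos])
    (by linarith [c.dom.le]) hR hS (c.cell_chain hxp (hch y hyc)).2.2 c.ϱ1 c.ϱ2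
    (fun u hu z hz => by
      have h1 : c.ψ c.ϱ u ≤ |c.dK z u - c.ϱ| := inf2_le (f := fun z => |c.dK z u - c.ϱ|) hz
      have h2 : c.L0 < c.ψ c.ϱ u := hu.1.2.2
      unfold L0 at h2
      change _ < |c.dK z u - c.ϱ|
      linarith)
  have hz : ∀ z ∈ c.D.S, z ∈ c.E.slab (c.blo x) (c.blo x + c.w) → c.E.d x z ≤ 11 * c.E.d x y →
      c.alive z ∧ 500 * c.w ≤ c.D.b z ∧ c.BB z ⊆ c.E.B x (30 * c.E.d x y) := by
    intro z hz h1 h2
    refine ⟨c.alive_of ((hsl z).1 h1).symm hal, ?_, fun p hp => ?_⟩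
    · obtain ⟨γ, hγ⟩ := c.E.d_geo x z
      have hs : ∀ u ∈ γ.support, u ∈ c.D.J c.E := fun u hu =>
        (c.D.dJ_le_d c.E (x := x) (r := 11 * c.E.d x y) (by linarith) (by linarith)
          (by linarith [c.E.d_add_le_wl γ hu, c.E.d_nonneg u z])).1
      have := c.E.lip_walk (L := 1) (g := c.D.b) γ fun u v huv he =>
        c.dom.lipb u (hs u (γ.fst_mem_support_of_mem_edges he)) v
          (hs v (γ.snd_mem_support_of_mem_edges he)) huv
      linarith [(abs_le.1 this).2]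
    · have a1 := c.E.d_le_dR c.ok z p
      have a2 := c.E.d_tri x z p
      have a3 := hp.1
      rw [c.E.mem_B]; linarith
  rcases hX with hX | ⟨α, β, hα, hX⟩
  · refine G c.D.X hX fun z z1 z2 z3 => ?_
    obtain ⟨a1, a2, a3⟩ := hz z z1 z2 z3
    by_cases hc : c.Capt z
    · exact Or.inl (c.Z_max z hc)
    · exact Or.inr (c.not_clamp z1 (fun u hu v hv => hX u (a3 hu) v (a3 hv))
        fun h => hc ⟨z1, a1, a2, Or.inr h⟩)
  · have := G (fun _ => 0) (fun u _ v _ huv => by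
      simpa using mul_nonneg (by norm_num [cc] : (0 : ℝ) ≤ cc) (c.E.ℓ_pos huv).le)
      fun z z1 z2 z3 => by
        obtain ⟨a1, a2, a3⟩ := hz z z1 z2 z3
        exact Or.inl (c.Z_max z ⟨z1, a1, a2, Or.inl ⟨α, β, hα, fun v hv => hX v (a3 hv)⟩⟩)
    simp only [sub_self, abs_zero] at this
    unfold cc at this
    linarith

end C2

end Crest.Agent.N206.TA
end
end

-- ▼ part N206/TA/Geom

/-!
# Row 206, S0317, Theorem A, geometric stage: choice of the parameters (helper24)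
-/

set_option autoImplicit false

noncomputable section

open scoped Classical

namespace Crest.Agent.N206.TA

open Crest.GeometryTopology.GraphMetric Crest.Agent.N206.PL

variable {V : Type} [Fintype V]

theorem K0_pow {k : ℕ} (hk : 0 < k) : 1 / K0 ^ k ≤ 1 / 2 ^ 39 * (1 / 2 : ℝ) ^ k := by
  induction k, hk using Nat.le_induction with
  | base => norm_num [K0]
  | succ k _ ih =>
    have : (1 : ℝ) / K0 ≤ 1 / 2 := by norm_num [K0]
    calc 1 / K0 ^ (k + 1) = 1 / K0 ^ k * (1 / K0) := by rw [pow_succ, one_div_mul_one_div]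
      _ ≤ 1 / 2 ^ 39 * (1 / 2 : ℝ) ^ k * (1 / 2) :=
        mul_le_mul ih this (by norm_num [K0]) (by positivity)
      _ = _ := by ring

theorem scale_le {w D : ℝ} {k : ℕ} (hw : 0 < w) (hk : 0 < k) (h : D < 2 * 10 ^ 4 * (w / K0 ^ k)) :
    10 ^ 6 * D ≤ w * (1 / 2) ^ k := by
  have h1 := mul_le_mul_of_nonneg_left (K0_pow hk) hw.le
  have h2 : 0 ≤ w * (1 / 2 : ℝ) ^ k := by positivity
  rw [mul_one_div] at h1
  nlinarith

theorem sel' (sel : SelStmt) (ι J : Type) [Fintype ι] [Fintype J] (ω : ι → ℝ) (c P r : ι → J → ℝ)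
    (a L : ℝ) (hL : 0 < L) (hω : ∀ i, 0 ≤ ω i) (hP : ∀ i j, 0 < P i j) (hr : ∀ i j, 0 ≤ r i j) :
    ∃ (t : ℝ) (k : ι → Prop), a ≤ t ∧ t < a + L ∧
      (∀ i, ¬ k i → ∀ (j : J) (m : ℤ), r i j < |c i j - t - m * P i j|) ∧
      ∑ i, (if k i then ω i else 0) ≤ ∑ i, ω i * ∑ j, 2 * r i j * (1 / P i j + 1 / L) := by
  obtain ⟨t, h1, h2, h3⟩ := sel ι J ω c P r a L hL hω hP hr
  refine ⟨t, fun i => ∃ (j : J) (m : ℤ), |c i j - t - m * P i j| ≤ r i j, h1, h2,
    fun i h j m => not_le.1 fun h' => h ⟨j, m, h'⟩, ?_⟩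
  convert h3

omit [Fintype V] in
theorem C0.t0_gt (c : C0 V) {x : V} {r : ℝ} (h : ∀ m : ℤ, r < |c.E.π x - c.β - m * c.w|) :
    r < c.t0 x := by
  have h1 := h (c.bk x)
  have h2 := h (c.bk x + 1)
  have l1 := c.blo_le x
  have l2 := c.lt_bhi x
  unfold C0.blo at l1 l2
  push_cast at h2
  rw [abs_of_nonneg (by linarith)] at h1
  rw [abs_of_nonpos (by linarith)] at h2
  unfold C0.t0 C0.blo
  exact lt_min (by linarith) (by linarith)

theorem C1.ψ_or (c : C1 V) {x : V} (h : 9 * c.w ≤ c.D.b x) :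
    9 * c.w ≤ c.ψ (20 * c.w) x ∨ 9 * c.w ≤ c.ψ (40 * c.w) x := by
  have hw := c.w_pos
  by_contra hn
  push Not at hn
  rcases inf2_lt hn.1 with a | ⟨z, hz, a⟩
  · linarith
  rcases inf2_lt hn.2 with b | ⟨z', hz', b⟩
  · linarith
  rw [abs_lt] at a b
  have e := (c.ctr_eq hz (x := x) (by linarith [a.2])).symm.trans
    (c.ctr_eq hz' (x := x) (by linarith [b.2]))
  subst e
  linarith [a.2, b.1]

theorem geom_C0 (gain : GainStmt) (sel : SelStmt) (c : C0 V) (κ : Type) [Fintype κ]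
    (x y : κ → V) (W : κ → ℝ) (idx : κ → ℕ) (hW : ∀ q, 0 ≤ W q)
    (hq : ∀ q, c.D.OK c.E (x q) (y q) ∧ c.E.AtScale c.w (idx q) (x q) (y q) ∧
      1000 * c.E.δ ≤ c.w / K0 ^ idx q) (k1 : κ → Prop)
    (hk0 : ∀ q, idx q = 0 → ¬ k1 q → c.w / 4 ≤ c.t0 (x q))
    (hk1 : ∀ q, 0 < idx q → ¬ k1 q → 70 * c.E.d (x q) (y q) < c.t0 (x q) ∧
      70 * c.E.d (x q) (y q) < |c.E.π (x q) - c.blo (x q) - c.w / 2|)
    (hk : ∑ q, (if k1 q then (if idx q = 0 then W q / 2 else W q) else 0) ≤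
      ∑ q, W q * (if idx q = 0 then 3 / 8 else 1 / 1000 * (1 / 2) ^ idx q)) :
    ∃ (T : Stage c.E c.w c.D) (alive : κ → Option T.ι) (win : κ → Prop),
      (∀ q i, alive q = some i → 0 < idx q ∧ (T.sub i).OK c.E (x q) (y q) ∧
        x q ∈ (T.sub i).Terr c.E (c.w / K0) ∧ y q ∈ (T.sub i).Terr c.E (c.w / K0)) ∧
      (∀ q, win q → idx q = 0 ∧ ((∃ l, cc * c.w / 16 ≤ T.g l (x q) ∧ T.g l (y q) = 0) ∨
        5 * (130 * cc * c.w) ≤ |c.D.X (x q) - c.D.X (y q)|)) ∧
      ∑ q, W q * (if idx q = 0 then 1 / 8 else -(1 / 16 * (1 / 2) ^ idx q)) ≤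
        ∑ q, W q * (if win q then 1 else if 0 < idx q ∧ alive q = none then -1 else 0) := by
  obtain ⟨c, rfl⟩ := exists_C1 c
  have hw := c.w_pos
  have hd : ∀ q, 0 ≤ c.E.d (x q) (y q) := fun q => c.E.d_nonneg _ _
  have h0 : ∀ q, idx q = 0 → 10 ^ 4 * c.w ≤ c.E.d (x q) (y q) := fun q h => by
    have := (hq q).2.1.1
    rwa [h, pow_zero, div_one] at this
  have h1 : ∀ q, 0 < idx q → 10 ^ 6 * c.E.d (x q) (y q) ≤ c.w * (1 / 2) ^ idx q := fun q h =>
    scale_le hw h (hq q).2.1.2.1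
  -- the radius
  obtain ⟨ϱ, ϱ1, ϱ2, hϱ⟩ : ∃ ϱ, 20 * c.w ≤ ϱ ∧ ϱ ≤ 40 * c.w ∧
      ∑ q, (if idx q = 0 ∧ ¬ k1 q then W q / 2 else 0) ≤
        ∑ q, (if idx q = 0 ∧ ¬ k1 q ∧ 9 * c.w ≤ c.ψ ϱ (x q) then W q else 0) := by
    by_contra hn
    push Not at hn
    have a := hn (20 * c.w) le_rfl (by linarith)
    have b := hn (40 * c.w) (by linarith) le_rfl
    have := add_lt_add a b
    rw [← Finset.sum_add_distrib, ← Finset.sum_add_distrib] at this
    refine absurd this (not_lt.2 (Finset.sum_le_sum fun q _ => ?_))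
    have := hW q
    by_cases e : idx q = 0 ∧ ¬ k1 q
    · have := c.ψ_or (x := x q) (by linarith [(hq q).1.2.2.1, h0 q e.1])
      simp only [e.1, e.2, not_false_eq_true, true_and, and_self, if_true]
      rcases this with h | h <;> simp only [h, if_true] <;> split_ifs <;> linarith
    · rw [if_neg e]
      split_ifs <;> linarith
  have hW' : ∀ q, 0 ≤ (if idx q = 0 then 0 else W q) := fun q => by
    split_ifs
    · exact le_rfl
    · exact hW q
  -- the inner margin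
  obtain ⟨t, k2, t1, t2, hk2', ht⟩ := sel' sel κ (Fin 3) (fun q => if idx q = 0 then 0 else W q)
    (fun q => ![c.t0 (x q),
      c.t0 (x q) + 2 * (c.σ (c.ctr (x q)) * c.D.X (x q) - c.v (c.ctr (x q))),
      c.t0 (x q) + 2 * (c.Y2 (c.ctr (x q)) (x q) - c.v (c.ctr (x q)))])
    (fun _ _ => c.w / 16) (fun q _ => 70 * c.E.d (x q) (y q)) (c.w / 8) (c.w / 16) (by linarith)
    hW' (fun _ _ => by linarith) (fun q _ => by linarith [hd q])
  -- the levels
  obtain ⟨s, k3, s1, s2, hk3', hs⟩ := sel' sel κ Unit (fun q => if idx q = 0 then 0 else W q)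
    (fun q _ => c.ψ ϱ (x q)) (fun _ _ => c.w) (fun q _ => 70 * c.E.d (x q) (y q)) 0 c.w hw
    hW' (fun _ _ => hw) (fun q _ => by linarith [hd q])
  obtain ⟨hk2, ht⟩ : (∀ q, ¬ k2 q →
      70 * c.E.d (x q) (y q) < |c.t0 (x q) - t| ∧ 70 * c.E.d (x q) (y q) <
        |c.t0 (x q) + 2 * (c.σ (c.ctr (x q)) * c.D.X (x q) - c.v (c.ctr (x q))) - t| ∧
      70 * c.E.d (x q) (y q) <
        |c.t0 (x q) + 2 * (c.Y2 (c.ctr (x q)) (x q) - c.v (c.ctr (x q))) - t|) ∧
      ∑ q, (if k2 q then (if idx q = 0 then 0 else W q) else 0) ≤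
        ∑ q, W q * (if idx q = 0 then 0 else 1 / 50 * (1 / 2) ^ idx q) := by
    refine ⟨fun q h' => ?_, ht.trans (Finset.sum_le_sum fun q _ => ?_)⟩
    · have h := hk2' q h'
      exact ⟨by simpa using h 0 0, by simpa using h 1 0, by simpa using h 2 0⟩
    · split_ifs with e
      · simp
      · refine mul_le_mul_of_nonneg_left ?_ (hW q)
        have := h1 q (Nat.pos_of_ne_zero e)
        rw [Finset.sum_const, Finset.card_univ, Fintype.card_fin, nsmul_eq_mul]
        have e2 : ((3 : ℕ) : ℝ) * (2 * (70 * c.E.d (x q) (y q)) * (1 / (c.w / 16) + 1 / (c.w / 16))) =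
          13440 * c.E.d (x q) (y q) / c.w := by field_simp; ring
        rw [e2, div_le_iff₀ hw]
        linarith [hd q]
  obtain ⟨hk3, hs⟩ : (∀ q, ¬ k3 q →
      70 * c.E.d (x q) (y q) < |c.ψ ϱ (x q) - (6 * c.w + s)| ∧
      70 * c.E.d (x q) (y q) < |c.ψ ϱ (x q) - (10 * c.w + s)|) ∧
      ∑ q, (if k3 q then (if idx q = 0 then 0 else W q) else 0) ≤
        ∑ q, W q * (if idx q = 0 then 0 else 1 / 1000 * (1 / 2) ^ idx q) := by
    refine ⟨fun q h' => ?_, hs.trans (Finset.sum_le_sum fun q _ => ?_)⟩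
    · have h := hk3' q h'
      have a := h () 6
      have b := h () 10
      push_cast at a b
      exact ⟨a.trans_le (le_of_eq (by congr 1; ring)), b.trans_le (le_of_eq (by congr 1; ring))⟩
    · split_ifs with e
      · simp
      · refine mul_le_mul_of_nonneg_left ?_ (hW q)
        have := h1 q (Nat.pos_of_ne_zero e)
        rw [Finset.sum_const, Finset.card_univ, Fintype.card_unit, one_nsmul]
        have e2 : 2 * (70 * c.E.d (x q) (y q)) * (1 / c.w + 1 / c.w) =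
          280 * c.E.d (x q) (y q) / c.w := by field_simp; ring
        rw [e2, div_le_iff₀ hw]
        linarith [hd q]
  let e : C2 V := ⟨c, t, s, ϱ, t1, by linarith, s1, by linarith, ϱ1, ϱ2⟩
  refine ⟨e.stage, fun q => if 0 < idx q ∧ ¬ k1 q ∧ ¬ k2 q ∧ ¬ k3 q then
      some ⟨e.rep (x q), (e.rep_spec (hq q).1.1 rfl).1⟩ else none,
    fun q => idx q = 0 ∧ ¬ k1 q ∧ 9 * c.w ≤ c.ψ ϱ (x q), fun q i hi => ?_, fun q h => ⟨h.1, ?_⟩, ?_⟩
  · dsimp only at hi
    split_ifs at hi with h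
    obtain rfl := Option.some.inj hi
    obtain ⟨a, b, d, f⟩ := h
    have m1 := h1 q a
    have m2 : c.w * (1 / 2 : ℝ) ^ idx q ≤ c.w :=
      mul_le_of_le_one_right hw.le (pow_le_one₀ (by norm_num) (by norm_num))
    have m3 := (hq q).2.1.1
    have m4 := (hq q).2.2
    have := c.E.δ_pos
    exact ⟨a, e.alive_pair (hq q).1 (show 1000 * c.E.d _ _ ≤ c.w by linarith [hd q])
      (show c.E.δ ≤ c.E.d _ _ by linarith) (hk1 q a b).1 (hk1 q a b).2 (hk2 q d).1 (hk2 q d).2.1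
      (hk2 q d).2.2 (hk3 q f).1 (hk3 q f).2⟩
  · exact e.win_pair gain (hq q).1 (h0 q h.1) (hq q).2.1.2.2 (hk0 q h.1 h.2.1) h.2.2
  · have tot := add_le_add (add_le_add hk ht) (add_le_add hs hϱ)
    simp only [← Finset.sum_add_distrib] at tot
    rw [← sub_nonneg, ← Finset.sum_sub_distrib] at tot ⊢
    refine tot.trans (Finset.sum_le_sum fun q _ => ?_)
    have := hW q
    by_cases a : idx q = 0
    · by_cases b : k1 q
      · simp [a, b]; linarith
      · by_cases d : 9 * c.w ≤ c.ψ ϱ (x q) <;> simp [a, b, d] <;> linarith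
    · have p0 : 0 ≤ W q * (1 / 2 : ℝ) ^ idx q := by positivity
      have a' : 0 < idx q := Nat.pos_of_ne_zero a
      by_cases b : k1 q <;> by_cases d : k2 q <;> by_cases f : k3 q <;>
        simp only [a, a', b, d, f, if_true, if_false, false_and, true_and, not_true,
          not_false_eq_true, and_self, and_false, reduceCtorEq] <;> linarith

theorem geom : GeomImp := by
  intro gain sel V _ E w D hδ hΛ dom κ _ x y W idx hW hq
  have hw : 0 < w := C0.w_pos ⟨E, w, D, 0, hδ, hΛ, dom⟩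
  have hd : ∀ q, 0 ≤ E.d (x q) (y q) := fun q => E.d_nonneg _ _
  obtain ⟨β, k1, -, -, hk1, hβ⟩ := sel' sel κ Unit (fun q => if idx q = 0 then W q / 2 else W q)
    (fun q _ => E.π (x q)) (fun q _ => if idx q = 0 then w else w / 2)
    (fun q _ => if idx q = 0 then w / 4 else 70 * E.d (x q) (y q)) 0 (2 * w) (by linarith)
    (fun q => by split_ifs <;> linarith [hW q]) (fun q _ => by split_ifs <;> linarith)
    (fun q _ => by split_ifs <;> linarith [hd q])
  refine geom_C0 gain sel ⟨E, w, D, β, hδ, hΛ, dom⟩ κ x y W idx hW hq k1 (fun q a h' => ?_)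
    (fun q a h' => ?_) (hβ.trans (Finset.sum_le_sum fun q _ => ?_))
  · have h := hk1 q h'
    simp only [if_pos a] at h
    exact (C0.t0_gt _ (h ())).le
  · have h := hk1 q h'
    simp only [if_neg a.ne'] at h
    refine ⟨C0.t0_gt _ fun m => ?_, ?_⟩
    · have := h () (2 * m)
      push_cast at this
      exact this.trans_le (le_of_eq (by congr 1; ring))
    · have := h () (2 * C0.bk ⟨E, w, D, β, hδ, hΛ, dom⟩ (x q) + 1)
      push_cast at this
      exact this.trans_le (le_of_eq (by unfold C0.blo; congr 1; ring))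
  · rw [Finset.sum_const, Finset.card_univ, Fintype.card_unit, one_nsmul]
    split_ifs with a
    · have : 2 * (w / 4) * (1 / w + 1 / (2 * w)) = 3 / 4 := by field_simp; ring
      rw [this]; linarith
    · refine mul_le_mul_of_nonneg_left ?_ (hW q)
      have := scale_le hw (Nat.pos_of_ne_zero a) (hq q).2.1.2.1
      have e2 : 2 * (70 * E.d (x q) (y q)) * (1 / (w / 2) + 1 / (2 * w)) =
        350 * E.d (x q) (y q) / w := by field_simp; ring
      rw [e2, div_le_iff₀ hw]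
      linarith [hd q]

end Crest.Agent.N206.TA
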